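import Vale.Agent.P016Z.Sym.G2b
import Vale.Agent.P016Z.Base.Psi
import Vale.Agent.P016Z.Base.Cls
import Mathlib.LinearAlgebra.QuadraticForm.Signature

/-!
P016, block SYM: the quadratic Gauss sum `G2 n = ∑_{x mod n} psi (x² / n)` of `R`: absolute value,
behaviour under squares, and the fact that its sign only depends on the class of `n`.
-/

open NumberField Finset
open scoped ComplexConjugate

set_option linter.unusedSectionVars false

namespace Vale.Agent.P016Z.Sym

open TH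

variable {K : Type} [Field K] [NumberField K]

/-- the form `Tr (ν x²)` -/
noncomputable def trForm (ν : K) : QuadraticForm ℚ K :=
  LinearMap.BilinMap.toQuadraticMap ((Algebra.traceForm ℚ K).compl₁₂ (LinearMap.mulLeft ℚ ν)
    LinearMap.id)

theorem trForm_apply (ν x : K) : trForm ν x = Algebra.trace ℚ K (ν * x ^ 2) := by
  simp only [trForm, LinearMap.BilinMap.toQuadraticMap_apply, LinearMap.compl₁₂_apply,
    LinearMap.mulLeft_apply, LinearMap.id_coe, id_eq, Algebra.traceForm_apply]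
  congr 1
  ring

open Classical in
/-- the form `Tr (ν x²)` has signature zero when `-1` is a square -/
theorem exists_diag {i : K} (hi : i ^ 2 = -1) {ν : K} (hν : ν ≠ 0) :
    ∃ (e : K ≃ₗ[ℚ] (Fin (Module.finrank ℚ K) → ℚ)) (w : Fin (Module.finrank ℚ K) → ℚ),
      (∀ k, w k ≠ 0) ∧
      (univ.filter fun k => 0 < w k).card = (univ.filter fun k => ¬ 0 < w k).card ∧
      ∀ x, Algebra.trace ℚ K (ν * x ^ 2) = ∑ k, w k * e x k ^ 2 := by
  have : Invertible (2 : ℚ) := invertibleOfNonzero two_ne_zero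
  obtain ⟨w, hw⟩ := (trForm ν).equivalent_weightedSumSquares
  have h1 := QuadraticForm.sigPos_of_equiv_weightedSumSquares hw
  have h2 := QuadraticForm.sigNeg_of_equiv_weightedSumSquares hw
  obtain ⟨e⟩ := hw
  have hq : ∀ x, Algebra.trace ℚ K (ν * x ^ 2) = ∑ k, w k * e.toLinearEquiv x k ^ 2 := by
    intro x
    rw [← trForm_apply, ← e.map_app x, QuadraticMap.weightedSumSquares_apply]
    exact sum_congr rfl fun k _ => by rw [smul_eq_mul, sq]; rfl
  have hi0 : i ≠ 0 := by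
    rintro rfl
    norm_num at hi
  have h3 : QuadraticMap.Equivalent (trForm ν) (-trForm ν) := by
    refine ⟨⟨LinearEquiv.ofBijective (LinearMap.mulLeft ℚ i) (Equiv.mulLeft₀ i hi0).bijective,
      fun x => ?_⟩⟩
    change -trForm ν (i * x) = trForm ν x
    rw [trForm_apply, trForm_apply, mul_pow, hi, ← map_neg]
    congr 1
    ring
  have h4 := h3.sigPos_eq
  rw [sigPos_neg, h1, h2] at h4
  have hw0 : ∀ k, w k ≠ 0 := by
    intro k hk
    set x := e.toLinearEquiv.symm (Pi.single k 1) with hx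
    have hx0 : x ≠ 0 := by
      rw [hx, ne_eq, LinearEquiv.map_eq_zero_iff]
      intro h
      simpa using congrFun h k
    have h5 : ∀ y, Algebra.trace ℚ K (ν * (x + y) ^ 2) = Algebra.trace ℚ K (ν * y ^ 2) := by
      intro y
      rw [hq, hq]
      refine sum_congr rfl fun j _ => ?_
      rw [map_add, Pi.add_apply, hx, LinearEquiv.apply_symm_apply]
      by_cases hj : j = k
      · rw [hj, hk, zero_mul, zero_mul]
      · rw [Pi.single_eq_of_ne hj, zero_add]
    have h6 := h5 0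
    have h7 := h5 (2 * ν * x)⁻¹
    have h8 : ν * (x + (2 * ν * x)⁻¹) ^ 2 = ν * (x + 0) ^ 2 + 1 + ν * (2 * ν * x)⁻¹ ^ 2 := by
      field_simp
      ring
    have h10 : Algebra.trace ℚ K 1 = Module.finrank ℚ K := by
      rw [← map_one (algebraMap ℚ K), Algebra.trace_algebraMap, nsmul_eq_mul, mul_one]
    rw [h8, map_add, map_add, h6, h10] at h7
    have h9 : (0 : ℚ) < Module.finrank ℚ K := by exact_mod_cast Module.finrank_pos
    simp only [ne_eq, OfNat.ofNat_ne_zero, not_false_eq_true, zero_pow, mul_zero, map_zero] at h7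
    linarith
  refine ⟨e.toLinearEquiv, w, hw0, ?_, hq⟩
  rw [← Set.ncard_coe_finset, ← Set.ncard_coe_finset, coe_filter_univ, coe_filter_univ, h4]
  congr 1
  ext k
  simp only [Set.mem_ofPred_eq, not_lt]
  exact ⟨le_of_lt, fun h => lt_of_le_of_ne h (hw0 k)⟩

variable [Dat K]

/-- the part of the additive character given by the places in `S` -/
noncomputable def psT (y : K) : ℂ := ee (trR y) / psi y

theorem psT_add (x y : K) : psT (x + y) = psT x * psT y := by
  rw [psT, psT, psT, trR_add, ee_add, psi_add, mul_div_mul_comm]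

theorem psT_of_mem {x : K} (hx : x ∈ Si K) : psT x = 1 := by
  rw [psT, psi_of_mem_Si hx, div_self (ee_ne _)]

theorem psT_congr {x y : K} (h : x - y ∈ Si K) : psT x = psT y := by
  rw [show x = y + (x - y) by ring, psT_add, psT_of_mem h, mul_one]

theorem ee_trR (x : K) : ee (trR x) = psi x * psT x := by
  rw [psT, mul_div_cancel₀ _ (psi_ne_zero x)]

/-- the quadratic Gauss sum -/
noncomputable def G2 (n : R K) : ℂ := rsum n (fun x => E n (x ^ 2))

/-- the local Gauss sum at `S` -/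
noncomputable def T2 (d : Si K) (n : K) : ℂ := rsum d (fun x => psT ((x : K) ^ 2 / n))

theorem E_sq_per {n : R K} (hn : n ≠ 0) : PerM n (fun x => E n (x ^ 2)) := fun x y h =>
  E_per' hn _ _ (by rw [sq_sub_sq]; exact h.mul_left _)

theorem T2_per {d : Si K} (hd : d ≠ 0) {n : K} (hdn : (d : K) / n ∈ Si K) :
    PerM d (fun x : Si K => psT ((x : K) ^ 2 / n)) := by
  intro x y h
  rw [dvd_iff_div_mem_Si hd] at h
  refine psT_congr ?_
  have hd' : (d : K) ≠ 0 := fun h => hd (Subtype.ext h)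
  have : (x : K) ^ 2 / n - (y : K) ^ 2 / n =
      ((x - y : Si K) : K) / d * ((d : K) / n) * ((x : K) + y) := by
    push_cast
    field_simp
    ring
  rw [this]
  exact mul_mem (mul_mem h hdn) (add_mem x.2 y.2)

/-- the elements of `a R ∩ c Si` -/
def Lat (a c : K) : AddSubgroup K where
  carrier := {y | y / a ∈ R K ∧ y / c ∈ Si K}
  add_mem' := fun hx hy => ⟨by rw [add_div]; exact add_mem hx.1 hy.1,
    by rw [add_div]; exact add_mem hx.2 hy.2⟩
  zero_mem' := ⟨by rw [zero_div]; exact zero_mem _, by rw [zero_div]; exact zero_mem _⟩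
  neg_mem' := fun hx => ⟨by rw [neg_div]; exact neg_mem hx.1, by rw [neg_div]; exact neg_mem hx.2⟩

theorem mem_Lat {a c y : K} : y ∈ Lat a c ↔ y / a ∈ R K ∧ y / c ∈ Si K := Iff.rfl

theorem trace_int {x : K} (h1 : x ∈ R K) (h2 : x ∈ Si K) :
    ∃ k : ℤ, Algebra.trace ℚ K x = k := by
  obtain ⟨k, hk⟩ := trR_int (isIntegral_of_mem h1 h2)
  exact ⟨k, by rw [trR] at hk; exact_mod_cast hk⟩

theorem mem_of_div {A : Subalgebra (𝓞 K) K} {x c : K} (hc0 : c ≠ 0) (hc : c ∈ A)
    (h : x / c ∈ A) : x ∈ A := by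
  rw [← div_mul_cancel₀ x hc0]
  exact mul_mem h hc

theorem two_discr_dvd : (discr K).natAbs * 2 ∣ Q K ^ 2 := by
  rw [sq]
  exact Nat.mul_dvd_mul Dat.disc_dvd (Dvd.dvd.trans (by norm_num) (Q_dvd36 K))

/-- the product formula for the global and local Gauss sums -/
theorem G2_mul_T2 {n : R K} (hn : n ≠ 0) {c : K} (hc0 : c ≠ 0) (hc : c ∈ Si K)
    (hcn : c ^ 2 / n ∈ Si K) (hnc : (n : K) / (c * (Q K : K) ^ 2) ∈ Si K) {d : Si K} (hd : d ≠ 0)
    (hdn : (d : K) / n ∈ Si K) : ∃ r : ℝ, 0 < r ∧ G2 n * T2 d n = r := by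
  classical
  have hn' := coe_ne_zero hn
  have hd' : (d : K) ≠ 0 := fun h => hd (Subtype.ext h)
  have hQ := QK_ne K
  have hi : (z12 K ^ 3) ^ 2 = -1 := by
    rw [← pow_mul]
    exact (Dat.hz.pow (by norm_num) (show 12 = 6 * 2 by norm_num)).eq_neg_one_of_two_right
  obtain ⟨e, w, hw, hsig, hq⟩ := exists_diag hi (inv_ne_zero hn')
  have hnc' : (n : K) / c ∈ Si K := by
    have : (n : K) / c = (n : K) / (c * (Q K : K) ^ 2) * (Q K : K) ^ 2 := by field_simp
    rw [this]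
    exact mul_mem hnc (pow_mem (natCast_mem _ _) 2)
  have hLΛ : Lat (n : K) c ≤ Lat 1 1 := fun y hy => ⟨by
    rw [div_one]; exact mem_of_div hn' n.2 hy.1, by rw [div_one]; exact mem_of_div hc0 hc hy.2⟩
  have hNL : Lat (n : K) d ≤ Lat (n : K) c := fun y hy => ⟨hy.1, by
    have : y / c = y / d * ((d : K) / n) * ((n : K) / c) := by field_simp
    rw [this]
    exact mul_mem (mul_mem hy.2 hdn) hnc'⟩
  have := finite_Rs hn
  have := finite_Rs_Si hd
  have := Fintype.ofFinite (Rs n)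
  have := Fintype.ofFinite (Rs d)
  choose y hy1 hy2 using fun p : Rs n × Rs d =>
    exists_R_near_mod (Quotient.out p.1) n hn ((Quotient.out p.2 : Si K) : K) hd'
  have hy3 : ∀ p, (y p : K) ∈ Si K := fun p => by
    have h1 := add_mem (mem_of_div hd' d.2 (hy2 p)) (Quotient.out p.2 : Si K).2
    rwa [sub_add_cancel] at h1
  have hy4 : ∀ p, rs n (y p) = p.1 := fun p => by rw [← rs_out p.1, rs_eq]; exact hy1 p
  have hy5 : ∀ p, rs d ⟨y p, hy3 p⟩ = p.2 := fun p => by
    rw [← rs_out p.2, rs_eq, dvd_iff_div_mem_Si hd]; exact hy2 p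
  have hres : Res (Lat 1 1) (Lat (n : K) d) (univ : Finset (Rs n × Rs d))
      (fun p => (y p : K)) := by
    refine ⟨fun p _ => ⟨by rw [div_one]; exact (y p).2, by rw [div_one]; exact hy3 p⟩,
      fun x hx => ?_, fun p _ p' _ h => Prod.ext ?_ ?_⟩
    · rw [mem_Lat, div_one] at hx
      refine ⟨(rs n ⟨x, hx.1⟩, rs d ⟨x, hx.2⟩), mem_univ _, ?_, ?_⟩
      · exact (dvd_iff_div_mem hn).1 (rs_eq.1 (hy4 (rs n ⟨x, hx.1⟩, rs d ⟨x, hx.2⟩)).symm)
      · exact (dvd_iff_div_mem_Si hd).1 (rs_eq.1 (hy5 (rs n ⟨x, hx.1⟩, rs d ⟨x, hx.2⟩)).symm)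
    · rw [← hy4, ← hy4, rs_eq, dvd_iff_div_mem hn]
      exact h.1
    · rw [← hy5, ← hy5, rs_eq, dvd_iff_div_mem_Si hd]
      exact h.2
  obtain ⟨r, hr, hsum⟩ := milgram e w hw hsig hq
    (b := fun x y => Algebra.trace ℚ K (2 * x * y / n))
    (fun x y => by
      rw [← map_add, ← map_add]
      congr 1
      ring) hNL hLΛ
    (fun y hy => by
      refine trace_int ?_ ?_
      · have : (n : K)⁻¹ * y ^ 2 = (y / n) ^ 2 * n := by field_simp
        rw [this]
        exact mul_mem (pow_mem hy.1 2) n.2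
      · have : (n : K)⁻¹ * y ^ 2 = (y / c) ^ 2 * (c ^ 2 / n) := by field_simp
        rw [this]
        exact mul_mem (pow_mem hy.2 2) hcn)
    (fun x hx y hy => by
      rw [mem_Lat, div_one] at hx
      refine trace_int ?_ ?_
      · rw [mul_div_assoc]
        exact mul_mem (mul_mem (ofNat_mem _ 2) hx.1) hy.1
      · have : 2 * x * y / n = 2 * x * (y / d * ((d : K) / n)) := by field_simp
        rw [this]
        exact mul_mem (mul_mem (ofNat_mem _ 2) hx.2) (mul_mem hy.2 hdn))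
    (fun x hx => by
      have key : ∀ g ∈ Lat (n : K) c, IsIntegral ℤ ((Q K : K) ^ 2 * (x * g / n)) := by
        intro g hg
        have h1 : IsIntegral ℤ (((discr K).natAbs : K) * (2 * x * g / n)) := by
          refine isIntegral_discr_mul fun o => ?_
          obtain ⟨k, hk⟩ := hx ((o : K) * g) ⟨by
            rw [mul_div_assoc]; exact mul_mem (coe_mem_Loc o) hg.1, by
            rw [mul_div_assoc]; exact mul_mem (coe_mem_Loc o) hg.2⟩
          refine ⟨k, ?_⟩
          rw [trR, show (o : K) * (2 * x * g / n) = 2 * x * ((o : K) * g) / n by ring, hk,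
            Rat.cast_intCast]
        have h2 := isIntegral_mul_of_dvd (two_discr_dvd (K := K)) (x := x * g / n) (by
          rw [show (((discr K).natAbs * 2 : ℕ) : K) * (x * g / n) =
            ((discr K).natAbs : K) * (2 * x * g / n) by push_cast; ring]
          exact h1)
        rwa [Nat.cast_pow] at h2
      rw [mem_Lat, div_one]
      constructor
      · have h1 := key n ⟨by rw [div_self hn']; exact one_mem _, hnc'⟩
        rw [mul_div_cancel_right₀ _ hn'] at h1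
        exact mem_R.2 ⟨2, h1⟩
      · obtain ⟨m, hm, h1⟩ := exists_coprime_mul_mem_R (c / n)
        have hm0 : (m : K) ≠ 0 := by exact_mod_cast ne_zero_of_coprime hm
        have h2 := key (m * c) ⟨by rwa [mul_div_assoc], by
          rw [mul_div_cancel_right₀ _ hc0]; exact natCast_mem _ _⟩
        have : x = (Q K : K) ^ 2 * (x * (m * c) / n) * ((n : K) / (c * (Q K : K) ^ 2)) *
            (m : K)⁻¹ := by field_simp
        rw [this]
        exact mul_mem (mul_mem (mem_Si_of_isIntegral h2) hnc) (inv_mem_Si hm))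
    (fun x => by
      obtain ⟨a, ha, h1⟩ := exists_den (x / n)
      obtain ⟨b, hb, h2⟩ := exists_den (x / d)
      refine ⟨a * b, mul_ne_zero ha hb, ?_, ?_⟩
      · rw [nsmul_eq_mul, mul_div_assoc]
        exact mem_R_of_isIntegral (isIntegral_mul_of_dvd (dvd_mul_right a b) h1)
      · rw [nsmul_eq_mul, mul_div_assoc]
        exact mem_Si_of_isIntegral (isIntegral_mul_of_dvd (dvd_mul_left b a) h2))
    hres
  refine ⟨r, hr, ?_⟩
  rw [← hsum, G2, T2, rsum_eq_sum, rsum_eq_sum, sum_mul_sum, ← Fintype.sum_prod_type']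
  refine sum_congr rfl fun p _ => ?_
  have h1 : eQ (Algebra.trace ℚ K ((n : K)⁻¹ * (y p : K) ^ 2)) = ee (trR ((y p : K) ^ 2 / n)) := by
    rw [eQ, trR, div_eq_inv_mul]
  rw [h1, ee_trR]
  congr 1
  · exact (E_sq_per hn _ _ (hy1 p)).symm
  · exact (T2_per hd hdn ⟨y p, hy3 p⟩ _ ((dvd_iff_div_mem_Si hd).2 (hy2 p))).symm

theorem isUnit_two : IsUnit (2 : R K) :=
  isUnit_of_mul_isUnit_left (y := 3) (by
    rw [show (2 : R K) * 3 = 6 by norm_num]; exact isUnit_six)

theorem G2_one : G2 (1 : R K) = 1 := by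
  rw [G2, rsum_one (E_sq_per one_ne_zero), E_of_dvd one_ne_zero (one_dvd _)]

/-- multiplication of the modulus by a square -/
theorem G2_mul_sq {n u : R K} (hn : n ≠ 0) (hu : u ≠ 0) : G2 (n * u ^ 2) = Nr u * G2 n := by
  classical
  have hun : u * n ≠ 0 := mul_ne_zero hu hn
  have := finite_Rs hn
  have := finite_Rs hu
  have := finite_Rs hun
  have e1 : n * u ^ 2 = u * n * u := by ring
  have hm : u * n * u ≠ 0 := mul_ne_zero hun hu
  rw [G2, e1, rsum_mul hun (E_sq_per hm)]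
  have h1 : ∀ x : R K, rsum u (fun y => E (u * n * u) ((x + u * n * y) ^ 2)) =
      Nr u * if u ∣ x then E (u * n * u) (x ^ 2) else 0 := by
    intro x
    have h2 : ∀ y : R K, E (u * n * u) ((x + u * n * y) ^ 2) =
        E (u * n * u) (x ^ 2) * E u (y * (2 * x)) := by
      intro y
      rw [show (x + u * n * y) ^ 2 = x ^ 2 + u * n * (y * (2 * x)) + u * n * u * (n * y ^ 2) by
        ring, E_add, E_add, E_mul_cancel hun, E_of_dvd hm (dvd_mul_right _ _), mul_one]
    simp only [h2, rsum_const_mul, rsum_E hu, isUnit_two.dvd_mul_left]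
    split_ifs <;> ring
  simp only [h1, rsum_const_mul]
  congr 1
  have hper : PerM (u * n) (fun x => if u ∣ x then E (u * n * u) (x ^ 2) else 0) := by
    intro x y ⟨t, ht⟩
    have hx : x = y + u * (n * t) := by linear_combination ht
    have h3 : u ∣ x ↔ u ∣ y := by rw [hx]; exact dvd_add_left (dvd_mul_right _ _)
    simp only [h3]
    split_ifs with h4
    · obtain ⟨z, rfl⟩ := h4
      refine E_per' hm _ _ ⟨t * (2 * z + n * t), ?_⟩
      rw [hx]
      ring
    · rfl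
  rw [rsum_mul hu hper, rsum, finsum_eq_single _ (rs u 0)]
  · obtain ⟨z, hz⟩ : u ∣ (rs u 0).out := by rw [← rs_eq_zero, rs_out, map_zero]
    rw [G2, ← rsum_comp_add z (E_sq_per hn), hz]
    refine rsum_congr fun y => ?_
    rw [if_pos ⟨z + y, by ring⟩, show u * n * u = u ^ 2 * n by ring,
      show (u * z + u * y) ^ 2 = u ^ 2 * (y + z) ^ 2 by ring, E_mul_cancel (pow_ne_zero 2 hu)]
  · intro x hx
    have h3 : ∀ y : R K, ¬ u ∣ x.out + u * y := fun y h => hx (by
      rw [dvd_add_left (dvd_mul_right _ _), ← rs_eq_zero, rs_out] at h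
      rw [h, map_zero])
    simp only [h3, if_false, rsum_const, mul_zero]

theorem G2_mul_conj {n : R K} (hn : n ≠ 0) : G2 n * conj (G2 n) = Nr n := by
  classical
  have := finite_Rs hn
  have h1 : ∀ y : R K, G2 n * conj (E n (y ^ 2)) =
      rsum n (fun t => E n (t ^ 2) * E n (y * (2 * t))) := by
    intro y
    rw [G2, ← rsum_comp_add y (E_sq_per hn), ← rsum_mul_const]
    refine rsum_congr fun t => ?_
    rw [← E_neg, ← E_add, ← E_add]
    congr 1
    ring
  conv_lhs => rw [G2, ← rsum_conj, ← rsum_const_mul]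
  rw [← G2]
  simp only [h1]
  rw [rsum_comm]
  simp only [rsum_const_mul, rsum_E hn, isUnit_two.dvd_mul_left]
  rw [rsum, finsum_eq_single _ (rs n 0)]
  · have h2 : n ∣ (rs n 0).out := by rw [← rs_eq_zero, rs_out, map_zero]
    rw [if_pos h2, E_of_dvd hn (h2.pow two_ne_zero), one_mul]
  · intro x hx
    rw [if_neg, mul_zero]
    rwa [← rs_eq_zero, rs_out, ← map_zero (rs n)]

theorem norm_G2 {n : R K} (hn : n ≠ 0) : ‖G2 n‖ = √(Nr n : ℝ) := by
  have h := G2_mul_conj hn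
  rw [Complex.mul_conj, Complex.normSq_eq_norm_sq] at h
  have h1 : ‖G2 n‖ ^ 2 = (Nr n : ℝ) := by exact_mod_cast h
  rw [← h1, Real.sqrt_sq (norm_nonneg _)]

/-- the normalised quadratic Gauss sum -/
noncomputable def gam2 (n : R K) : ℂ := G2 n / (√(Nr n : ℝ) : ℝ)

theorem sqrt_Nr_pos {n : R K} (hn : n ≠ 0) : 0 < √(Nr n : ℝ) :=
  Real.sqrt_pos.2 (by exact_mod_cast Nr_pos hn)

theorem G2_eq {n : R K} (hn : n ≠ 0) : G2 n = (√(Nr n : ℝ) : ℝ) * gam2 n := by
  rw [gam2, mul_div_cancel₀ _ (by exact_mod_cast (sqrt_Nr_pos hn).ne')]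

theorem norm_gam2 {n : R K} (hn : n ≠ 0) : ‖gam2 n‖ = 1 := by
  rw [gam2, norm_div, norm_G2 hn, Complex.norm_real, Real.norm_of_nonneg (Real.sqrt_nonneg _),
    div_self (sqrt_Nr_pos hn).ne']

theorem gam2_one : gam2 (1 : R K) = 1 := by
  rw [gam2, G2_one, Nr_one]; simp

theorem gam2_mul_sq {n u : R K} (hn : n ≠ 0) (hu : u ≠ 0) : gam2 (n * u ^ 2) = gam2 n := by
  have h1 : ((Nr u : ℕ) : ℂ) ≠ 0 := by exact_mod_cast Nr_ne_zero hu
  rw [gam2, gam2, G2_mul_sq hn hu, Nr_mul, Nr_pow, Nat.cast_mul, Nat.cast_pow,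
    Real.sqrt_mul (Nat.cast_nonneg _), Real.sqrt_sq (Nat.cast_nonneg _), Complex.ofReal_mul,
    Complex.ofReal_natCast, mul_comm _ ((Nr u : ℕ) : ℂ), mul_div_mul_left _ _ h1]

theorem gam2_eq_of_pos {n n' : R K} (hn : n ≠ 0) (hn' : n' ≠ 0) {T : ℂ} {r r' : ℝ} (hr : 0 < r)
    (hr' : 0 < r') (h : G2 n * T = r) (h' : G2 n' * T = r') : gam2 n = gam2 n' := by
  have key : ∀ {m : R K} {s : ℝ}, m ≠ 0 → 0 < s → G2 m * T = s → gam2 m * T = (‖T‖ : ℝ) := by
    intro m s hm hs h1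
    have h2 : gam2 m * T = ((s / √(Nr m : ℝ) : ℝ) : ℂ) := by
      rw [gam2, div_mul_eq_mul_div, h1, Complex.ofReal_div]
    have h3 := congrArg norm h2
    rw [norm_mul, norm_gam2 hm, one_mul, Complex.norm_real,
      Real.norm_of_nonneg (div_pos hs (sqrt_Nr_pos hm)).le] at h3
    rw [h2, h3]
  have hT : T ≠ 0 := by
    rintro rfl
    rw [mul_zero] at h
    exact hr.ne (by exact_mod_cast h)
  exact mul_right_cancel₀ hT ((key hn hr h).trans (key hn' hr' h').symm)

theorem gam2_of_P {n n' : R K} (hn : n ≠ 0) {y : Kˣ} (hy : y ∈ P K 1) (h : (n' : K) = n * y) :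
    gam2 n' = gam2 n := by
  have hQ := QK_ne K
  have hn0 := coe_ne_zero hn
  have hy0 := y.ne_zero
  have hn' : n' ≠ 0 := fun h0 => mul_ne_zero hn0 hy0 (by rw [← h, h0]; rfl)
  obtain ⟨k, hk⟩ := exists_pow_mul_mem_Si (n : K)⁻¹
  obtain ⟨l, hl⟩ := exists_pow_mul_mem_Si (n : K)
  obtain ⟨hy1, hy2⟩ := P_le_Su 1 hy
  have hQS : ∀ j : ℕ, (Q K : K) ^ j ∈ Si K := fun j => pow_mem (natCast_mem _ _) j
  have hQR : (Q K : R K) ^ (k + l + 2) ≠ 0 := (isUnit_Q.pow _).ne_zero
  set m : R K := n * ((Q K : R K) ^ (k + l + 2)) ^ 2 with hm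
  set m' : R K := n' * ((Q K : R K) ^ (k + l + 2)) ^ 2 with hm'
  have hm0 : m ≠ 0 := mul_ne_zero hn (pow_ne_zero 2 hQR)
  have hm0' : m' ≠ 0 := mul_ne_zero hn' (pow_ne_zero 2 hQR)
  have e1 : (m : K) = n * ((Q K : K) ^ (k + l + 2)) ^ 2 := by rw [hm]; push_cast; rfl
  have e2 : (m' : K) = m * y := by rw [hm', e1]; push_cast; rw [h]; ring
  have hmK := coe_ne_zero hm0
  set c : K := (Q K : K) ^ (2 * k + l + 2) with hc
  have hc0 : c ≠ 0 := pow_ne_zero _ hQ
  have h1 : c ^ 2 / m ∈ Si K := by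
    have : c ^ 2 / m = (Q K : K) ^ k * ((Q K : K) ^ k * (n : K)⁻¹) := by
      rw [e1, hc]; field_simp; ring
    rw [this]
    exact mul_mem (hQS k) hk
  have h2 : (m : K) / (c * (Q K : K) ^ 2) ∈ Si K := by
    have : (m : K) / (c * (Q K : K) ^ 2) = (Q K : K) ^ l * n := by
      rw [e1, hc]; field_simp; ring
    rw [this]
    exact hl
  have h3 : (m : K) ∈ Si K := mem_of_div (mul_ne_zero hc0 (pow_ne_zero 2 hQ))
    (mul_mem (hQS _) (hQS 2)) h2
  set d : Si K := ⟨m, h3⟩ with hd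
  have hd0 : d ≠ 0 := fun h0 => hmK (congrArg Subtype.val h0)
  have hdm : (d : K) / m ∈ Si K := by rw [hd]; simp only; rw [div_self hmK]; exact one_mem _
  have hdm' : (d : K) / m' ∈ Si K := by
    have : (d : K) / m' = (y : K)⁻¹ := by rw [e2, hd]; simp only; field_simp
    rw [this]
    exact hy2
  obtain ⟨r, hr, h4⟩ := G2_mul_T2 hm0 hc0 (hQS _) h1 h2 hd0 hdm
  obtain ⟨r', hr', h5⟩ := G2_mul_T2 hm0' hc0 (hQS _) (by
    rw [e2, ← div_div, div_eq_mul_inv _ (y : K)]
    exact mul_mem h1 hy2) (by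
    rw [e2, mul_div_right_comm]
    exact mul_mem h2 hy1) hd0 hdm'
  have h6 : T2 d (m' : K) = T2 d m := by
    obtain ⟨w, hw, hyw⟩ := exists_pow_six_near hy (2 * (2 * k + l + 2))
    obtain ⟨hw1, hw2⟩ := P_le_Su 0 hw
    have hw0 := w.ne_zero
    have hu : IsUnit ((⟨w, hw1⟩ : Si K) ^ 3) :=
      (IsUnit.of_mul_eq_one (⟨(w : K)⁻¹, hw2⟩ : Si K) (Subtype.ext (mul_inv_cancel₀ hw0))).pow 3
    rw [T2, ← rsum_comp_mul (u := (⟨w, hw1⟩ : Si K) ^ 3) (by
      obtain ⟨b, hb⟩ := hu.exists_left_inv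
      exact ⟨b, 0, by rw [hb, zero_mul, add_zero]⟩) (T2_per hd0 hdm'), T2]
    refine rsum_congr fun x => psT_congr ?_
    have h7 := (P K _).inv_mem hyw
    rw [mem_P] at h7
    have : (((⟨w, hw1⟩ : Si K) ^ 3 * x : Si K) : K) ^ 2 / m' - (x : K) ^ 2 / m =
        (x : K) ^ 2 * (c ^ 2 / m) * (Q K : K) *
          (((((y / w ^ 6)⁻¹ : Kˣ) : K) - 1) / (Q K : K) ^ (2 * (2 * k + l + 2) + 1)) := by
      rw [e2, hc]
      push_cast
      field_simp
      ring
    rw [this]
    exact mul_mem (mul_mem (mul_mem (pow_mem x.2 2) h1) (natCast_mem _ _)) h7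
  rw [h6] at h5
  rw [← gam2_mul_sq hn hQR, ← gam2_mul_sq hn' hQR]
  exact gam2_eq_of_pos hm0' hm0 hr' hr h5 h4

theorem exists_frac (w : Kˣ) : ∃ u v : R K, u ≠ 0 ∧ v ≠ 0 ∧ (u : K) = v * w := by
  obtain ⟨m, hm, h⟩ := exists_coprime_mul_mem_R (w : K)
  have hm0 : (m : K) ≠ 0 := by exact_mod_cast ne_zero_of_coprime hm
  refine ⟨⟨_, h⟩, m, fun h0 => mul_ne_zero hm0 w.ne_zero (congrArg Subtype.val h0),
    by exact_mod_cast ne_zero_of_coprime hm, by simp⟩

/-- invariance under squares of the field and under elements close to `1` -/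
theorem gam2_of_sq_P {n n' : R K} (hn : n ≠ 0) (w : Kˣ) {y : Kˣ} (hy : y ∈ P K 1)
    (h : (n' : K) = n * w ^ 2 * y) : gam2 n' = gam2 n := by
  have hn' : n' ≠ 0 := fun h0 => mul_ne_zero (mul_ne_zero (coe_ne_zero hn)
    (pow_ne_zero 2 w.ne_zero)) y.ne_zero (by rw [← h, h0]; rfl)
  obtain ⟨u, v, hu, hv, huv⟩ := exists_frac w
  rw [← gam2_mul_sq hn hu, ← gam2_mul_sq hn' hv]
  refine gam2_of_P (mul_ne_zero hn (pow_ne_zero 2 hu)) hy ?_
  push_cast
  rw [h, huv]
  ring

/-- the normalised Gauss sum only depends on the class modulo squares -/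
theorem gam2_of_cl {n n' : R K} (hn : n ≠ 0) (hn' : n' ≠ 0) (j : J K)
    (h : cl (n' : K) = cl (n : K) * j ^ 2) : gam2 n' = gam2 n := by
  obtain ⟨w, rfl⟩ := mkJ_surj j
  have h1 : cl ((Units.mk0 (n : K) (coe_ne_zero hn) * w ^ 2 : Kˣ) : K) =
      cl ((Units.mk0 (n' : K) (coe_ne_zero hn') : Kˣ) : K) := by
    rw [Units.val_mk0, h, cl_unit, map_mul, map_pow, ← cl_unit, Units.val_mk0]
  obtain ⟨v, y, hy, h2⟩ := mem_H.1 (cl_eq_iff.1 h1)
  refine gam2_of_sq_P hn (w * v ^ 3) hy ?_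
  have h3 := congrArg (fun t : Kˣ => (t : K)) (inv_mul_eq_iff_eq_mul.1 h2)
  simp only [Units.val_mk0, Units.val_mul, Units.val_pow_eq_pow_val] at h3 ⊢
  rw [h3]
  ring

/-- **the sign of the quadratic Gauss sum is a class function** -/
theorem gam2_congr {n n' : R K} (hn : n ≠ 0) (hn' : n' ≠ 0) (h : cl (n : K) = cl (n' : K)) :
    gam2 n = gam2 n' :=
  gam2_of_cl hn' hn 1 (by rw [h, one_pow, mul_one])

/-- **the sign is `+1` on the squares** -/
theorem gam2_eq_one {n : R K} (hn : n ≠ 0) (h : IsSquare (cl (n : K))) : gam2 n = 1 := by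
  obtain ⟨j, hj⟩ := h
  rw [← gam2_one (K := K)]
  refine gam2_of_cl one_ne_zero hn j ?_
  rw [hj, OneMemClass.coe_one, cl_one, sq]
  exact (one_mul (M := J K) _).symm

theorem G2_eq_sqrt {n : R K} (hn : n ≠ 0) (h : IsSquare (cl (n : K))) :
    G2 n = (√(Nr n : ℝ) : ℝ) := by
  rw [G2_eq hn, gam2_eq_one hn h, mul_one]

theorem G2_neg {n : R K} (hn : n ≠ 0) : G2 (-n) = conj (G2 n) := by
  have := finite_Rs hn
  rw [G2, G2, ← rsum_conj, ← rsum_assoc (Associated.refl n).neg_right (E_sq_per hn).conj]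
  refine rsum_congr fun x => ?_
  rw [E, E, ← psi_neg]
  congr 1
  push_cast
  ring

theorem conj_gam2 {n : R K} (hn : n ≠ 0) : conj (gam2 n) = gam2 n := by
  have hi : (z12 K ^ 3) ^ 2 = -1 := by
    rw [← pow_mul]
    exact (Dat.hz.pow (by norm_num) (show 12 = 6 * 2 by norm_num)).eq_neg_one_of_two_right
  have hi0 : z12 K ^ 3 ≠ 0 := by
    intro h
    rw [h] at hi
    norm_num at hi
  have h1 : gam2 (-n) = gam2 n := gam2_of_sq_P hn (Units.mk0 _ hi0) (one_mem _) (by
    rw [Units.val_mk0, hi]; push_cast; ring)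
  have h2 : Nr (-n) = Nr n := Nq_congr (Associated.refl n).neg_left
  nth_rewrite 2 [← h1]
  rw [gam2, gam2, G2_neg hn, h2, map_div₀, Complex.conj_ofReal]

theorem gam2_sq {n : R K} (hn : n ≠ 0) : gam2 n ^ 2 = 1 := by
  rw [sq]
  nth_rewrite 2 [← conj_gam2 hn]
  rw [Complex.mul_conj, Complex.normSq_eq_norm_sq, norm_gam2 hn]
  simp

/-- twisted multiplicativity -/
theorem G2_mul {a b : R K} (ha : a ≠ 0) (hb : b ≠ 0) (hab : IsCoprime a b) :
    G2 (a * b) = rsum a (fun x => E a (b * x ^ 2)) * rsum b (fun y => E b (a * y ^ 2)) := by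
  have := finite_Rs ha
  have := finite_Rs hb
  have hm := mul_ne_zero ha hb
  rw [G2, rsum_crt ha hab (E_sq_per hm), ← rsum_mul_const]
  refine rsum_congr fun x => ?_
  rw [← rsum_const_mul]
  refine rsum_congr fun y => ?_
  rw [show (b * x + a * y) ^ 2 = b * (b * x ^ 2) + a * (a * y ^ 2) + a * b * (2 * x * y) by ring,
    E_add, E_add, E_of_dvd hm (dvd_mul_right _ _), mul_one, E_mul_cancel ha, mul_comm a b,
    E_mul_cancel hb]

theorem exists_R_cl (j : J K) : ∃ n : R K, n ≠ 0 ∧ cl (n : K) = j := by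
  obtain ⟨x, rfl⟩ := mkJ_surj j
  obtain ⟨y, hy, h⟩ := exists_R_mem_P x 1
  refine ⟨⟨y, hy⟩, fun h0 => y.ne_zero (congrArg Subtype.val h0), ?_⟩
  change cl (y : K) = _
  rw [← cl_unit, eq_comm, cl_eq_iff, mul_comm, ← div_eq_mul_inv]
  exact P_le_H le_rfl h

/-- the sign of the quadratic Gauss sum as a function on the classes -/
noncomputable def gamJ (j : J K) : ℂ := gam2 (exists_R_cl j).choose

theorem gamJ_cl {n : R K} (hn : n ≠ 0) : gamJ (cl (n : K)) = gam2 n :=
  gam2_congr (exists_R_cl _).choose_spec.1 hn (exists_R_cl _).choose_spec.2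

theorem norm_gamJ (j : J K) : ‖gamJ j‖ = 1 := norm_gam2 (exists_R_cl j).choose_spec.1

theorem gamJ_mul_sq (j j' : J K) : gamJ (j * j' ^ 2) = gamJ j :=
  gam2_of_cl (exists_R_cl _).choose_spec.1 (exists_R_cl _).choose_spec.1 j' (by
    rw [(exists_R_cl _).choose_spec.2, (exists_R_cl _).choose_spec.2])

theorem gamJ_one : gamJ (1 : J K) = 1 := by
  rw [← cl_one, ← OneMemClass.coe_one (R K), gamJ_cl one_ne_zero, gam2_one]

theorem gamJ_sq (j : J K) : gamJ (j ^ 2) = 1 := by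
  rw [← one_mul (j ^ 2), gamJ_mul_sq, gamJ_one]

theorem gamJ_pow_two (j : J K) : gamJ j ^ 2 = 1 := gam2_sq (exists_R_cl j).choose_spec.1

theorem conj_gamJ (j : J K) : conj (gamJ j) = gamJ j := conj_gam2 (exists_R_cl j).choose_spec.1

theorem G2_eq_gamJ {n : R K} (hn : n ≠ 0) : G2 n = (√(Nr n : ℝ) : ℝ) * gamJ (cl (n : K)) := by
  rw [gamJ_cl hn, G2_eq hn]

end Vale.Agent.P016Z.Sym
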