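import Vale.Agent.P016Z.Sym.Symb
import Vale.Agent.P016Z.Sym.G2

/-!
P016, block SYM: Gauss sums of the sextic symbol, the reciprocity factor, and the statements of
the sub-blocks.
-/

namespace Vale.Agent.P016Z.Sym

open NumberField UniqueFactorizationMonoid
open scoped ComplexConjugate

variable {K : Type} [Field K] [NumberField K] [Dat K]

/-- the Gauss sum `∑_{x mod n} (x/n)_6^j ψ(x k / n)` -/
noncomputable def gs (j : ℕ) (k n : R K) : ℂ := rsum n fun x => x6 n x ^ j * E n (x * k)

/-- the Jacobi sum of the cubic character modulo `n` -/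
noncomputable def jac (n : R K) : ℂ := rsum n fun x => x6 n x ^ 2 * x6 n (1 - x) ^ 2

/-- minus the normalised Jacobi sum -/
noncomputable def lamP (π : R K) : ℂ := -jac π / (√(Nr π : ℝ) : ℝ)

open Classical in
/-- the completely multiplicative function with value `lamP π` at the primes -/
noncomputable def lam (n : R K) : ℂ := if n = 0 then 0 else ((factors n).map lamP).prod

/-- the normalised cubic Gauss sum times the conjugate of `lam` -/
noncomputable def gg (n : R K) : ℂ := conj (lam n) * gs 2 1 n / (√(Nr n : ℝ) : ℝ)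

/-- the Moebius sign -/
noncomputable def mb (n : R K) : ℂ := (-1) ^ (factors n).card

/-- the reciprocity factor: `(x/y)_6 = r (cl x) (cl y) (y/x)_6` -/
structure IsRec (r : J K → J K → ℂ) : Prop where
  mul_left : ∀ a a' b, r (a * a') b = r a b * r a' b
  mul_right : ∀ a b b', r a (b * b') = r a b * r a b'
  self : ∀ a, r a a = 1
  recip : ∀ x y : R K, x ≠ 0 → y ≠ 0 → IsCoprime x y →
    x6 y x = r (cl (x : K)) (cl (y : K)) * x6 x y

/-- the class factor in the pair identity -/
noncomputable def Esg (r : J K → J K → ℂ) (a b : J K) : ℂ :=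
  r a b * gamJ a * gamJ b * r (cl (4 : K)) a * conj (r (cl (4 : K)) b)

variable (K)

/-- RAY: the cubic symbol `(c/b)_3` is trivial for `b ≡ 1` modulo `c` and modulo `Q²` -/
def RAY : Prop :=
  ∀ b c : R K, c ≠ 0 → ((b : K) - 1) / (Q K : K) ^ 2 ∈ Si K → c ∣ b - 1 → x6 b c ^ 2 = 1

/-- REC: existence of the reciprocity factor -/
def REC : Prop := ∃ r : J K → J K → ℂ, IsRec r

/-- LAM: the function `lam` is the argument on the elements congruent to `1` modulo `Q` -/
def LAM : Prop := ∀ z : R K, ((z : K) - 1) / (Q K : K) ∈ Si K → lam z = alp (z : K)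

/-- PRIMG: the powers of the symbol are primitive modulo a squarefree modulus -/
def PRIMG : Prop :=
  ∀ (h : R K) (j : ℕ), Squarefree h → 0 < j → j < 6 →
    ‖gs j 1 h‖ ^ 2 = Nr h ∧ ∀ y : R K, gs j y h = conj (x6 h y ^ j) * gs j 1 h

/-- MOBG: the Moebius sign times the sextic Gauss sum is a cubic Gauss sum -/
def MOBG : Prop :=
  ∀ b h : R K, Squarefree b → mb b * gs 1 h b =
    (√(Nr b : ℝ) : ℝ) * gam2 b * conj (x6 b 4) * conj (gg b) * conj (x6 b h)

variable {K}

/-- PAIRG: the finite Gauss sum identity behind the pair identity -/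
def PAIRG (r : J K → J K → ℂ) : Prop :=
  ∀ a b h : R K, Squarefree a → Squarefree b → IsCoprime a b →
    rsum (a * b) (fun x => conj (x6 a x) * x6 b x * E (a * b) (x * h)) =
      ((√(Nr a : ℝ) * √(Nr b : ℝ) : ℝ) : ℂ) *
        ((Esg r (cl (a : K)) (cl (b : K)) * (mb a * mb b) * (gg a * conj (gg b))) *
          (x6 a h * conj (x6 b h)))

namespace IsRec

variable {r : J K → J K → ℂ} (hr : IsRec r)

include hr

theorem one_right (a : J K) : r a 1 = 1 := by
  have h := hr.mul_right a a 1
  rw [mul_one, hr.self, one_mul] at h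
  exact h.symm

theorem one_left (a : J K) : r 1 a = 1 := by
  have h := hr.mul_left a 1 a
  rw [mul_one, hr.self, one_mul] at h
  exact h.symm

theorem pow_right (a b : J K) (n : ℕ) : r a (b ^ n) = r a b ^ n := by
  induction n with
  | zero => rw [pow_zero, pow_zero, hr.one_right]
  | succ n ih => rw [pow_succ, hr.mul_right, ih, pow_succ]

theorem pow_left (a b : J K) (n : ℕ) : r (a ^ n) b = r a b ^ n := by
  induction n with
  | zero => rw [pow_zero, pow_zero, hr.one_left]
  | succ n ih => rw [pow_succ, hr.mul_left, ih, pow_succ]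

theorem pow_six (a b : J K) : r a b ^ 6 = 1 := by
  rw [← hr.pow_right, pow_six_J, hr.one_right]

theorem skew (a b : J K) : r a b * r b a = 1 := by
  have h := hr.self (a * b)
  rwa [hr.mul_left, hr.mul_right, hr.mul_right, hr.self, hr.self, one_mul, mul_one] at h

theorem norm_eq (a b : J K) : ‖r a b‖ = 1 := by
  have h1 := congrArg norm (hr.pow_six a b)
  rw [norm_pow, norm_one] at h1
  exact (pow_eq_one_iff_of_nonneg (norm_nonneg _) (by norm_num)).1 h1

theorem ne_zero (a b : J K) : r a b ≠ 0 := by
  rw [← norm_ne_zero_iff, hr.norm_eq]; exact one_ne_zero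

theorem conj_mul (a b : J K) : conj (r a b) * r a b = 1 := by
  rw [Complex.conj_mul', hr.norm_eq]; simp

theorem conj_eq (a b : J K) : conj (r a b) = r b a :=
  mul_right_cancel₀ (hr.ne_zero a b) (by rw [hr.conj_mul, hr.skew])

/-- the reciprocity law without the coprimality condition -/
theorem recip' {x y : R K} (hx : x ≠ 0) (hy : y ≠ 0) :
    x6 y x = r (cl (x : K)) (cl (y : K)) * x6 x y := by
  by_cases h : IsCoprime x y
  · exact hr.recip x y hx hy h
  · rw [x6_of_not_coprime h, x6_of_not_coprime fun h1 => h h1.symm, mul_zero]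

/-- the symbol of a unit -/
theorem unit {u n : R K} (hu : IsUnit u) (hn : n ≠ 0) :
    x6 n u = r (cl (u : K)) (cl (n : K)) := by
  rw [hr.recip' hu.ne_zero hn, x6_unit hu, mul_one]

/-- the symbol of a unit in the trivial class -/
theorem unit_one {u n : R K} (hu : IsUnit u) (h1 : cl (u : K) = 1) (hn : n ≠ 0) : x6 n u = 1 := by
  rw [hr.unit hu hn, h1, hr.one_left]

/-- the reciprocity law for an element of the trivial class -/
theorem law {x d : R K} (hx : x ≠ 0) (hd : d ≠ 0) (h1 : cl (d : K) = 1) : x6 d x = x6 x d := by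
  rw [hr.recip' hx hd, h1, hr.one_right, one_mul]

/-- the symbol `(c/b)_6` is a ray class function of `b` -/
theorem ray {b b' c : R K} (hb : b ≠ 0) (hb' : b' ≠ 0) (hc : c ≠ 0) (h1 : c ∣ b - b')
    (h2 : cl (b : K) = cl (b' : K)) : x6 b c = x6 b' c := by
  rw [hr.recip' hc hb, hr.recip' hc hb', h2, x6_congr h1]

theorem norm_Esg (a b : J K) : ‖Esg r a b‖ = 1 := by
  simp only [Esg, norm_mul, hr.norm_eq, norm_gamJ, Complex.norm_conj, mul_one]

end IsRec

end Vale.Agent.P016Z.Sym
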