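import Vale.Agent.P016Z.Sym.Ring
import Vale.Agent.P016Z.Base.Psi
import Mathlib.RingTheory.DedekindDomain.Factorization

/-!
P016, block SYM: the groups `U` (elements that are `1 mod Q` at the primes dividing `Q`) and `P`
(sixth powers times `U`), the finite group `J = K^x / P`, approximation, the additive character
`psi` of `K / R`, and existence of the data.
-/

namespace Vale.Agent.P016Z.Sym

open NumberField Vale.Agent.P016Z.TH
open scoped ComplexConjugate

variable {K : Type} [Field K] [NumberField K] [Dat K]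

/-- `u = 1 mod Q` at the primes dividing `Q` -/
def InU (u : K) : Prop := ∃ y ∈ Lo K, u = 1 + (Q K : K) * y

theorem inv_mem_Lo {b : 𝓞 K} (h : IsCoprime b (Q K : 𝓞 K)) : b ≠ 0 ∧ (b : K)⁻¹ ∈ Lo K := by
  have hb : b ≠ 0 := by
    rintro rfl
    have h1 := isCoprime_zero_left.1 h
    have h2 : IsUnit (Algebra.norm ℤ (Q K : 𝓞 K)) := h1.map _
    rw [← map_natCast (algebraMap ℤ (𝓞 K)), Algebra.norm_algebraMap,
      isUnit_pow_iff Module.finrank_pos.ne', Int.isUnit_iff_natAbs_eq, Int.natAbs_natCast] at h2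
    have := one_lt_Q K
    omega
  refine ⟨hb, ?_⟩
  have h0 : Ideal.absNorm (Ideal.span {b}) ≠ 0 := by
    rw [Ne, Ideal.absNorm_eq_zero_iff, Ideal.span_singleton_eq_bot]; exact hb
  obtain ⟨j, m1, m2, e, h1, h2⟩ := nat_split (Q K) h0
  have h3 : b ∣ (m1 : 𝓞 K) * m2 := by
    rw [← Nat.cast_mul, ← e]
    exact Ideal.mem_span_singleton.1 (Ideal.absNorm_mem _)
  have h4 : IsCoprime b (m1 : 𝓞 K) := by
    refine IsCoprime.of_isCoprime_of_dvd_right (h.pow_right (n := j)) ?_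
    exact_mod_cast Nat.cast_dvd_cast (α := 𝓞 K) h1
  obtain ⟨k, hk⟩ := h4.dvd_of_dvd_mul_left h3
  refine mem_Lo.2 ⟨m2, h2, ?_⟩
  have h5 : (m2 : K) = (b : K) * k := by
    have := congrArg (fun t : 𝓞 K => (t : K)) hk
    simpa using this
  have h6 : (b : K) ≠ 0 := by exact_mod_cast hb
  rw [h5, mul_right_comm, mul_inv_cancel₀ h6, one_mul]
  exact k.isIntegral_coe

theorem natCast_mem_Lo (n : ℕ) : (n : K) ∈ Lo K := natCast_mem _ _

theorem natCast_mem_R (n : ℕ) : (n : K) ∈ R K := natCast_mem _ _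

namespace InU

theorem one : InU (1 : K) := ⟨0, (Lo K).zero_mem, by simp⟩

theorem mem_Lo {u : K} (h : InU u) : u ∈ Lo K := by
  obtain ⟨y, hy, rfl⟩ := h
  exact (Lo K).add_mem (Lo K).one_mem ((Lo K).mul_mem (natCast_mem_Lo _) hy)

theorem mul {u v : K} (h : InU u) (h' : InU v) : InU (u * v) := by
  have h1 := h'.mem_Lo
  obtain ⟨y, hy, rfl⟩ := h
  obtain ⟨y', hy', e⟩ := h'
  refine ⟨y' + y * v, (Lo K).add_mem hy' ((Lo K).mul_mem hy h1), ?_⟩
  linear_combination e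

theorem ne_zero_inv {u : K} (h : InU u) : u ≠ 0 ∧ u⁻¹ ∈ Lo K := by
  obtain ⟨y, hy, rfl⟩ := h
  obtain ⟨m, hm, h1⟩ := Sym.mem_Lo.1 hy
  set a : 𝓞 K := ⟨_, h1⟩ with ha
  have ha' : (a : K) = m * y := rfl
  have h2 : IsCoprime ((m : 𝓞 K) + (Q K : 𝓞 K) * a) (Q K : 𝓞 K) := by
    apply IsCoprime.add_mul_left_left
    simpa using (Nat.isCoprime_iff_coprime.2 hm).map (Int.castRingHom (𝓞 K))
  obtain ⟨h3, h4⟩ := inv_mem_Lo h2
  have h5 : (((m : 𝓞 K) + (Q K : 𝓞 K) * a : 𝓞 K) : K) = m * (1 + (Q K : K) * y) := by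
    push_cast
    change _ + _ * (a : K) = _
    rw [ha']; ring
  have h6 : (((m : 𝓞 K) + (Q K : 𝓞 K) * a : 𝓞 K) : K) ≠ 0 := by exact_mod_cast h3
  rw [h5] at h4 h6
  have h7 := left_ne_zero_of_mul h6
  refine ⟨right_ne_zero_of_mul h6, ?_⟩
  have : (1 + (Q K : K) * y)⁻¹ = m * ((m : K) * (1 + (Q K : K) * y))⁻¹ := by
    rw [mul_inv, ← mul_assoc, mul_inv_cancel₀ h7, one_mul]
  rw [this]
  exact (Lo K).mul_mem (natCast_mem_Lo _) h4

theorem ne_zero {u : K} (h : InU u) : u ≠ 0 := h.ne_zero_inv.1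

theorem inv {u : K} (h : InU u) : InU u⁻¹ := by
  obtain ⟨h0, h1⟩ := h.ne_zero_inv
  obtain ⟨y, hy, e⟩ := h
  refine ⟨-(y * u⁻¹), (Lo K).neg_mem ((Lo K).mul_mem hy h1), ?_⟩
  field_simp
  linear_combination -e

theorem div {u v : K} (h : InU u) (h' : InU v) : InU (u / v) := by
  rw [div_eq_mul_inv]; exact h.mul h'.inv

theorem pow {u : K} (h : InU u) (n : ℕ) : InU (u ^ n) := by
  induction n with
  | zero => simpa using one
  | succ n ih => rw [pow_succ]; exact ih.mul h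

theorem add {u y : K} (h : InU u) (hy : y ∈ Lo K) : InU (u + (Q K : K) * y) := by
  obtain ⟨y', hy', rfl⟩ := h
  exact ⟨y' + y, (Lo K).add_mem hy' hy, by ring⟩

theorem symm {x y : K} (h : InU (x / y)) : InU (y / x) := by
  rw [← inv_div]; exact h.inv

theorem trans {x y t : K} (h : InU (x / y)) (h' : InU (y / t)) : InU (x / t) := by
  have h1 : y ≠ 0 := left_ne_zero_of_mul (by rw [← div_eq_mul_inv]; exact h'.ne_zero)
  have := h.mul h'
  rwa [div_mul_div_cancel₀ h1] at this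

/-- an element of `U` and `R` is an integer congruent to `1` modulo `Q` -/
theorem exists_int {u : K} (h : InU u) (hu : u ∈ R K) : ∃ a : 𝓞 K, u = 1 + (Q K : K) * a := by
  obtain ⟨y, hy, e⟩ := h
  have h1 : y ∈ R K := by
    have : y = (u - 1) * (Q K : K)⁻¹ := by
      have := QK_ne K
      rw [e]; field_simp; ring
    rw [this]
    exact (R K).mul_mem ((R K).sub_mem hu (R K).one_mem) (inv_nat_mem_R (j := 1) (by simp))
  exact ⟨⟨y, int_of_mem h1 hy⟩, e⟩

end InU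

theorem inU_int (a : 𝓞 K) : InU (1 + (Q K : K) * a) := ⟨a, coe_mem_Lo a, rfl⟩

theorem inU_div_self {x : K} (hx : x ≠ 0) : InU (x / x) := by rw [div_self hx]; exact InU.one

/-- elements close to `x` at the primes dividing `Q` -/
theorem exists_level {x : K} (hx : x ≠ 0) :
    ∃ j : ℕ, ∀ y ∈ Lo K, InU ((x + (Q K : K) ^ j * y) / x) := by
  obtain ⟨j, hj⟩ := exists_pow_mul_mem_Lo x⁻¹
  refine ⟨j + 1, fun y hy => ⟨(Q K : K) ^ j * x⁻¹ * y, (Lo K).mul_mem hj hy, ?_⟩⟩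
  field_simp
  ring

/-- **approximation**: prescribed class modulo `c` and prescribed behaviour at the primes
dividing `Q` -/
theorem approx {c : R K} (hc : c ≠ 0) (t : R K) (x : K) (j : ℕ) :
    ∃ a : R K, c ∣ a - t ∧ ∃ y ∈ Lo K, (a : K) = x + (Q K : K) ^ j * y := by
  obtain ⟨y, hy, h⟩ := exists_split_pow x j
  obtain ⟨b, hb⟩ := exists_small' hc (t - ⟨_, h⟩) j
  refine ⟨⟨_, h⟩ + (Q K : R K) ^ j * oR b, ?_, b - y, (Lo K).sub_mem (coe_mem_Lo b) hy, ?_⟩
  · rw [← dvd_neg, neg_sub, ← sub_sub]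
    exact hb
  · simp
    ring

theorem approx_U {c : R K} (hc : c ≠ 0) (t : R K) {x : K} (hx : x ≠ 0) :
    ∃ a : R K, c ∣ a - t ∧ InU ((a : K) / x) := by
  obtain ⟨j, hj⟩ := exists_level hx
  obtain ⟨a, h1, y, hy, e⟩ := approx hc t x j
  exact ⟨a, h1, by rw [e]; exact hj y hy⟩

theorem approx_cop {c : R K} (hc : c ≠ 0) {x : K} (hx : x ≠ 0) :
    ∃ a : R K, IsCoprime a c ∧ InU ((a : K) / x) := by
  obtain ⟨a, ⟨k, hk⟩, h⟩ := approx_U hc 1 hx
  exact ⟨a, ⟨1, -k, by linear_combination hk⟩, h⟩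

theorem ne_zero_of_inU_div {a : R K} {x : K} (h : InU ((a : K) / x)) : a ≠ 0 := by
  rintro rfl
  exact h.ne_zero (by simp)

/-! ### the subgroup `P` -/

/-- sixth powers times elements of `U` -/
def InP (x : K) : Prop := ∃ t u : K, t ≠ 0 ∧ InU u ∧ x = t ^ 6 * u

theorem InU.inP {u : K} (h : InU u) : InP u := ⟨1, u, one_ne_zero, h, by simp⟩

theorem inP_pow {t : K} (ht : t ≠ 0) : InP (t ^ 6) := ⟨t, 1, ht, InU.one, by simp⟩

namespace InP

theorem one : InP (1 : K) := InU.one.inP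

theorem ne_zero {x : K} (h : InP x) : x ≠ 0 := by
  obtain ⟨t, u, ht, hu, rfl⟩ := h
  exact mul_ne_zero (pow_ne_zero _ ht) hu.ne_zero

theorem mul {x y : K} (h : InP x) (h' : InP y) : InP (x * y) := by
  obtain ⟨t, u, ht, hu, rfl⟩ := h
  obtain ⟨t', u', ht', hu', rfl⟩ := h'
  exact ⟨t * t', u * u', mul_ne_zero ht ht', hu.mul hu', by ring⟩

theorem inv {x : K} (h : InP x) : InP x⁻¹ := by
  obtain ⟨t, u, ht, hu, rfl⟩ := h
  exact ⟨t⁻¹, u⁻¹, inv_ne_zero ht, hu.inv, by rw [mul_inv, inv_pow]⟩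

theorem div {x y : K} (h : InP x) (h' : InP y) : InP (x / y) := by
  rw [div_eq_mul_inv]; exact h.mul h'.inv

theorem symm {x y : K} (h : InP (x / y)) : InP (y / x) := by
  rw [← inv_div]; exact h.inv

theorem trans {x y t : K} (h : InP (x / y)) (h' : InP (y / t)) : InP (x / t) := by
  have h1 : y ≠ 0 := left_ne_zero_of_mul (by rw [← div_eq_mul_inv]; exact h'.ne_zero)
  have := h.mul h'
  rwa [div_mul_div_cancel₀ h1] at this

end InP

variable (K) in
/-- the subgroup `U` of the units of `K` -/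
def Usub : Subgroup Kˣ where
  carrier := {u | InU (u : K)}
  mul_mem' h h' := InU.mul h h'
  one_mem' := InU.one
  inv_mem' h := by simpa using InU.inv h

variable (K) in
/-- the subgroup `P` of the units of `K` -/
def Psub : Subgroup Kˣ where
  carrier := {u | InP (u : K)}
  mul_mem' h h' := InP.mul h h'
  one_mem' := InP.one
  inv_mem' h := by simpa using InP.inv h

variable (K) in
/-- the group `K^x / P` -/
abbrev J : Type := Kˣ ⧸ Psub K

open Classical in
/-- the class of an element (`1` for `0`) -/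
noncomputable def cm (x : K) : J K := if h : x = 0 then 1 else QuotientGroup.mk (Units.mk0 x h)

theorem cm_mul {x y : K} (hx : x ≠ 0) (hy : y ≠ 0) : cm (x * y) = cm x * cm y := by
  rw [cm, cm, cm, dif_neg hx, dif_neg hy, dif_neg (mul_ne_zero hx hy), ← QuotientGroup.mk_mul]
  congr 1
  ext; simp

theorem cm_eq_iff {x y : K} (hx : x ≠ 0) (hy : y ≠ 0) : cm x = cm y ↔ InP (x / y) := by
  rw [cm, cm, dif_neg hx, dif_neg hy, eq_comm, QuotientGroup.eq]
  change InP _ ↔ _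
  simp [div_eq_inv_mul]

theorem cm_one : cm (1 : K) = 1 := by
  rw [cm, dif_neg one_ne_zero]
  exact (QuotientGroup.eq_one_iff _).2 (show InP _ from by simpa using InP.one)

theorem cm_eq_one {x : K} (hx : x ≠ 0) : cm x = 1 ↔ InP x := by
  rw [← cm_one, cm_eq_iff hx one_ne_zero, div_one]

theorem cm_surj (c : J K) : ∃ x : K, x ≠ 0 ∧ cm x = c := by
  obtain ⟨u, rfl⟩ := QuotientGroup.mk_surjective c
  refine ⟨u, u.ne_zero, ?_⟩
  rw [cm, dif_neg u.ne_zero]
  congr 1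
  ext; simp

/-! ### finiteness of `J` -/

theorem Q_mem_of_prime {p : Ideal (Lo K)} (hp : p.IsPrime) (h0 : p ≠ ⊥) : (Q K : Lo K) ∈ p := by
  obtain ⟨x, hx, hx0⟩ := Submodule.exists_mem_ne_zero_of_ne_bot h0
  have hx1 : (x : K) ≠ 0 := fun h => hx0 (Subtype.ext h)
  obtain ⟨j, hj⟩ := exists_pow_mul_mem_Lo (x : K)⁻¹
  have h1 : (Q K : Lo K) ^ j = ⟨_, hj⟩ * x := by
    apply Subtype.ext
    simp [mul_assoc, inv_mul_cancel₀ hx1]
  exact hp.mem_of_pow_mem j (h1 ▸ p.mul_mem_left _ hx)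

theorem QLo_ne : (Q K : Lo K) ≠ 0 := fun h => QK_ne K (by simpa using congrArg Subtype.val h)

instance : IsPrincipalIdealRing (Lo K) := by
  apply IsPrincipalIdealRing.of_finite_primes
  have h1 := Ideal.finite_factors (I := Ideal.span {(Q K : Lo K)}) (by simpa using QLo_ne (K := K))
  refine ((h1.image (fun v => v.asIdeal)).insert ⊥).subset fun p hp => ?_
  by_cases h0 : p = ⊥
  · exact Or.inl h0
  · refine Or.inr ⟨⟨p, hp, h0⟩, ?_, rfl⟩
    simpa [Ideal.dvd_span_singleton] using Q_mem_of_prime hp h0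

theorem exists_sixth (x : Lo K) (hx : x ≠ 0) :
    ∃ t y : Lo K, x = t ^ 6 * y ∧ y ∣ (Q K : Lo K) ^ 5 := by
  induction x using (wellFounded_dvdNotUnit (α := Lo K)).induction with
  | _ x ih =>
    by_cases h : ∃ p : Lo K, Prime p ∧ p ^ 6 ∣ x
    · obtain ⟨p, hp, x', rfl⟩ := h
      have h0 := right_ne_zero_of_mul hx
      obtain ⟨t, y, rfl, hy⟩ := ih x' ⟨h0, p ^ 6, fun hu => hp.not_isUnit
        ((isUnit_pow_iff (n := 6) (by norm_num)).1 hu), mul_comm _ _⟩ h0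
      exact ⟨p * t, y, by ring, hy⟩
    · refine ⟨1, x, by simp, ?_⟩
      rw [UniqueFactorizationMonoid.dvd_iff_emultiplicity_le hx]
      intro p hp
      have h1 : emultiplicity p x < (6 : ℕ) := emultiplicity_lt_iff_not_dvd.2 fun h2 => h ⟨p, hp, h2⟩
      have h2 : p ∣ (Q K : Lo K) := Ideal.mem_span_singleton.1
        (Q_mem_of_prime ((Ideal.span_singleton_prime hp.ne_zero).2 hp) (by simpa using hp.ne_zero))
      have h3 : ((5 : ℕ) : ℕ∞) ≤ emultiplicity p ((Q K : Lo K) ^ 5) :=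
        le_emultiplicity_of_pow_dvd (pow_dvd_pow_of_dvd h2 5)
      exact (Order.le_of_lt_add_one (by exact_mod_cast h1)).trans h3

/-- every element of `Lo` is congruent to an integer modulo `Q^j` -/
theorem Lo_approx {y : K} (hy : y ∈ Lo K) (j : ℕ) :
    ∃ (a : 𝓞 K) (t : K), t ∈ Lo K ∧ y = a + (Q K : K) ^ j * t := by
  obtain ⟨t, ht, h⟩ := exists_split_pow y j
  have h1 : y - (Q K : K) ^ j * t ∈ Lo K :=
    (Lo K).sub_mem hy ((Lo K).mul_mem ((Lo K).pow_mem (natCast_mem_Lo _) j) ht)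
  refine ⟨⟨_, int_of_mem h h1⟩, t, ht, ?_⟩
  change y = y - _ + _
  ring

instance : Finite (J K) := by
  classical
  have hQ : Ideal.span {(Q K : 𝓞 K) ^ 6} ≠ ⊥ := by simpa using Q_ne K
  have := Ideal.finiteQuotientOfFreeOfNeBot _ hQ
  have key : ∀ c : J K, ∃ a : 𝓞 K, ∀ b : 𝓞 K, (Q K : 𝓞 K) ^ 6 ∣ b - a → cm (b : K) = c := by
    intro c
    obtain ⟨x, hx, rfl⟩ := cm_surj c
    obtain ⟨j, hj⟩ := exists_pow_mul_mem_Lo x
    have h1 : (Q K : K) ^ (6 * j) * x ∈ Lo K := by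
      have : (Q K : K) ^ (6 * j) * x = (Q K : K) ^ (5 * j) * ((Q K : K) ^ j * x) := by ring
      rw [this]
      exact (Lo K).mul_mem ((Lo K).pow_mem (natCast_mem_Lo _) _) hj
    have hq := QK_ne K
    have h2 : (⟨_, h1⟩ : Lo K) ≠ 0 := fun h =>
      mul_ne_zero (pow_ne_zero _ hq) hx (congrArg Subtype.val h)
    obtain ⟨t, y, e, w, hw⟩ := exists_sixth _ h2
    have e1 : (Q K : K) ^ (6 * j) * x = (t : K) ^ 6 * y := congrArg Subtype.val e
    have e2 : (Q K : K) ^ 5 = (y : K) * w := by simpa using congrArg Subtype.val hw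
    have ht : (t : K) ≠ 0 := by
      intro h
      rw [h] at e1
      exact mul_ne_zero (pow_ne_zero _ hq) hx (by simpa using e1)
    have hy : (y : K) ≠ 0 := left_ne_zero_of_mul (e2 ▸ pow_ne_zero _ hq)
    obtain ⟨a, s, hs, e3⟩ := Lo_approx y.2 6
    refine ⟨a, fun b ⟨k, hk⟩ => ?_⟩
    have e4 : (b : K) - a = (Q K : K) ^ 6 * k := by
      have := congrArg (fun t : 𝓞 K => (t : K)) hk
      simpa using this
    have h3 : InU ((b : K) / y) := by
      refine ⟨w * (k - s), (Lo K).mul_mem w.2 ((Lo K).sub_mem (coe_mem_Lo k) hs), ?_⟩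
      field_simp
      linear_combination e4 - e3 + (Q K : K) * (k - s) * e2
    have hb : (b : K) ≠ 0 := left_ne_zero_of_mul (by rw [← div_eq_mul_inv]; exact h3.ne_zero)
    rw [cm_eq_iff hb hx]
    refine ⟨(Q K : K) ^ j / t, _, div_ne_zero (pow_ne_zero _ hq) ht, h3, ?_⟩
    field_simp
    linear_combination -e1
  choose f hf using key
  refine Finite.of_injective (fun c => Ideal.Quotient.mk (Ideal.span {(Q K : 𝓞 K) ^ 6}) (f c)) ?_
  intro c c' h
  have h1 := Ideal.mem_span_singleton.1 (Ideal.Quotient.eq.1 h)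
  rw [← hf c' _ h1, hf c _ (by simp)]

/-! ### additive characters -/

omit [Dat K] in
/-- `e(Tr x)` -/
noncomputable def eK (x : K) : ℂ := ee ((Algebra.trace ℚ K x : ℚ) : ℝ)

omit [Dat K] in
theorem eK_add (x y : K) : eK (x + y) = eK x * eK y := by
  rw [eK, map_add, Rat.cast_add, ee_add]; rfl

omit [Dat K] in
@[simp] theorem eK_zero : eK (0 : K) = 1 := by rw [eK, map_zero, Rat.cast_zero, ee_zero]

omit [Dat K] in
theorem eK_neg (x : K) : eK (-x) = conj (eK x) := by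
  rw [eK, map_neg, Rat.cast_neg, ee_neg]; rfl

omit [Dat K] in
theorem norm_eK (x : K) : ‖eK x‖ = 1 := norm_ee _

omit [Dat K] in
theorem eK_ne (x : K) : eK x ≠ 0 := ee_ne _

omit [Dat K] in
theorem eK_of_int {x : K} (h : IsIntegral ℤ x) : eK x = 1 := by
  obtain ⟨n, hn⟩ := IsIntegrallyClosed.isIntegral_iff.1 (Algebra.isIntegral_trace (L := ℚ) h)
  rw [eK, ← hn, eq_intCast, Rat.cast_intCast, ee_int]

omit [Dat K] in
theorem eK_eq_one {x : K} : eK x = 1 ↔ ∃ n : ℤ, Algebra.trace ℚ K x = n := by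
  constructor
  · intro h
    obtain ⟨n, hn⟩ := Complex.exp_eq_one_iff.1 h
    refine ⟨n, ?_⟩
    have h2 : (2 * Real.pi * Complex.I : ℂ) ≠ 0 := Complex.two_pi_I_ne_zero
    have h3 : ((((Algebra.trace ℚ K x : ℚ) : ℝ)) : ℂ) = n := by
      apply mul_left_cancel₀ h2
      rw [hn]; ring
    exact_mod_cast h3
  · rintro ⟨n, hn⟩
    rw [eK, hn, Rat.cast_intCast, ee_int]

/-- the part of `x` with denominators prime to `Q` -/
noncomputable def lo (x : K) : K := (exists_split x).choose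

theorem lo_mem (x : K) : lo x ∈ Lo K := (exists_split x).choose_spec.1

theorem sub_lo_mem (x : K) : x - lo x ∈ R K := (exists_split x).choose_spec.2

theorem psi_eq {x y : K} (hy : y ∈ Lo K) (h : x - y ∈ R K) : psi x = eK y := by
  rw [P016Z.psi_eq h (by rwa [sub_sub_cancel]), sub_sub_cancel]
  rfl

theorem psi_eq_lo (x : K) : psi x = eK (lo x) := psi_eq (lo_mem x) (sub_lo_mem x)

theorem psi_of_Lo {x : K} (h : x ∈ Lo K) : psi x = eK x :=
  psi_eq h (by rw [sub_self]; exact (R K).zero_mem)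

theorem psi_of_R {x : K} (h : x ∈ R K) : psi x = 1 := by
  rw [psi_eq (Lo K).zero_mem (by rwa [sub_zero]), eK_zero]

@[simp] theorem psi_coe (x : R K) : psi (x : K) = 1 := psi_of_R x.2

@[simp] theorem psi_zero : psi (0 : K) = 1 := psi_of_R (R K).zero_mem

theorem psi_add (x y : K) : psi (x + y) = psi x * psi y := P016Z.psi_add x y

theorem psi_neg (x : K) : psi (-x) = conj (psi x) := P016Z.psi_neg x

theorem norm_psi (x : K) : ‖psi x‖ = 1 := P016Z.norm_psi x

theorem psi_ne (x : K) : psi x ≠ 0 := psi_ne_zero x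

theorem psi_congr {x y : K} (h : x - y ∈ R K) : psi x = psi y := by
  rw [← sub_add_cancel x y, psi_add, psi_of_R h, one_mul]

/-- `R` is self dual for `psi` -/
theorem mem_R_of_psi {y : K} (h : ∀ r : R K, psi (y * r) = 1) : y ∈ R K := by
  have h1 : IsIntegral ℤ ((Q K : K) * lo y) := by
    refine Dat.dual _ fun o => eK_eq_one.1 ?_
    rw [← h (oR o), eq_comm]
    refine psi_eq ((Lo K).mul_mem (lo_mem y) (coe_mem_Lo o)) ?_
    rw [coe_oR, ← sub_mul]
    exact (R K).mul_mem (sub_lo_mem y) (coe_mem_R o)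
  have h2 : lo y ∈ R K := mem_R.2 ⟨1, by rwa [pow_one]⟩
  have := (R K).add_mem (sub_lo_mem y) h2
  rwa [sub_add_cancel] at this

/-! ### existence -/

omit [Dat K] in
theorem exists_dual : ∃ y : ℕ, y ≠ 0 ∧ ∀ x : K,
    (∀ o : 𝓞 K, ∃ n : ℤ, Algebra.trace ℚ K (x * o) = n) → IsIntegral ℤ ((y : K) * x) := by
  classical
  obtain ⟨y, hy, h⟩ := exists_integral_multiples ℤ ℚ
    (Finset.univ.image fun i => (integralBasis K).traceDual i)
  refine ⟨y.natAbs, Int.natAbs_ne_zero.2 hy, fun x hx => ?_⟩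
  have h1 : IsIntegral ℤ ((y : K) * x) := by
    rw [← (integralBasis K).traceDual.sum_repr x, Finset.mul_sum]
    refine IsIntegral.sum _ fun i _ => ?_
    obtain ⟨m, hm⟩ := hx (RingOfIntegers.basis K i)
    rw [Module.Basis.traceDual_repr_apply, Algebra.traceForm_apply, integralBasis_apply, hm]
    have h2 := h _ (Finset.mem_image_of_mem _ (Finset.mem_univ i))
    rw [zsmul_eq_mul] at h2
    have : (y : K) * ((m : ℚ) • (integralBasis K).traceDual i) =
        m * ((y : K) * (integralBasis K).traceDual i) := by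
      rw [Algebra.smul_def, map_intCast]; ring
    rw [this]
    exact (isIntegral_intCast m).mul h2
  have h3 : ((y.natAbs : ℕ) : K) * x = (y.sign : K) * (y * x) := by
    rw [← mul_assoc, ← Int.cast_mul, Int.sign_mul_self, Int.cast_natCast]
  rw [h3]
  exact (isIntegral_intCast _).mul h1

omit [Dat K] in
theorem exists_cls : ∃ B : ℕ, B ≠ 0 ∧
    ∀ I : Ideal (𝓞 K), I ≠ ⊥ → ∃ x ∈ I, ∀ y ∈ I, x ∣ (B : 𝓞 K) * y := by
  classical
  choose rep hrep using (ClassGroup.mk0_surjective (R := 𝓞 K))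
  refine ⟨∏ c : ClassGroup (𝓞 K), Ideal.absNorm (rep c : Ideal (𝓞 K)),
    Finset.prod_ne_zero_iff.2 fun c _ => ?_, fun I hI => ?_⟩
  · rw [Ne, Ideal.absNorm_eq_zero_iff]
    exact nonZeroDivisors.ne_zero (rep c).2
  · obtain ⟨I', hI'⟩ : ∃ I' : nonZeroDivisors (Ideal (𝓞 K)), (I' : Ideal (𝓞 K)) = I :=
      ⟨⟨I, mem_nonZeroDivisors_iff_ne_zero.2 hI⟩, rfl⟩
    subst hI'
    obtain ⟨c, hc⟩ : ∃ c, c = (ClassGroup.mk0 I')⁻¹ := ⟨_, rfl⟩
    have h1 : ClassGroup.mk0 I' = (ClassGroup.mk0 (rep c))⁻¹ := by rw [hrep, hc, inv_inv]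
    rw [ClassGroup.mk0_eq_mk0_inv_iff] at h1
    obtain ⟨x, -, hx⟩ := h1
    refine ⟨x, ?_, fun w hw => ?_⟩
    · have h2 := Ideal.mem_span_singleton_self x
      rw [← hx] at h2
      exact (Ideal.mul_le_inf h2).1
    · rw [← Ideal.mem_span_singleton, ← hx, mul_comm _ w]
      refine Ideal.mul_mem_mul hw ?_
      obtain ⟨k, hk⟩ := Finset.dvd_prod_of_mem
        (fun c => Ideal.absNorm (rep c : Ideal (𝓞 K))) (Finset.mem_univ c)
      rw [hk, Nat.cast_mul]
      exact Ideal.mul_mem_right _ _ (Ideal.absNorm_mem _)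

omit [Dat K] in
theorem pid_of_cls {q : ℕ} (hq : q ≠ 0)
    (h : ∀ I : Ideal (𝓞 K), I ≠ ⊥ → ∃ x ∈ I, ∀ y ∈ I, x ∣ (q : 𝓞 K) * y) :
    IsPrincipalIdealRing (Loc K (Submonoid.powers q)) := by
  have h0 : 0 ∉ Submonoid.powers q := by
    rintro ⟨k, hk⟩
    exact pow_ne_zero k hq hk
  have hl := isLocalization_Loc (K := K) h0
  refine ⟨fun I => ?_⟩
  have e : (I.comap (algebraMap (𝓞 K) (Loc K (Submonoid.powers q)))).map (algebraMap _ _) = I :=
    IsLocalization.map_under ((Submonoid.powers q).map (Nat.castRingHom (𝓞 K))) _ _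
  by_cases h1 : I.comap (algebraMap (𝓞 K) (Loc K (Submonoid.powers q))) = ⊥
  · rw [← e, h1, Ideal.map_bot]
    exact bot_isPrincipal
  · obtain ⟨x, hx, h2⟩ := h _ h1
    refine ⟨algebraMap (𝓞 K) _ x, le_antisymm ?_ ?_⟩
    · rw [← e, Ideal.map_le_iff_le_comap]
      intro y hy
      have h3 := map_dvd (algebraMap (𝓞 K) (Loc K (Submonoid.powers q))) (h2 y hy)
      rw [map_mul, map_natCast,
        (isUnit_natCast_Loc (Submonoid.mem_powers q) hq).dvd_mul_left] at h3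
      exact Ideal.mem_span_singleton.2 h3
    · rw [Submodule.span_le, Set.singleton_subset_iff]
      exact hx

omit [Dat K] in
theorem exists_Dat {z : K} (hz : IsPrimitiveRoot z 12) {n : ℕ} (hn : n ≠ 0) :
    ∃ D : Dat K, D.z = z ∧ n ∣ D.Q := by
  obtain ⟨y, hy, h⟩ := exists_dual (K := K)
  obtain ⟨B, hB, h'⟩ := exists_cls (K := K)
  have hd : (discr K).natAbs ≠ 0 := Int.natAbs_ne_zero.2 (discr_ne_zero K)
  have h3 : IsPrimitiveRoot (z ^ 4) 3 := hz.pow (by norm_num) (by norm_num)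
  have h4 : IsPrimitiveRoot (Complex.exp (2 * Real.pi * Complex.I / 3)) 3 := by
    simpa using Complex.isPrimitiveRoot_exp 3 (by norm_num)
  obtain ⟨C, hC⟩ := exists_CM h3 h4
  have hq : 216 * (n * (discr K).natAbs) * y * B ≠ 0 :=
    mul_ne_zero (mul_ne_zero (mul_ne_zero (by norm_num) (mul_ne_zero hn hd)) hy) hB
  refine ⟨⟨216 * (n * (discr K).natAbs) * y * B, z, _, inferInstance, C, hq,
    ⟨6 * (n * (discr K).natAbs) * y * B, by ring⟩, ⟨216 * n * y * B, by ring⟩, hz, hC,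
    pid_of_cls hq ?_, ⟨(n * (discr K).natAbs) * y * B, by ring⟩, ?_⟩, rfl,
    ⟨216 * (discr K).natAbs * y * B, by ring⟩⟩
  · intro I hI
    obtain ⟨x, hx, h1⟩ := h' I hI
    refine ⟨x, hx, fun w hw => ?_⟩
    rw [Nat.cast_mul, mul_assoc]
    exact (h1 w hw).mul_left _
  · intro x hx
    have : ((216 * (n * (discr K).natAbs) * y * B : ℕ) : K) * x =
        ((216 * (n * (discr K).natAbs) * B : ℕ) : K) * ((y : K) * x) := by
      simp only [Nat.cast_mul]; ring
    rw [this]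
    exact (isIntegral_natCast _).mul (h x hx)

/-! ### dictionary with the base files -/

theorem N_eq_Nr (c : R K) : N c = Nr c := rfl

theorem inU_iff {u : Kˣ} : InU (u : K) ↔ u ∈ P K 0 := by
  have hQ := QK_ne K
  rw [mem_P, zero_add, pow_one]
  constructor
  · rintro ⟨y, hy, e⟩
    rwa [e, add_sub_cancel_left, mul_div_cancel_left₀ _ hQ]
  · intro h
    exact ⟨_, h, by field_simp; ring⟩

theorem inU_of_mem_P {k : ℕ} {u : Kˣ} (h : u ∈ P K k) : InU (u : K) :=
  inU_iff.2 (P_mono (Nat.zero_le k) h)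

theorem inU_of_Si {k : ℕ} {x : K} (h : (x - 1) / (Q K : K) ^ (k + 1) ∈ Si K) : InU x := by
  have hQ := QK_ne K
  have h1 : (x - 1) / (Q K : K) ∈ Si K := by
    simpa using div_pow_mem_Si_mono (k := 1) h (by omega)
  exact ⟨_, h1, by field_simp; ring⟩

theorem inP_of_mem_H {x : Kˣ} (h : x ∈ H K) : InP (x : K) := by
  obtain ⟨w, y, hy, rfl⟩ := mem_H.1 h
  exact ⟨w, y, w.ne_zero, inU_of_mem_P hy, by push_cast; rfl⟩

theorem inP_of_cl_eq {x y : K} (hx : x ≠ 0) (hy : y ≠ 0) (h : cl x = cl y) : InP (x / y) := by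
  obtain ⟨η, hη, rfl⟩ := exists_H_of_cl_eq hy hx h.symm
  rw [mul_div_cancel_right₀ _ hy]
  exact inP_of_mem_H hη

theorem cm_eq_of_cl_eq {x y : K} (hx : x ≠ 0) (hy : y ≠ 0) (h : cl x = cl y) : cm x = cm y :=
  (cm_eq_iff hx hy).2 (inP_of_cl_eq hx hy h)

end Vale.Agent.P016Z.Sym
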