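import Vale.Agent.P022.H567.Rec

/-!
P016, block SYM: Artin reciprocity for an element which is congruent to `1` at every ramified
prime (a sharper form of the assembly of P022).
-/

open NumberField IsDedekindDomain TensorProduct Finset

set_option linter.unusedSectionVars false
set_option linter.style.haveILetI false

noncomputable section

namespace Vale.Agent.P016Z.Art

open Vale.Agent.P022 Vale.Agent.P022.C

theorem nm_near {K L : Type} [Field K] [NumberField K] [Field L] [Algebra K L]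
    {σ : L ≃ₐ[K] L} {ℓ r : ℕ} (hℓ : ℓ.Prime) {α : 𝓞 K} (hl : (ℓ : 𝓞 K) ^ (2 * r + 1) ∣ α - 1)
    {v : HeightOneSpectrum (𝓞 K)} (hv : α - 1 ∈ v.asIdeal) :
    Nm σ (ℓ ^ r) (v.adicCompletion K) (α : K) := by
  have h : v.valuation K ((α : K) - 1) < v.valuation K (((ℓ ^ r : ℕ) : K) ^ 2) := by
    rw [Nat.cast_pow, ← pow_mul, map_pow]
    by_cases hl' : (ℓ : 𝓞 K) ∈ v.asIdeal
    · obtain ⟨y, hy⟩ := hl
      have h1 : (α : K) - 1 = ((ℓ ^ (2 * r + 1) : ℕ) : K) * (y : K) := by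
        have := congrArg (algebraMap (𝓞 K) K) hy
        simpa using this
      refine lt_of_le_of_lt (val_sub_le ⟨y, h1⟩) ?_
      have h0 : v.valuation K (ℓ : K) ≠ 0 :=
        (Valuation.ne_zero_iff _).mpr (by exact_mod_cast hℓ.ne_zero)
      rw [Nat.cast_pow, map_pow, mul_comm r 2, pow_succ]
      calc v.valuation K (ℓ : K) ^ (2 * r) * v.valuation K (ℓ : K)
          < v.valuation K (ℓ : K) ^ (2 * r) * 1 :=
            mul_lt_mul_of_pos_left (val_nat_lt.mpr hl') (pow_pos (zero_lt_iff.mpr h0) _)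
        _ = _ := mul_one _
    · rw [val_nat_eq_one hl', one_pow]
      have := (v.valuation_lt_one_iff_mem (K := K) (α - 1)).mpr hv
      simpa using this
  obtain ⟨y, hy⟩ := H967.POW K v (ℓ ^ r) (Nat.pow_pos hℓ.pos) (α : K) h
  exact nm_of_pow y hy

section

variable {K L L' E : Type} [Field K] [NumberField K] [Field L] [NumberField L] [Field L']
    [NumberField L'] [Field E] [NumberField E] [Algebra K L] [Algebra K L'] [Algebra K E]
    [Algebra L E] [Algebra L' E] [IsScalarTower K L E] [IsScalarTower K L' E] {n' : ℕ}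
    {σ : L ≃ₐ[K] L} {σ' : L' ≃ₐ[K] L'} {s s' : E ≃ₐ[K] E}

theorem loc_fin {ℓ r : ℕ} (C : Cross K (ℓ ^ r) n' σ σ' s s') (hℓ : ℓ.Prime) {α : 𝓞 K}
    (hu : ∀ P : Ideal (𝓞 L), P.IsPrime → P ≠ ⊥ → α - 1 ∉ dn K P → Unr σ P)
    (hα : α ≠ 0) (hl : (ℓ : 𝓞 K) ^ (2 * r + 1) ∣ α - 1)
    (hbig : ∀ (P : Ideal (𝓞 L')), P.IsPrime → P ≠ ⊥ → α ∈ dn K P → Unr σ' P ∧ ∃ e : ℕ,
      Frob (σ' ^ e) (Ideal.absNorm (dn K P)) P ∧ ∀ k : ℕ, n' ∣ e * k → ℓ ^ r ∣ k)
    (w : HeightOneSpectrum (𝓞 L')) :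
    Nm C.sl (ℓ ^ r) (w.adicCompletion L') (algebraMap K L' (α : K)) := by
  by_cases hw : α - 1 ∈ dn K w.asIdeal
  · refine nm_near (α := algebraMap (𝓞 K) (𝓞 L') α) hℓ ?_ ?_
    · simpa using map_dvd (algebraMap (𝓞 K) (𝓞 L')) hl
    · simpa [mem_dn] using hw
  · obtain ⟨u, hu1⟩ := exists_above w E
    have h2 : dn L' u.asIdeal = w.asIdeal := hu1
    have h3 : dn K u.asIdeal = dn K w.asIdeal := by rw [← h2, dn_dn]
    have hLu : Unr σ (dn L u.asIdeal) := by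
      apply hu _ (dn_prime u.isPrime) (dn_ne_bot u.ne_bot)
      rwa [dn_dn, h3]
    refine H917.LN L' E _ C.sl C.cyc_sl w u.asIdeal u.isPrime hu1 (C.unr_sl hLu) _ ?_ ?_
    · rw [Ne, map_eq_zero]
      simpa using hα
    · by_cases hαw : algebraMap (𝓞 K) (𝓞 L') α ∈ w.asIdeal
      · right
        have hαw' : α ∈ dn K w.asIdeal := hαw
        obtain ⟨h1, e, he, hk⟩ := hbig w.asIdeal w.isPrime w.ne_bot hαw'
        refine C.dec_trivial H510.FRB u hLu (by rw [h2]; exact h1) (e := e) ?_ hk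
        rw [h2, h3]
        exact he
      · left
        exact val_one_of_notMem hαw

end

/-- reciprocity for an integer which is `1` modulo every ramified prime -/
theorem core {K L : Type} [Field K] [NumberField K] [Field L] [NumberField L] [Algebra K L]
    [IsEmpty (K →+* ℝ)] {ℓ r : ℕ} (hℓ : ℓ.Prime) {σ : L ≃ₐ[K] L} (hC : Cyc K (ℓ ^ r) σ)
    {α : 𝓞 K} (hα : α ≠ 0) (hα1 : α - 1 ≠ 0) (hl : (ℓ : 𝓞 K) ^ (2 * r + 1) ∣ α - 1)
    (hu : ∀ P : Ideal (𝓞 L), P.IsPrime → P ≠ ⊥ → α - 1 ∉ dn K P → Unr σ P)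
    (a : HeightOneSpectrum (𝓞 K) → ℕ)
    (ha : ∀ (v : HeightOneSpectrum (𝓞 K)) (P : Ideal (𝓞 L)), P.IsPrime →
      dn K P = v.asIdeal → Frob (σ ^ a v) (Ideal.absNorm v.asIdeal) P) :
    ((ℓ ^ r : ℕ) : ℤ) ∣ ∑ᶠ v : HeightOneSpectrum (𝓞 K), ordv v (α : K) * a v := by
  classical
  have hαK : (α : K) ≠ 0 := by simpa using hα
  have hfinα := finite_mem hα
  let A : Finset ℕ := hfinα.toFinset.image (fun v => Ideal.absNorm v.asIdeal)
  have hA2 : ∀ q ∈ A, 2 ≤ q := by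
    intro q hq
    obtain ⟨v, -, rfl⟩ := Finset.mem_image.mp hq
    exact two_le_absNorm v
  let Nα : ℕ := Ideal.absNorm (Ideal.span {α})
  have hNα : Nα ≠ 0 := by
    change Ideal.absNorm (Ideal.span {α}) ≠ 0
    rw [Ne, Ideal.absNorm_eq_zero_iff, Ideal.span_singleton_eq_bot]
    exact hα
  let m : ℕ := Ideal.absNorm (Ideal.span {α - 1})
  have hm0 : m ≠ 0 := by
    change Ideal.absNorm (Ideal.span {α - 1}) ≠ 0
    rw [Ne, Ideal.absNorm_eq_zero_iff, Ideal.span_singleton_eq_bot]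
    exact hα1
  have hmv : ∀ v : HeightOneSpectrum (𝓞 K), α - 1 ∈ v.asIdeal → (m : 𝓞 K) ∈ v.asIdeal :=
    fun v h => natCast_mem_absNorm ((Ideal.span_singleton_le_iff_mem _).2 h)
  let B : ℕ := (discr L).natAbs * Nα
  have hB : B ≠ 0 := Nat.mul_ne_zero (Int.natAbs_ne_zero.mpr (discr_ne_zero L)) hNα
  obtain ⟨M, k, χ, hM0, hMB, hχ, hA, -⟩ := H732.CYC ℓ hℓ r A hA2 B hB
  have hMd : IsCoprime (M : ℤ) (discr L) := by
    have h1 : Nat.Coprime M (discr L).natAbs := Nat.Coprime.coprime_mul_right_right hMB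
    rw [Int.isCoprime_iff_gcd_eq_one]
    rw [Int.gcd, Int.natAbs_natCast]
    exact h1
  have hMN : Nat.Coprime M Nα := Nat.Coprime.coprime_mul_left_right hMB
  have hαM : ∀ v : HeightOneSpectrum (𝓞 K), (M : 𝓞 K) ∈ v.asIdeal → α ∉ v.asIdeal := by
    intro v h1 h2
    have h4 : (Nα : 𝓞 K) ∈ v.asIdeal :=
      natCast_mem_absNorm ((Ideal.span_singleton_le_iff_mem _).2 h2)
    obtain ⟨x, y, hxy⟩ := Nat.isCoprime_iff_coprime.mpr hMN
    apply v.isPrime.ne_top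
    rw [Ideal.eq_top_iff_one]
    have h3 : ((x : 𝓞 K) * M + y * Nα) = 1 := by
      exact_mod_cast congrArg (Int.cast : ℤ → 𝓞 K) hxy
    rw [← h3]
    exact v.asIdeal.add_mem (v.asIdeal.mul_mem_left _ h1) (v.asIdeal.mul_mem_left _ h4)
  have hn'0 : 0 < ℓ ^ k := Nat.pow_pos hℓ.pos
  haveI : NeZero (ℓ ^ k) := ⟨hn'0.ne'⟩
  obtain ⟨L', _, _, _, σ', hC', hfield, hFr, -⟩ := H239.CYF K L M hM0 hMd (ℓ ^ k) hn'0 χ hχ
  obtain ⟨E, _, _, _, _, _, _, _, s, s', C⟩ := H477.CF.COMP K L L' _ _ σ σ' hC hC' hfield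
  let e : HeightOneSpectrum (𝓞 K) → ℕ := fun v => (ex χ (Ideal.absNorm v.asIdeal : ZMod M)).val
  have he : ∀ (P : Ideal (𝓞 L')) (v : HeightOneSpectrum (𝓞 K)), P.IsPrime → P ≠ ⊥ →
      (M : 𝓞 L') ∉ P → dn K P = v.asIdeal →
      Unr σ' P ∧ Frob (σ' ^ e v) (Ideal.absNorm v.asIdeal) P := by
    intro P v hP hP0 hMP hPv
    obtain ⟨h1, h2⟩ := hFr P hP hP0 hMP
    refine ⟨h1, ?_⟩
    have h3 := h2 (e v) (by rw [ZMod.natCast_zmod_val, hPv])
    rwa [hPv] at h3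
  have hbig : ∀ (P : Ideal (𝓞 L')), P.IsPrime → P ≠ ⊥ → α ∈ dn K P → Unr σ' P ∧ ∃ e : ℕ,
      Frob (σ' ^ e) (Ideal.absNorm (dn K P)) P ∧ ∀ i : ℕ, ℓ ^ k ∣ e * i → ℓ ^ r ∣ i := by
    intro P hP hP0 hαP
    let v : HeightOneSpectrum (𝓞 K) := ⟨dn K P, dn_prime hP, dn_ne_bot hP0⟩
    have hMP : (M : 𝓞 L') ∉ P := fun h => hαM v (nat_mem_dn.mpr h) hαP
    obtain ⟨h1, h2⟩ := he P v hP hP0 hMP rfl
    refine ⟨h1, e v, h2, fun i hi => ?_⟩
    have hvA : Ideal.absNorm v.asIdeal ∈ A := by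
      apply Finset.mem_image.mpr
      exact ⟨v, (Set.Finite.mem_toFinset _).mpr hαP, rfl⟩
    apply (hA _ hvA).2 i
    have h3 : ((e v * i : ℕ) : ZMod (ℓ ^ k)) = 0 := (ZMod.natCast_eq_zero_iff _ _).mpr hi
    rw [Nat.cast_mul, ZMod.natCast_zmod_val, mul_comm] at h3
    rw [nsmul_eq_mul]
    exact h3
  have hlocE : Loc C.sl (ℓ ^ r) (algebraMap K L' (α : K)) :=
    ⟨fun w => loc_fin C hℓ hu hα hl hbig w, fun φ => isEmptyElim (φ.comp (algebraMap K L'))⟩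
  obtain ⟨γ, hγ⟩ := H964.Hn.HNT H619.HNTP L' E _ C.sl C.cyc_sl (algebraMap K L' (α : K))
    (by rw [Ne, map_eq_zero]; exact hαK) hlocE
  have hγ' : ∏ i ∈ range (ℓ ^ r), (s ^ i) γ = algebraMap K E (α : K) := by
    rw [IsScalarTower.algebraMap_apply K L' E, ← hγ]
    exact Finset.prod_congr rfl fun i _ => (C.sl_pow_apply i γ).symm
  obtain ⟨δ, b, hδ0, hb0, hγδ, hδ, hiff⟩ := H17.CRS K L L' E _ _ σ σ' s s' C (α : K) hαK γ hγ'
  have hmM0 : m * M ≠ 0 := Nat.mul_ne_zero hm0 hM0.ne'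
  let T : Set (HeightOneSpectrum (𝓞 K)) := {v | (α - 1) * (M : 𝓞 K) ∈ v.asIdeal}
  have hT : T.Finite := finite_mem (mul_ne_zero hα1 (by exact_mod_cast hM0.ne'))
  have hunrL : ∀ v : HeightOneSpectrum (𝓞 K), α - 1 ∉ v.asIdeal → ∀ P : Ideal (𝓞 L),
      P.IsPrime → P ≠ ⊥ → dn K P = v.asIdeal → Unr σ P := by
    intro v hv P hP hP0 hPv
    exact hu P hP hP0 (by rwa [hPv])
  have hTb : ∀ v ∈ T, Nm σ' (ℓ ^ k) (v.adicCompletion K) b := by
    intro v hv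
    rw [← hiff (v.adicCompletion K)]
    have hv' : (α - 1) * (M : 𝓞 K) ∈ v.asIdeal := hv
    by_cases hmv : α - 1 ∈ v.asIdeal
    · exact nm_near hℓ hl hmv
    · have hMv : (M : 𝓞 K) ∈ v.asIdeal := (v.isPrime.mem_or_mem hv').resolve_left hmv
      obtain ⟨w, hw⟩ := exists_above v L
      exact H917.LN K L _ σ hC v w.asIdeal w.isPrime hw (hunrL v hmv _ w.isPrime w.ne_bot hw) _
        hαK (Or.inl (val_one_of_notMem (hαM v hMv)))
  obtain ⟨y, z, hz0, hy, hTz, -⟩ := H180.APP K L' _ σ' hC' T hT b hb0 hTb (m * M) hmM0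
  have hbz0 : b / z ≠ 0 := div_ne_zero hb0 hz0
  have hbT : ∀ v : HeightOneSpectrum (𝓞 K), (α - 1 ∈ v.asIdeal ∨ (M : 𝓞 K) ∈ v.asIdeal) →
      ordv v (b / z) = 0 := by
    intro v hv
    have hvT : v ∈ T := by
      rcases hv with h | h
      · exact v.asIdeal.mul_mem_right _ h
      · exact v.asIdeal.mul_mem_left _ h
    have hvm : ((m * M : ℕ) : 𝓞 K) ∈ v.asIdeal := by
      rw [Nat.cast_mul]
      rcases hv with h | h
      · exact v.asIdeal.mul_mem_right _ (hmv v h)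
      · exact v.asIdeal.mul_mem_left _ h
    exact ordv_eq_zero (val_one_of_sub (lt_of_le_of_lt (hTz v hvT) (val_nat_lt.mpr hvm)))
  have hN := NREC K M hM0 (ℓ ^ k) χ (b / z) hbz0 (by
    intro v hv
    have hvT : v ∈ T := v.asIdeal.mul_mem_left _ hv
    refine (hTz v hvT).trans ?_
    rw [Nat.cast_mul, map_mul]
    exact mul_le_of_le_one_left' (val_nat_le v m))
  have hfin : ∀ v : HeightOneSpectrum (𝓞 K), ((ℓ ^ r : ℕ) : ℤ) * (ℓ ^ k : ℕ) ∣
      (ℓ ^ k : ℕ) * (ordv v (α : K) * a v) + (ℓ ^ r : ℕ) * (ordv v (b / z) * e v) := by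
    intro v
    by_cases hmv : α - 1 ∈ v.asIdeal
    · have h1 : ordv v (α : K) = 0 := by
        refine ordv_eq_zero (val_one_of_sub ?_)
        have := (v.valuation_lt_one_iff_mem (K := K) (α - 1)).mpr hmv
        simpa using this
      rw [h1, hbT v (Or.inl hmv)]
      simp
    · by_cases hMv : (M : 𝓞 K) ∈ v.asIdeal
      · have h1 : ordv v (α : K) = 0 := ordv_eq_zero (val_one_of_notMem (hαM v hMv))
        rw [h1, hbT v (Or.inr hMv)]
        simp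
      · have hMP : ∀ P : Ideal (𝓞 L'), dn K P = v.asIdeal → (M : 𝓞 L') ∉ P := by
          intro P hP h
          apply hMv
          rw [← hP]
          exact nat_mem_dn.mpr h
        exact C.fin_term H269.UNRV H914.VALX H510.FRB (H352.CF.RDN H269.UNRV) hαK hb0 hz0 hγδ hγ'
          hδ hy v (hunrL v hmv)
          (fun P hP hP0 hPv => (he P v hP hP0 (hMP P hPv) hPv).1)
          (fun P hP _ hPv => ha v P hP hPv)
          (fun P hP hP0 hPv => (he P v hP hP0 (hMP P hPv) hPv).2)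
  have hsuppα := finite_supp hαK
  have hsuppb := finite_supp hbz0
  let F : Finset (HeightOneSpectrum (𝓞 K)) := hsuppα.toFinset ∪ hsuppb.toFinset
  have hs1 : (∑ᶠ v : HeightOneSpectrum (𝓞 K), ordv v (α : K) * (a v : ℤ)) =
      ∑ v ∈ F, ordv v (α : K) * (a v : ℤ) := by
    apply finsum_eq_sum_of_support_subset
    intro v hv
    rw [Function.mem_support] at hv
    simp only [F, Finset.coe_union, Set.Finite.coe_toFinset]
    left
    intro h0
    apply hv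
    rw [h0, zero_mul]
  have hs2 : (∑ᶠ v : HeightOneSpectrum (𝓞 K), ordv v (b / z) •
      ex χ (Ideal.absNorm v.asIdeal : ZMod M)) =
      ((∑ v ∈ F, ordv v (b / z) * (e v : ℤ) : ℤ) : ZMod (ℓ ^ k)) := by
    rw [finsum_eq_sum_of_support_subset (s := F), Int.cast_sum]
    · refine Finset.sum_congr rfl fun v _ => ?_
      rw [Int.cast_mul, Int.cast_natCast, ZMod.natCast_zmod_val, zsmul_eq_mul]
    · intro v hv
      rw [Function.mem_support] at hv
      simp only [F, Finset.coe_union, Set.Finite.coe_toFinset]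
      right
      intro h0
      apply hv
      rw [h0, zero_zsmul]
  have hr2 : Nat.card {φ : K →+* ℝ // φ (b / z) < 0} = 0 := Nat.card_of_isEmpty
  rw [hs2, hr2, zero_smul, add_zero, ZMod.intCast_zmod_eq_zero_iff_dvd] at hN
  rw [hs1]
  have hsum1 : ((ℓ ^ r : ℕ) : ℤ) * (ℓ ^ k : ℕ) ∣
      (ℓ ^ k : ℕ) * (∑ v ∈ F, ordv v (α : K) * (a v : ℤ)) +
      (ℓ ^ r : ℕ) * (∑ v ∈ F, ordv v (b / z) * (e v : ℤ)) := by
    rw [Finset.mul_sum, Finset.mul_sum, ← Finset.sum_add_distrib]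
    exact Finset.dvd_sum fun v _ => hfin v
  have hfinal := dvd_sub hsum1 (mul_dvd_mul_left (((ℓ ^ r : ℕ) : ℤ)) hN)
  rw [add_sub_cancel_right, mul_comm] at hfinal
  exact Int.dvd_of_mul_dvd_mul_left (by exact_mod_cast hn'0.ne') hfinal

end Vale.Agent.P016Z.Art
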