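import Vale.Agent.P016Z.Sym.Defs
import Vale.Agent.P016Z.Sym.Art
import Vale.Agent.P011.ArP.KumExt

/-!
P016, block SYM: the cubic symbol is a ray class character (from Artin reciprocity for Kummer
extensions of degree three).
-/

open NumberField IsDedekindDomain

set_option linter.unusedSectionVars false

namespace Vale.Agent.P016Z.Sym

open Vale.Agent.P022.C (ordv Frob Unr dn Cyc ordv_mul ordv_eq_zero finite_supp val_nat_eq_one
  mem_dn nat_mem_dn)
open Vale.Agent.P011.ArP (Mu KD Pw exists_kum)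

variable {K : Type} [Field K] [NumberField K] [Dat K]

theorem val_R_le {v : HeightOneSpectrum (𝓞 K)} (hv : (Q K : 𝓞 K) ∉ v.asIdeal) {x : K}
    (hx : x ∈ R K) : v.valuation K x ≤ 1 := by
  obtain ⟨k, hk⟩ := mem_R.1 hx
  have h := v.valuation_le_one (K := K) (⟨_, hk⟩ : 𝓞 K)
  change v.valuation K ((Q K : K) ^ k * x) ≤ 1 at h
  rwa [map_mul, map_pow, val_nat_eq_one hv, one_pow, one_mul] at h

theorem val_unit {v : HeightOneSpectrum (𝓞 K)} (hv : (Q K : 𝓞 K) ∉ v.asIdeal) {u : R K}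
    (hu : IsUnit u) : v.valuation K (u : K) = 1 := by
  obtain ⟨t, ht⟩ := hu.exists_right_inv
  have h1 : v.valuation K (u : K) * v.valuation K (t : K) = 1 := by
    rw [← map_mul, show (u : K) * t = 1 from congrArg Subtype.val ht, map_one]
  refine le_antisymm (val_R_le hv u.2) ?_
  rw [← h1]
  exact mul_le_of_le_one_right' (val_R_le hv t.2)

theorem val_le_of_dvd {v : HeightOneSpectrum (𝓞 K)} (hv : (Q K : 𝓞 K) ∉ v.asIdeal) {x y : R K}
    (h : x ∣ y) : v.valuation K (y : K) ≤ v.valuation K (x : K) := by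
  obtain ⟨t, rfl⟩ := h
  push_cast
  rw [map_mul]
  exact mul_le_of_le_one_right' (val_R_le hv t.2)

/-- the prime of the integers below a prime of `R` -/
noncomputable def vp {π : R K} (hπ : Prime π) : HeightOneSpectrum (𝓞 K) :=
  ⟨idl π, Ideal.comap_isPrime _ _ (H := (Ideal.span_singleton_prime hπ.ne_zero).2 hπ),
    idl_ne_bot hπ.ne_zero⟩

theorem mem_vp {π : R K} (hπ : Prime π) {x : 𝓞 K} : x ∈ (vp hπ).asIdeal ↔ π ∣ toR x := mem_idl

theorem Q_notMem_vp {π : R K} (hπ : Prime π) : (Q K : 𝓞 K) ∉ (vp hπ).asIdeal := by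
  rw [mem_vp, map_natCast]
  exact fun h => hπ.not_isUnit (isUnit_of_dvd_unit h isUnit_Q)

theorem eq_vp {π : R K} (hπ : Prime π) {v : HeightOneSpectrum (𝓞 K)}
    (hv : (Q K : 𝓞 K) ∉ v.asIdeal) (h : v.valuation K (π : K) < 1) : v = vp hπ := by
  have h1 : (vp hπ).asIdeal ≤ v.asIdeal := fun y hy =>
    (v.valuation_lt_one_iff_mem (K := K) y).1
      (lt_of_le_of_lt (val_le_of_dvd hv ((mem_vp hπ).1 hy)) h)
  exact HeightOneSpectrum.ext ((vp hπ).isMaximal.eq_of_le v.isPrime.ne_top h1).symm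

theorem ordv_vp {π : R K} (hπ : Prime π) : ordv (vp hπ) (π : K) = 1 := by
  have hv := Q_notMem_vp hπ
  obtain ⟨y, hy⟩ := (vp hπ).intValuation_exists_uniformizer
  have hy1 : (vp hπ).valuation K (y : K) = WithZero.exp (-1 : ℤ) := by
    rw [← hy]; exact (vp hπ).valuation_of_algebraMap y
  have hy2 : y ∈ (vp hπ).asIdeal := by
    rw [← (vp hπ).valuation_lt_one_iff_mem (K := K)]
    change (vp hπ).valuation K (y : K) < 1
    rw [hy1, ← WithZero.exp_zero, WithZero.exp_lt_exp]; norm_num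
  have h1 := val_le_of_dvd hv ((mem_vp hπ).1 hy2)
  rw [coe_toR, hy1] at h1
  have h2 : (vp hπ).valuation K (π : K) < 1 := by
    obtain ⟨k, hk⟩ := mem_R.1 π.2
    have h3 : (⟨_, hk⟩ : 𝓞 K) ∈ (vp hπ).asIdeal :=
      (mem_vp hπ).2 ⟨(Q K : R K) ^ k, Subtype.ext (by push_cast; exact mul_comm _ _)⟩
    have h4 := ((vp hπ).valuation_lt_one_iff_mem (K := K) _).2 h3
    change (vp hπ).valuation K ((Q K : K) ^ k * π) < 1 at h4
    rwa [map_mul, map_pow, val_nat_eq_one hv, one_pow, one_mul] at h4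
  have h0 : (vp hπ).valuation K (π : K) ≠ 0 :=
    (Valuation.ne_zero_iff _).2 (coe_ne_zero hπ.ne_zero)
  rw [← WithZero.exp_log h0] at h1 h2
  rw [WithZero.exp_le_exp] at h1
  rw [← WithZero.exp_zero, WithZero.exp_lt_exp] at h2
  unfold ordv
  omega

open Classical in
/-- the weighted degree outside `S` -/
noncomputable def Phi (a : HeightOneSpectrum (𝓞 K) → ℕ) (x : K) : ℤ :=
  ∑ᶠ v : HeightOneSpectrum (𝓞 K), ordv v x * if (Q K : 𝓞 K) ∈ v.asIdeal then 0 else (a v : ℤ)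

theorem Phi_mul (a : HeightOneSpectrum (𝓞 K) → ℕ) {x y : K} (hx : x ≠ 0) (hy : y ≠ 0) :
    Phi a (x * y) = Phi a x + Phi a y := by
  classical
  have h : ∀ {t : K}, t ≠ 0 → (fun v : HeightOneSpectrum (𝓞 K) =>
      ordv v t * if (Q K : 𝓞 K) ∈ v.asIdeal then 0 else (a v : ℤ)).HasFiniteSupport :=
    fun ht => (finite_supp ht).subset fun v hv h0 => hv (by simp only [h0, zero_mul])
  rw [Phi, Phi, Phi, ← finsum_add_distrib (h hx) (h hy)]
  exact finsum_congr fun v => by rw [ordv_mul hx hy, add_mul]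

theorem Phi_unit (a : HeightOneSpectrum (𝓞 K) → ℕ) {u : R K} (hu : IsUnit u) :
    Phi a (u : K) = 0 := by
  classical
  refine finsum_eq_zero_of_forall_eq_zero fun v => ?_
  split_ifs with h
  · exact mul_zero _
  · rw [ordv_eq_zero (val_unit h hu), zero_mul]

theorem Phi_prime (a : HeightOneSpectrum (𝓞 K) → ℕ) {π : R K} (hπ : Prime π) :
    Phi a (π : K) = a (vp hπ) := by
  classical
  rw [Phi, finsum_eq_single _ (vp hπ), if_neg (Q_notMem_vp hπ), ordv_vp, one_mul]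
  intro v hv
  split_ifs with h
  · exact mul_zero _
  · rw [ordv_eq_zero (le_antisymm (val_R_le h π.2) (not_lt.1 fun h1 => hv (eq_vp hπ h h1))),
      zero_mul]

theorem x6_sq_eq_zpow (a : HeightOneSpectrum (𝓞 K) → ℕ) {c : R K}
    (ha : ∀ (π : R K) (hπ : Prime π), ¬ π ∣ c → x6 π c ^ 2 = zC ^ (2 * a (vp hπ))) {b : R K}
    (hb : b ≠ 0) (hbc : IsCoprime c b) : x6 b c ^ 2 = (zC ^ 2) ^ Phi a (b : K) := by
  induction b using UniqueFactorizationMonoid.induction_on_prime with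
  | h₁ => exact absurd rfl hb
  | h₂ u hu => rw [x6_unit hu, Phi_unit a hu, one_pow, zpow_zero]
  | h₃ b π h0 hπ ih =>
    have h1 : zC ^ 2 ≠ 0 := pow_ne_zero _ (zC_prim.ne_zero (by norm_num))
    rw [x6_mul_left, mul_pow, ih h0 hbc.of_mul_right_right,
      ha π hπ (hπ.coprime_iff_not_dvd.1 hbc.of_mul_right_left.symm), Subalgebra.coe_mul,
      Phi_mul a (coe_ne_zero hπ.ne_zero) (coe_ne_zero h0), Phi_prime a hπ, zpow_add₀ h1,
      zpow_natCast, pow_mul]

theorem omega_prim : IsPrimitiveRoot (z12 K ^ 4) 3 := Dat.hz.pow (by norm_num) (by norm_num)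

instance : IsEmpty (K →+* ℝ) := ⟨fun φ => by
  have h : (z12 K ^ 3) ^ 2 = -1 := by
    rw [← pow_mul]
    exact (Dat.hz.pow (by norm_num) (show 12 = 6 * 2 by norm_num)).eq_neg_one_of_two_right
  have h1 := congrArg φ h
  rw [map_pow, map_neg, map_one] at h1
  nlinarith [sq_nonneg (φ (z12 K ^ 3))]⟩

variable (K) in
/-- the cube roots of unity -/
def mu3 : Mu 3 K := ⟨z12 K ^ 4, omega_prim, Nat.prime_three, by norm_num⟩

variable (K) in
/-- the cube root of unity as an integer -/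
def wO : 𝓞 K := ⟨z12 K ^ 4, omega_prim.isIntegral (by norm_num)⟩

theorem wO_cube : wO K ^ 2 + wO K + 1 = 0 := by
  refine RingOfIntegers.ext ?_
  have h := (omega_prim (K := K)).geom_sum_eq_zero (by norm_num)
  simp only [Finset.sum_range_succ, Finset.range_zero, Finset.sum_empty, pow_zero, pow_one] at h
  change (z12 K ^ 4) ^ 2 + z12 K ^ 4 + 1 = 0
  linear_combination h

theorem toR_wO : toR (wO K) = (zR K ^ 2) ^ 2 := Subtype.ext (by
  change z12 K ^ 4 = (((zR K ^ 2) ^ 2 : R K) : K)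
  push_cast
  rw [coe_zR]; ring)

theorem three_dvd_of_mem {I : Ideal (𝓞 K)} (h3 : (3 : 𝓞 K) ∉ I) {i : ℕ}
    (h : wO K ^ i - 1 ∈ I) : 3 ∣ i := by
  have h1 : wO K ^ 3 = 1 := by linear_combination (wO K - 1) * wO_cube (K := K)
  rw [← Nat.div_add_mod i 3, pow_add, pow_mul, h1, one_pow, one_mul] at h
  have h2 : i % 3 = 0 ∨ i % 3 = 1 ∨ i % 3 = 2 := by omega
  rcases h2 with h2 | h2 | h2
  · exact Nat.dvd_of_mod_eq_zero h2
  · rw [h2] at h
    refine absurd ?_ h3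
    have := I.mul_mem_left (-(wO K + 2)) h
    rwa [show -(wO K + 2) * (wO K ^ 1 - 1) = 3 by linear_combination -wO_cube (K := K)] at this
  · rw [h2] at h
    refine absurd ?_ h3
    have := I.mul_mem_left (wO K - 1) h
    rwa [show (wO K - 1) * (wO K ^ 2 - 1) = 3 by
      linear_combination (wO K - 2) * wO_cube (K := K)] at this

section kummer

variable {c : 𝓞 K} {cu : Kˣ} (hc : (cu : K) = c) {L : Type} [Field L] [NumberField L]
  [Algebra K L] {θ : L} {σ : L ≃ₐ[K] L} (D : KD (mu3 K) cu L θ σ)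

include D

theorem kd_dvd {i : ℕ} : σ ^ i = 1 ↔ 3 ∣ i := by
  constructor
  · intro h
    have h1 := D.sig_theta i
    rw [h, AlgEquiv.one_apply] at h1
    have h2 : algebraMap K L ((mu3 K).ζ ^ i) = algebraMap K L 1 :=
      mul_right_cancel₀ D.theta_ne (by rw [← h1, map_one, one_mul])
    exact omega_prim.dvd_of_pow_eq_one i ((algebraMap K L).injective h2)
  · rintro ⟨j, rfl⟩
    rw [pow_mul, D.sigma_pow_eq, one_pow]

theorem kd_cyc : Cyc K (3 ^ 1) σ where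
  pos := by norm_num
  ord := Nat.dvd_antisymm (orderOf_dvd_of_pow_eq_one ((kd_dvd D).2 dvd_rfl))
    ((kd_dvd D).1 (pow_orderOf_eq_one σ))
  rank := D.deg

include hc

theorem kd_int : ∃ t : 𝓞 L, t ^ 3 = algebraMap (𝓞 K) (𝓞 L) c ∧
    ∀ i : ℕ, (σ ^ i) • t = algebraMap (𝓞 K) (𝓞 L) (wO K ^ i) * t := by
  have h1 : θ ^ 3 = ((algebraMap (𝓞 K) (𝓞 L) c : 𝓞 L) : L) := by rw [D.pow, hc]; rfl
  have h2 : IsIntegral ℤ θ :=
    IsIntegral.of_pow (n := 3) (by norm_num) (by rw [h1]; exact RingOfIntegers.isIntegral_coe _)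
  refine ⟨⟨θ, h2⟩, RingOfIntegers.ext h1, fun i => RingOfIntegers.ext ?_⟩
  exact D.sig_theta i

theorem kd_unr {P : Ideal (𝓞 L)} (hP : P.IsPrime) (h1 : c ∉ dn K P) (h3 : (3 : 𝓞 K) ∉ dn K P) :
    Unr σ P := by
  obtain ⟨t, ht, hs⟩ := kd_int hc D
  intro i hi
  have h4 := hi t
  rw [hs, ← sub_one_mul] at h4
  have h5 : t ∉ P := fun h => h1 (by rw [mem_dn, ← ht]; exact P.pow_mem_of_mem h 3 (by norm_num))
  refine (kd_dvd D).2 (three_dvd_of_mem h3 ?_)
  rw [mem_dn, map_sub, map_one]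
  exact (hP.mem_or_mem h4).resolve_right h5

theorem kd_frob {P : Ideal (𝓞 L)} (hP : P.IsPrime) (h1 : c ∉ dn K P) {a m : ℕ}
    (h : Frob (σ ^ a) (3 * m + 1) P) : c ^ m - wO K ^ a ∈ dn K P := by
  obtain ⟨t, ht, hs⟩ := kd_int hc D
  have h4 := P.neg_mem (h t)
  rw [hs, pow_succ, pow_mul, ht, neg_sub, ← sub_mul] at h4
  have h5 : t ∉ P := fun h => h1 (by rw [mem_dn, ← ht]; exact P.pow_mem_of_mem h 3 (by norm_num))
  rw [mem_dn, map_sub, map_pow]
  exact (hP.mem_or_mem h4).resolve_right h5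

end kummer

theorem ray_int {b c : 𝓞 K} (hc : c ≠ 0) (h1 : (Q K : 𝓞 K) ^ 2 ∣ b - 1)
    (h2 : toR c ∣ toR b - 1) (hb : b ≠ 0) : x6 (toR b) (toR c) ^ 2 = 1 := by
  classical
  have hcK : (c : K) ≠ 0 := by exact_mod_cast hc
  have hbR : toR b ≠ 0 := fun h => hb (RingOfIntegers.ext (congrArg (fun t : R K => (t : K)) h))
  have hcop : IsCoprime (toR c) (toR b) := by
    obtain ⟨t, ht⟩ := h2
    exact ⟨-t, 1, by linear_combination ht⟩
  by_cases hb1 : b - 1 = 0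
  · rw [sub_eq_zero.1 hb1, map_one, x6_one_left, one_pow]
  by_cases hcube : Units.mk0 (c : K) hcK ∈ Pw 3 K
  · obtain ⟨y, hy⟩ := hcube
    have hy1 : (y : K) ^ 3 = c := congrArg Units.val hy
    have hy2 : IsIntegral ℤ (y : K) :=
      IsIntegral.of_pow (n := 3) (by norm_num) (by rw [hy1]; exact c.isIntegral_coe)
    have hy3 : toR c = (⟨y, mem_R_of_isIntegral hy2⟩ : R K) ^ 3 := Subtype.ext hy1.symm
    rw [hy3] at hcop
    rw [hy3, x6_pow hbR, ← pow_mul]
    exact x6_pow_six hbR ((IsCoprime.pow_left_iff (by norm_num)).1 hcop)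
  obtain ⟨L, _, _, _, θ, σ, D⟩ := exists_kum (mu3 K) _ hcube
  choose a ha using fun v => Vale.Agent.P022.H352.CF.exists_exp (kd_cyc D) v
  have h3Q : (3 : 𝓞 K) ∣ (Q K : 𝓞 K) := by
    exact_mod_cast Nat.cast_dvd_cast (α := 𝓞 K) (Dvd.dvd.trans (by norm_num : 3 ∣ 36) (Q_dvd36 K))
  have hQv : ∀ v : HeightOneSpectrum (𝓞 K), (Q K : 𝓞 K) ∈ v.asIdeal → b - 1 ∈ v.asIdeal :=
    fun v h => v.asIdeal.mem_of_dvd h1 (v.asIdeal.pow_mem_of_mem h 2 (by norm_num))
  have key := Art.core Nat.prime_three (kd_cyc D) hb hb1 (by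
      refine Dvd.dvd.trans ?_ h1
      have : 3 ^ (2 * 1 + 1) ∣ Q K ^ 2 :=
        Dvd.dvd.trans (by norm_num) (pow_dvd_pow_of_dvd (Q_dvd36 K) 2)
      exact_mod_cast Nat.cast_dvd_cast (α := 𝓞 K) this)
    (fun P hP hP0 hn => by
      let v : HeightOneSpectrum (𝓞 K) :=
        ⟨dn K P, Vale.Agent.P022.C.dn_prime hP, Vale.Agent.P022.C.dn_ne_bot hP0⟩
      have hQ : (Q K : 𝓞 K) ∉ v.asIdeal := fun h => hn (hQv v h)
      refine kd_unr rfl D hP (fun h => hn ?_) fun h => ?_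
      · have h4 := lt_of_le_of_lt (val_le_of_dvd hQ h2)
          ((v.valuation_lt_one_iff_mem (K := K) c).2 h)
        exact (v.valuation_lt_one_iff_mem (K := K) (b - 1)).1 (by simpa using h4)
      · exact hQ (v.asIdeal.mem_of_dvd h3Q h)) a ha
  have h4 : Phi a ((toR b : R K) : K) =
      ∑ᶠ v : HeightOneSpectrum (𝓞 K), ordv v (b : K) * (a v : ℤ) := by
    refine finsum_congr fun v => ?_
    split_ifs with h
    · have h5 : ordv v (b : K) = 0 := by
        refine ordv_eq_zero (Vale.Agent.P022.C.val_one_of_sub ?_)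
        simpa using (v.valuation_lt_one_iff_mem (K := K) (b - 1)).2 (hQv v h)
      rw [h5, zero_mul, mul_zero]
    · rfl
  rw [x6_sq_eq_zpow a ?_ hbR hcop, h4, zC_sq_prim.zpow_eq_one_iff_dvd]
  · simpa using key
  · intro π hπ hπc
    obtain ⟨w, hw⟩ := Vale.Agent.P022.C.exists_above (vp hπ) L
    have h5 := ha (vp hπ) w.asIdeal w.isPrime hw
    have h6 : Ideal.absNorm (vp hπ).asIdeal = 3 * ((Nr π - 1) / 6 * 2) + 1 := by
      have h7 := twelve_dvd hπ
      have h8 := thirteen_le hπ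
      rw [show Ideal.absNorm (vp hπ).asIdeal = Nr π from (Nr_eq_absNorm hπ.ne_zero).symm]
      omega
    rw [h6] at h5
    have h9 := kd_frob rfl D w.isPrime (by rw [hw, mem_vp]; exact hπc) h5
    rw [hw, mem_vp, map_sub, map_pow, map_pow, toR_wO, ← pow_mul] at h9
    exact (x6_prime_pow_eq hπ hπc).2 h9

/-- **RAY** -/
theorem ray : RAY K := by
  intro b c hc h1 h2
  have hQ := QK_ne K
  have hb1 : ((b : K) - 1) / (Q K : K) ∈ Si K := by
    simpa using div_pow_mem_Si_mono (k := 1) h1 (by norm_num)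
  have hb0 : (b : K) ≠ 0 := (inv_mem_Si_of_sub_one hb1).2
  have hb : b ≠ 0 := fun h => hb0 (by rw [h]; rfl)
  obtain ⟨k, hk⟩ := mem_R.1 c.2
  have hk3 : IsIntegral ℤ (((Q K : K) ^ k) ^ 3 * c) := by
    rw [show ((Q K : K) ^ k) ^ 3 * c = ((Q K : K) ^ k) ^ 2 * ((Q K : K) ^ k * c) by ring]
    exact (((isIntegral_natCast _).pow k).pow 2).mul hk
  let b0 : 𝓞 K := ⟨b, isIntegral_of_mem b.2 (mem_Si_of_sub_one h1)⟩
  let c0 : 𝓞 K := ⟨_, hk3⟩
  have e1 : toR b0 = b := rfl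
  have e2 : toR c0 = ((Q K : R K) ^ k) ^ 3 * c := Subtype.ext (by push_cast; rfl)
  have hu : IsUnit ((Q K : R K) ^ k) := isUnit_Q.pow k
  have h3 := ray_int (b := b0) (c := c0)
    (fun h => mul_ne_zero (pow_ne_zero 3 hu.ne_zero) hc (by rw [← e2, h, map_zero]))
    ⟨⟨_, isIntegral_of_mem (div_Q_pow_mem_R (sub_mem b.2 (one_mem _)) 2) h1⟩,
      RingOfIntegers.ext (by
        change (b : K) - 1 = (((Q K : 𝓞 K) ^ 2 : 𝓞 K) : K) * (((b : K) - 1) / (Q K : K) ^ 2)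
        push_cast
        field_simp)⟩
    (by rw [e1, e2]; exact ((hu.pow 3).mul_left_dvd).2 h2)
    (fun h => hb (by rw [← e1, h, map_zero]))
  rwa [e1, e2, x6_mul, x6_pow hb, mul_pow, ← pow_mul,
    x6_pow_six hb (coprime_of_isUnit hu b), one_mul] at h3

end Vale.Agent.P016Z.Sym
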