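import Vale.Agent.P016Z.Sym.Defs
import Vale.Agent.P016Z.Base.Mon
import Mathlib.NumberTheory.JacobiSum.Basic

/-!
P016, block SYM: Gauss sums of the sextic symbol.
-/

namespace Vale.Agent.P016Z.Sym

open NumberField UniqueFactorizationMonoid
open scoped ComplexConjugate

section field

variable {F : Type*} [Field F] [Fintype F] [DecidableEq F]

/-- a sum over squares -/
theorem sum_sq_eq (hF : ringChar F ≠ 2) (f : F → ℂ) :
    ∑ y : F, f (y ^ 2) = ∑ t : F, ((quadraticChar F t + 1 : ℤ) : ℂ) * f t := by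
  rw [← Finset.sum_fiberwise (s := Finset.univ) (g := fun u : F => u ^ 2)]
  refine Finset.sum_congr rfl fun t _ => ?_
  have h3 : ∑ u ∈ Finset.univ.filter (fun u : F => u ^ 2 = t), f (u ^ 2) =
      ∑ u ∈ Finset.univ.filter (fun u : F => u ^ 2 = t), f t := by
    refine Finset.sum_congr rfl fun u hu => ?_
    rw [(Finset.mem_filter.1 hu).2]
  rw [h3, Finset.sum_const, nsmul_eq_mul]
  congr 1
  have h4 := quadraticChar_card_sqrts hF t
  have h5 : {x : F | x ^ 2 = t}.toFinset = Finset.univ.filter (fun u : F => u ^ 2 = t) := by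
    ext x; simp
  rw [h5] at h4
  rw [← h4, Int.cast_natCast]

/-- `χ(4) J(χ,χ) = J(ρ,χ)` -/
theorem jacobi_dup (hF : ringChar F ≠ 2) {χ : MulChar F ℂ} (hχ : χ ≠ 1) :
    χ 4 * jacobiSum χ χ = jacobiSum ((quadraticChar F).ringHomComp (Int.castRingHom ℂ)) χ := by
  have h2 : (2 : F) ≠ 0 := Ring.two_ne_zero hF
  have e1 : χ 4 * jacobiSum χ χ = ∑ y : F, χ (1 - y ^ 2) := by
    rw [jacobiSum, Finset.mul_sum]
    refine Fintype.sum_equiv ((Equiv.mulLeft₀ 2 h2).trans (Equiv.subRight 1)) _ _ fun x => ?_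
    rw [← map_mul, ← map_mul]
    congr 1
    simp only [Equiv.trans_apply, Equiv.mulLeft₀_apply, Equiv.subRight_apply]
    ring
  have e2 := sum_sq_eq hF fun t => χ (1 - t)
  have e3 : ∑ t : F, χ (1 - t) = 0 := by
    rw [← MulChar.sum_eq_zero_of_ne_one hχ]
    exact Fintype.sum_equiv (Equiv.subLeft 1) _ _ fun x => rfl
  rw [e1, e2, jacobiSum]
  simp only [Int.cast_add, Int.cast_one, add_mul, one_mul, Finset.sum_add_distrib, e3, add_zero]
  rfl

/-- the Hasse-Davenport product relation -/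
theorem hasse_davenport (hF : ringChar F ≠ 2) {χ : MulChar F ℂ} (hχ2 : χ * χ ≠ 1)
    {ψ : AddChar F ℂ} (hψ : ψ.IsPrimitive) :
    χ 4 * (gaussSum χ ψ *
        gaussSum ((quadraticChar F).ringHomComp (Int.castRingHom ℂ) * χ) ψ) =
      gaussSum (χ * χ) ψ * gaussSum ((quadraticChar F).ringHomComp (Int.castRingHom ℂ)) ψ := by
  set ρ := (quadraticChar F).ringHomComp (Int.castRingHom ℂ) with hρ
  have hχ : χ ≠ 1 := by rintro rfl; exact hχ2 (mul_one _)
  have hρ2 : ρ * ρ = 1 := by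
    rw [← sq]
    exact ((quadraticChar_isQuadratic F).comp _).sq_eq_one
  have hρχ : ρ * χ ≠ 1 := by
    intro h
    apply hχ2
    calc χ * χ = (ρ * ρ) * (χ * χ) := by rw [hρ2, one_mul]
      _ = (ρ * χ) * (ρ * χ) := by rw [mul_mul_mul_comm]
      _ = 1 := by rw [h, one_mul]
  have h1 := jacobiSum_mul_nontrivial hχ2 ψ
  have h2 := jacobiSum_mul_nontrivial hρχ ψ
  have h3 := jacobi_dup hF hχ
  rw [← hρ] at h3
  have h0 : gaussSum χ ψ ≠ 0 :=
    gaussSum_ne_zero_of_nontrivial (by exact_mod_cast Fintype.card_ne_zero) hχ hψ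
  apply mul_left_cancel₀ h0
  linear_combination (-(χ 4) * gaussSum (ρ * χ) ψ) * h1 +
    (gaussSum (χ * χ) ψ * gaussSum (ρ * χ) ψ) * h3 + gaussSum (χ * χ) ψ * h2

end field

variable {K : Type} [Field K] [NumberField K] [Dat K]

/-! ### primitive characters -/

/-- Gauss sums of primitive characters -/
theorem gauss_prim {h : R K} (hh : h ≠ 0) {χ : R K → ℂ} (hper : PerM h χ)
    (hmul : ∀ x y, χ (x * y) = χ x * χ y) (h1 : χ 1 = 1) (h0 : ∀ x, ¬ IsCoprime x h → χ x = 0)
    (hc : ∀ x, IsCoprime x h → conj (χ x) * χ x = 1)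
    (hprim : ∀ p, Prime p → p ∣ h → ∃ u, IsCoprime u h ∧ h ∣ p * (u - 1) ∧ χ u ≠ 1) :
    ‖rsum h (fun x => χ x * E h (x * 1))‖ ^ 2 = Nr h ∧
      ∀ y, rsum h (fun x => χ x * E h (x * y)) =
        conj (χ y) * rsum h (fun x => χ x * E h (x * 1)) := by
  have := finite_Rs hh
  simp only [mul_one]
  have key : ∀ y, rsum h (fun x => χ x * E h (x * y)) =
      conj (χ y) * rsum h (fun x => χ x * E h x) := by
    intro y
    by_cases hy : IsCoprime y h
    · rw [← rsum_comp_mul hy (hper.mul (E_per' hh)), ← rsum_const_mul]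
      refine rsum_congr fun x => ?_
      rw [hmul, ← mul_assoc, ← mul_assoc, hc y hy, one_mul, mul_comm y x]
    · rw [h0 y hy, map_zero, zero_mul]
      obtain ⟨p, hp, hp1, hp2⟩ : ∃ p, Prime p ∧ p ∣ y ∧ p ∣ h := by
        by_contra h2
        refine hy (isCoprime_of_prime_dvd (fun h3 => hh h3.2) fun p hp h3 h4 => h2 ⟨p, hp, h3, h4⟩)
      obtain ⟨u, hu1, hu2, hu3⟩ := hprim p hp hp2
      have h3 := rsum_comp_mul hu1 (hper.mul (E_per hh y))
      have h4 : ∀ x, χ (u * x) * E h (u * x * y) = χ u * (χ x * E h (x * y)) := by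
        intro x
        obtain ⟨t, rfl⟩ := hp1
        rw [hmul, mul_assoc (χ u), E_per' hh (u * x * (p * t)) (x * (p * t))
          (by rw [show u * x * (p * t) - x * (p * t) = p * (u - 1) * (x * t) by ring]
              exact hu2.mul_right _)]
      simp only [h4] at h3
      rw [rsum_const_mul] at h3
      by_contra h5
      exact hu3 ((mul_eq_right₀ h5).1 h3)
  refine ⟨?_, key⟩
  have h2 := fourier_inv hh hper 1
  simp only [fhat, key, h1, mul_one, one_mul, E_neg] at h2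
  have h3 : ∀ y, conj (χ y) * rsum h (fun x => χ x * E h x) * conj (E h y) =
      rsum h (fun x => χ x * E h x) * conj (χ y * E h y) := fun y => by
    rw [map_mul]; ring
  simp only [h3] at h2
  rw [rsum_const_mul, rsum_conj, Complex.mul_conj'] at h2
  exact_mod_cast h2

theorem x6_prim {h : R K} (hh : Squarefree h) {j : ℕ} (h0 : 0 < j) (h6 : j < 6) (p : R K)
    (hp : Prime p) (hd : p ∣ h) : ∃ u, IsCoprime u h ∧ h ∣ p * (u - 1) ∧ x6 h u ^ j ≠ 1 := by
  obtain ⟨m, rfl⟩ := hd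
  have hm : m ≠ 0 := right_ne_zero_of_mul hh.ne_zero
  obtain ⟨a, b, hab⟩ : IsCoprime p m := (IsRelPrime.of_squarefree_mul hh).isCoprime
  obtain ⟨x, hx0, hx2⟩ := exists_x6_pow_ne_one hp h0 h6
  have hx1 : IsCoprime x p := (hp.coprime_iff_not_dvd.2 hx0).symm
  have e1 : p ∣ a * p + b * m * x - x := ⟨a - a * x, by linear_combination x * hab⟩
  have e2 : m ∣ a * p + b * m * x - 1 := ⟨b * x - b, by linear_combination hab⟩
  refine ⟨a * p + b * m * x, IsCoprime.mul_right ?_ ?_, mul_dvd_mul_left p e2, ?_⟩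
  · obtain ⟨t, ht⟩ := e1
    rw [sub_eq_iff_eq_add'] at ht
    rw [ht]
    exact hx1.add_mul_left_left t
  · obtain ⟨t, ht⟩ := e2
    rw [sub_eq_iff_eq_add'] at ht
    rw [ht]
    exact isCoprime_one_left.add_mul_left_left t
  · rwa [x6_mul_left, x6_congr e1, x6_congr e2, x6_one_right hm, mul_one]

theorem conj_x6_pow_mul {c a : R K} (hc : c ≠ 0) (h : IsCoprime a c) (j : ℕ) :
    conj (x6 c a ^ j) * x6 c a ^ j = 1 := by
  rw [map_pow, ← mul_pow, conj_x6_mul hc, cop_of_coprime h, one_pow]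

theorem primG : PRIMG K := fun h j hh h0 h6 =>
  gauss_prim hh.ne_zero ((x6_per h).pow j) (fun x y => by rw [x6_mul, mul_pow])
    (by rw [x6_one_right hh.ne_zero, one_pow])
    (fun x hx => by rw [x6_of_not_coprime hx, zero_pow h0.ne'])
    (fun x hx => conj_x6_pow_mul hh.ne_zero hx j) (x6_prim hh h0 h6)

theorem norm_gs_sq {h : R K} (hh : Squarefree h) {j : ℕ} (h0 : 0 < j) (h6 : j < 6) :
    ‖gs j 1 h‖ ^ 2 = Nr h := (primG h j hh h0 h6).1

theorem norm_gs {h : R K} (hh : Squarefree h) {j : ℕ} (h0 : 0 < j) (h6 : j < 6) :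
    ‖gs j 1 h‖ = √(Nr h : ℝ) := by
  rw [← norm_gs_sq hh h0 h6, Real.sqrt_sq (norm_nonneg _)]

theorem gs_mul_conj {h : R K} (hh : Squarefree h) {j : ℕ} (h0 : 0 < j) (h6 : j < 6) :
    gs j 1 h * conj (gs j 1 h) = Nr h := by
  rw [Complex.mul_conj']
  exact_mod_cast norm_gs_sq hh h0 h6

theorem gs_eq {h : R K} (hh : Squarefree h) {j : ℕ} (h0 : 0 < j) (h6 : j < 6) (y : R K) :
    gs j y h = conj (x6 h y ^ j) * gs j 1 h := (primG h j hh h0 h6).2 y

/-! ### elementary properties -/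

theorem gs_per {n : R K} (hn : n ≠ 0) (j : ℕ) (k : R K) :
    PerM n fun x => x6 n x ^ j * E n (x * k) := ((x6_per n).pow j).mul (E_per hn k)

theorem gs_twist {n x : R K} (hn : n ≠ 0) (hx : IsCoprime x n) (j : ℕ) (k : R K) :
    gs j (k * x) n = conj (x6 n x ^ j) * gs j k n := by
  rw [gs, gs, ← rsum_comp_mul hx (gs_per hn j k), ← rsum_const_mul]
  refine rsum_congr fun y => ?_
  rw [x6_mul, mul_pow, ← mul_assoc (conj _), ← mul_assoc (conj _), conj_x6_pow_mul hn hx, one_mul]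
  congr 2
  ring

theorem gs_mul {a b : R K} (ha : a ≠ 0) (hb : b ≠ 0) (hab : IsCoprime a b) (j : ℕ) (k : R K) :
    gs j k (a * b) = (x6 a b * x6 b a) ^ j * (gs j k a * gs j k b) := by
  have h1 := rsum_mul_E ha hb hab ((x6_per a).pow j) ((x6_per b).pow j) k
  simp only [x6_mul, mul_pow, mul_assoc, rsum_const_mul] at h1
  rw [gs]
  simp only [x6_mul_left, mul_pow, mul_assoc]
  rw [h1, gs, gs]
  ring

theorem rsum_unit {u : R K} (hu : IsUnit u) {h : R K → ℂ} (hh : PerM u h) : rsum u h = h 0 := by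
  have h1 : Associated u 1 := associated_one_iff_isUnit.2 hu
  rw [← rsum_assoc h1 hh, rsum_one (hh.mono h1.dvd)]

theorem gs_unit {u : R K} (hu : IsUnit u) (j : ℕ) (k : R K) : gs j k u = 1 := by
  rw [gs, rsum_unit hu (gs_per hu.ne_zero j k), x6_unit hu, zero_mul, E_zero, one_pow, one_mul]

theorem Nr_unit {u : R K} (hu : IsUnit u) : Nr u = 1 := Nq_eq_one_iff.2 hu

theorem conj_gs {n : R K} (hn : n ≠ 0) (j : ℕ) (k : R K) :
    conj (gs j k n) = rsum n fun x => conj (x6 n x ^ j) * E n (x * k) := by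
  have := finite_Rs hn
  rw [gs, ← rsum_comp_neg (gs_per hn j k), ← rsum_conj]
  refine rsum_congr fun x => ?_
  rw [x6_neg, map_mul, neg_mul, E_neg, Complex.conj_conj]

theorem conj_x6_pow (c a : R K) {i j : ℕ} (hi : 0 < i) (hj : 0 < j) (h : i + j = 6) :
    conj (x6 c a ^ i) = x6 c a ^ j := by
  by_cases hc : c = 0
  · simp [hc, hi.ne', hj.ne']
  by_cases h1 : IsCoprime a c
  · have h2 := conj_x6_pow_mul hc h1 i
    have h3 := x6_pow_six hc h1
    rw [← h, pow_add] at h3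
    linear_combination (x6 c a ^ j) * h2 - conj (x6 c a ^ i) * h3
  · simp [x6_of_not_coprime h1, hi.ne', hj.ne']

theorem conj_gs_eq {n : R K} (hn : n ≠ 0) {i j : ℕ} (hi : 0 < i) (hj : 0 < j) (h : i + j = 6)
    (k : R K) : conj (gs i k n) = gs j k n := by
  rw [conj_gs hn, gs]
  exact rsum_congr fun x => by rw [conj_x6_pow _ _ hi hj h]

theorem conj_x6_cube (c a : R K) : conj (x6 c a ^ 3) = x6 c a ^ 3 :=
  conj_x6_pow c a (by norm_num) (by norm_num) rfl

theorem sqrt_Nr_mul (a b : R K) :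
    ((√(Nr (a * b) : ℝ) : ℝ) : ℂ) = (√(Nr a : ℝ) : ℝ) * (√(Nr b : ℝ) : ℝ) := by
  rw [Nr_mul, Nat.cast_mul, Real.sqrt_mul (Nat.cast_nonneg _), Complex.ofReal_mul]

theorem sqrtC_ne {n : R K} (hn : n ≠ 0) : ((√(Nr n : ℝ) : ℝ) : ℂ) ≠ 0 :=
  Complex.ofReal_ne_zero.2 (sqrt_Nr_pos hn).ne'

theorem sqrtC_sq (n : R K) : ((√(Nr n : ℝ) : ℝ) : ℂ) ^ 2 = Nr n := by
  rw [← Complex.ofReal_pow, Real.sq_sqrt (Nat.cast_nonneg _), Complex.ofReal_natCast]

/-- induction over squarefree elements -/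
theorem sqf_induction {p : R K → Prop} (h1 : ∀ u, IsUnit u → p u)
    (h2 : ∀ π b, Prime π → Squarefree b → IsCoprime π b → p b → p (π * b)) {n : R K}
    (hn : Squarefree n) : p n := by
  induction n using induction_on_prime with
  | h₁ => exact absurd rfl hn.ne_zero
  | h₂ u hu => exact h1 u hu
  | h₃ b π _ hπ ih =>
    exact h2 π b hπ hn.of_mul_right (IsRelPrime.of_squarefree_mul hn).isCoprime
      (ih hn.of_mul_right)

/-! ### the residue field of a prime -/

section prime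

variable (π : R K) [hπ : Fact (Prime π)]

theorem X6_apply (x : Rs π) : X6 π x = x6 π (Quotient.out x) := by
  rw [← X6_rs, rs_out]

theorem gaussSum_eq [Fintype (Rs π)] {χ : MulChar (Rs π) ℂ} {j : ℕ}
    (h : ∀ x, χ x = x6 π (Quotient.out x) ^ j) :
    gaussSum χ (Ech hπ.1.ne_zero) = gs j 1 π := by
  rw [gaussSum, gs, rsum_eq_sum]
  refine Finset.sum_congr rfl fun x _ => ?_
  rw [h, mul_one]
  rfl

theorem ringChar_Rs : ringChar (Rs π) ≠ 2 := ringChar_ne_two (prim_rs π)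

theorem gs_four_mul_jac : gs 4 1 π * jac π = gs 2 1 π ^ 2 := by
  have := Fintype.ofFinite (Rs π)
  have h1 : ∀ x, (X6 π ^ 2) x = x6 π (Quotient.out x) ^ 2 := fun x => by
    rw [MulChar.pow_apply' _ (by norm_num), X6_apply]
  have h2 : ∀ x, (X6 π ^ 2 * X6 π ^ 2) x = x6 π (Quotient.out x) ^ 4 := fun x => by
    rw [MulChar.mul_apply, h1, ← pow_add]
  have h3 := jacobiSum_mul_nontrivial (χ := X6 π ^ 2) (φ := X6 π ^ 2)
    (by rw [← pow_add]; exact X6_pow_ne_one π (by norm_num) (by norm_num)) (Ech hπ.1.ne_zero)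
  rw [gaussSum_eq π h1, gaussSum_eq π h2, ← sq] at h3
  rw [← h3, jac, jacobiSum, rsum_eq_sum]
  congr 1
  refine Finset.sum_congr rfl fun x _ => ?_
  rw [h1, MulChar.pow_apply' _ (by norm_num), ← X6_rs π (1 - _), map_sub, map_one, rs_out]

theorem hd_prime : x6 π 4 * (gs 1 1 π * gs 4 1 π) = gs 2 1 π * gs 3 1 π := by
  classical
  have := Fintype.ofFinite (Rs π)
  have h := hasse_davenport (ringChar_Rs π) (χ := X6 π)
    (by rw [← sq]; exact X6_pow_ne_one π (by norm_num) (by norm_num))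
    (Ech_primitive hπ.1.ne_zero)
  have h3 : ∀ x : Rs π, (quadraticChar (Rs π)).ringHomComp (Int.castRingHom ℂ) x =
      x6 π (Quotient.out x) ^ 3 := fun x => by
    rw [MulChar.ringHomComp_apply, x6_prime_cube, rs_out]; rfl
  have h4 : ∀ x : Rs π, ((quadraticChar (Rs π)).ringHomComp (Int.castRingHom ℂ) * X6 π) x =
      x6 π (Quotient.out x) ^ 4 := fun x => by
    rw [MulChar.mul_apply, h3, X6_apply, ← pow_succ]
  have h1 : ∀ x : Rs π, X6 π x = x6 π (Quotient.out x) ^ 1 := fun x => by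
    rw [X6_apply, pow_one]
  have h2 : ∀ x : Rs π, (X6 π * X6 π) x = x6 π (Quotient.out x) ^ 2 := fun x => by
    rw [MulChar.mul_apply, X6_apply, sq]
  rwa [gaussSum_eq π h1, gaussSum_eq π h2, gaussSum_eq π h3, gaussSum_eq π h4,
    ← map_ofNat (rs π) 4, X6_rs] at h

theorem rsum_sq_prime {k : R K} (hk : IsCoprime k π) :
    rsum π (fun x => E π (k * x ^ 2)) = gs 3 k π := by
  classical
  have := Fintype.ofFinite (Rs π)
  have h0 := hπ.1.ne_zero
  have h1 := sum_sq_eq (ringChar_Rs π) fun t => Ech h0 (t * rs π k)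
  have h2 : ∀ t : Rs π, Ech h0 (t * rs π k) = E π (Quotient.out t * k) := fun t => by
    rw [← Ech_rs h0, map_mul (rs π), rs_out]
  have h3 := rsum_E h0 k
  rw [if_neg (hπ.1.coprime_iff_not_dvd.1 hk.symm), rsum_eq_sum] at h3
  have h4 : rsum π (fun x => E π (k * x ^ 2)) = ∑ y : Rs π, Ech h0 (y ^ 2 * rs π k) := by
    rw [rsum_eq_sum]
    refine Finset.sum_congr rfl fun x _ => ?_
    rw [← Ech_rs h0, map_mul, map_pow, rs_out, mul_comm]
  rw [h4, h1, gs, rsum_eq_sum]
  simp only [h2, Int.cast_add, Int.cast_one, add_mul, one_mul, Finset.sum_add_distrib, h3, add_zero]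
  refine Finset.sum_congr rfl fun x _ => ?_
  rw [x6_prime_cube, rs_out]

end prime

/-! ### the quadratic Gauss sum -/

theorem rsum_sq_mul {a b : R K} (ha : a ≠ 0) (hb : b ≠ 0) (hab : IsCoprime a b) (k : R K) :
    rsum (a * b) (fun x => E (a * b) (k * x ^ 2)) =
      rsum a (fun x => E a (k * b * x ^ 2)) * rsum b (fun y => E b (k * a * y ^ 2)) := by
  have := finite_Rs ha
  have := finite_Rs hb
  have hm := mul_ne_zero ha hb
  have hp : PerM (a * b) fun x => E (a * b) (k * x ^ 2) := fun x y h =>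
    E_per' hm _ _ (by
      rw [show k * x ^ 2 - k * y ^ 2 = (x - y) * (k * (x + y)) by ring]; exact h.mul_right _)
  rw [rsum_crt ha hab hp, ← rsum_mul_const]
  refine rsum_congr fun x => ?_
  rw [← rsum_const_mul]
  refine rsum_congr fun y => ?_
  rw [show k * (b * x + a * y) ^ 2 = b * (k * b * x ^ 2) + a * (k * a * y ^ 2) +
      a * b * (2 * k * x * y) by ring,
    E_add, E_add, E_of_dvd hm (dvd_mul_right _ _), mul_one, E_mul_cancel ha, mul_comm a b,
    E_mul_cancel hb]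

theorem rsum_sq {n : R K} (hn : Squarefree n) :
    ∀ k, IsCoprime k n → rsum n (fun x => E n (k * x ^ 2)) = gs 3 k n := by
  refine sqf_induction (p := fun n => ∀ k, IsCoprime k n →
    rsum n (fun x => E n (k * x ^ 2)) = gs 3 k n) (fun u hu k _ => ?_) (fun π b hπ hb h ih k hk => ?_) hn
  · rw [gs_unit hu, rsum_congr (h' := fun _ => 1) fun x => E_of_dvd hu.ne_zero hu.dvd,
      rsum_unit hu fun _ _ _ => rfl]
  · have : Fact (Prime π) := ⟨hπ⟩
    rw [rsum_sq_mul hπ.ne_zero hb.ne_zero h, ih _ (hk.of_mul_right_right.mul_left h),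
      rsum_sq_prime π (hk.of_mul_right_left.mul_left h.symm), gs_mul hπ.ne_zero hb.ne_zero h,
      gs_twist hπ.ne_zero h.symm, gs_twist hb.ne_zero h, conj_x6_cube, conj_x6_cube]
    ring

theorem gs_three {n : R K} (hn : Squarefree n) : gs 3 1 n = G2 n := by
  rw [← rsum_sq hn 1 isCoprime_one_left, G2]
  simp only [one_mul]

/-- the finite Fourier transform of the quadratic symbol -/
theorem gs_three_eq {n : R K} (hn : Squarefree n) (h : R K) :
    gs 3 h n = (√(Nr n : ℝ) : ℝ) * gam2 n * x6 n h ^ 3 := by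
  rw [gs_eq hn (by norm_num) (by norm_num), gs_three hn, G2_eq hn.ne_zero, conj_x6_cube]
  ring

theorem gam2_mul_of_cl {a b : R K} (ha : a ≠ 0) (hb : b ≠ 0) (h : cl (a : K) = cl (b : K)) :
    gam2 (a * b) = 1 :=
  gam2_eq_one (mul_ne_zero ha hb) ⟨cl (a : K), by
    rw [Subalgebra.coe_mul, cl_mul (coe_ne_zero ha) (coe_ne_zero hb), ← h]⟩

/-- the input of the Poisson formula for the quadratic symbol -/
theorem pois_three {a b : R K} (hab : Squarefree (a * b)) (h : cl (a : K) = cl (b : K)) (y : R K) :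
    rsum (a * b) (fun x => x6 (a * b) x ^ 3 * E (a * b) (x * y)) =
      (√(Nr (a * b) : ℝ) : ℝ) * x6 (a * b) y ^ 3 := by
  have h1 := gs_three_eq hab y
  rwa [gam2_mul_of_cl (left_ne_zero_of_mul hab.ne_zero) (right_ne_zero_of_mul hab.ne_zero) h,
    mul_one] at h1

theorem gam2_unit {u : R K} (hu : IsUnit u) : gam2 u = 1 := by
  rw [gam2, ← gs_three hu.squarefree, gs_unit hu, Nr_unit hu]
  simp

theorem gam2_mul {a b : R K} (ha : Squarefree a) (hb : Squarefree b) (hab : IsCoprime a b) :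
    gam2 (a * b) = (x6 a b * x6 b a) ^ 3 * (gam2 a * gam2 b) := by
  rw [gam2, gam2, gam2, ← gs_three ha, ← gs_three hb,
    ← gs_three (squarefree_mul_iff.2 ⟨hab.isRelPrime, ha, hb⟩), gs_mul ha.ne_zero hb.ne_zero hab,
    sqrt_Nr_mul]
  ring

/-! ### the functions `lam`, `mb`, `gg` -/

theorem jac_congr {a b : R K} (h : Associated a b) : jac a = jac b := by
  have hp : PerM a fun x => x6 a x ^ 2 * x6 a (1 - x) ^ 2 := fun x y hxy => by
    simp only [x6_congr hxy,
      x6_congr (c := a) (a := 1 - x) (b := 1 - y) (by rwa [sub_sub_sub_cancel_left, dvd_sub_comm])]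
  rw [jac, jac, ← rsum_assoc h hp]
  simp only [x6_of_associated h]

theorem lamP_congr {a b : R K} (h : Associated a b) : lamP a = lamP b := by
  rw [lamP, lamP, jac_congr h, show Nr a = Nr b from Nq_congr h]

theorem prod_lamP_congr {s t : Multiset (R K)} (h : Multiset.Rel Associated s t) :
    (s.map lamP).prod = (t.map lamP).prod := by
  rw [Multiset.rel_eq.1 (Multiset.rel_map.2 (h.mono fun _ _ _ _ hab => lamP_congr hab))]

@[simp] theorem lam_zero : lam (0 : R K) = 0 := if_pos rfl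

theorem lam_of_ne {n : R K} (hn : n ≠ 0) : lam n = ((factors n).map lamP).prod := if_neg hn

theorem lam_mul (a b : R K) : lam (a * b) = lam a * lam b := by
  by_cases ha : a = 0
  · simp [ha]
  by_cases hb : b = 0
  · simp [hb]
  rw [lam_of_ne ha, lam_of_ne hb, lam_of_ne (mul_ne_zero ha hb),
    prod_lamP_congr (factors_mul ha hb), Multiset.map_add, Multiset.prod_add]

theorem lam_unit {u : R K} (hu : IsUnit u) : lam u = 1 := by
  rw [lam_of_ne hu.ne_zero, factors_of_isUnit hu]; simp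

@[simp] theorem lam_one : lam (1 : R K) = 1 := lam_unit isUnit_one

theorem lam_pow (a : R K) (n : ℕ) : lam (a ^ n) = lam a ^ n := by
  induction n with
  | zero => simp
  | succ n ih => rw [pow_succ, lam_mul, ih, pow_succ]

theorem lam_prime {π : R K} (hπ : Prime π) : lam π = lamP π := by
  obtain ⟨b, h1, h2⟩ := factors_eq_singleton_of_irreducible hπ.irreducible
  rw [lam_of_ne hπ.ne_zero, h2, lamP_congr h1]; simp

theorem lam_congr {a b : R K} (h : Associated a b) : lam a = lam b := by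
  obtain ⟨u, rfl⟩ := h
  rw [lam_mul, lam_unit u.isUnit, mul_one]

theorem mb_mul {a b : R K} (ha : a ≠ 0) (hb : b ≠ 0) : mb (a * b) = mb a * mb b := by
  rw [mb, mb, mb, Multiset.card_eq_card_of_rel (factors_mul ha hb), Multiset.card_add, pow_add]

theorem mb_unit {u : R K} (hu : IsUnit u) : mb u = 1 := by
  rw [mb, factors_of_isUnit hu]; simp

theorem mb_prime {π : R K} (hπ : Prime π) : mb π = -1 := by
  obtain ⟨b, -, h2⟩ := factors_eq_singleton_of_irreducible hπ.irreducible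
  rw [mb, h2]; simp

theorem mb_mul_self (n : R K) : mb n * mb n = 1 := by
  rw [mb, ← pow_add, ← two_mul, pow_mul]; simp

theorem conj_mb (n : R K) : conj (mb n) = mb n := by
  rw [mb, map_pow, map_neg, map_one]

theorem mob_mkM_eq (n : R K) : Ab.mob (mkM n) = mb n := mob_mkM n

theorem norm_jac {π : R K} (hπ : Prime π) : ‖jac π‖ = √(Nr π : ℝ) := by
  have : Fact (Prime π) := ⟨hπ⟩
  have h1 := congrArg norm (gs_four_mul_jac π)
  rw [norm_mul, norm_pow, norm_gs hπ.squarefree (by norm_num) (by norm_num),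
    norm_gs hπ.squarefree (by norm_num) (by norm_num), sq] at h1
  exact mul_left_cancel₀ (sqrt_Nr_pos hπ.ne_zero).ne' h1

theorem norm_jac_sq {π : R K} (hπ : Prime π) : ‖jac π‖ ^ 2 = Nr π := by
  rw [norm_jac hπ, Real.sq_sqrt (Nat.cast_nonneg _)]

theorem norm_lamP {π : R K} (hπ : Prime π) : ‖lamP π‖ = 1 := by
  rw [lamP, norm_div, norm_neg, norm_jac hπ, Complex.norm_real,
    Real.norm_of_nonneg (Real.sqrt_nonneg _), div_self (sqrt_Nr_pos hπ.ne_zero).ne']

theorem norm_lam {n : R K} (hn : n ≠ 0) : ‖lam n‖ = 1 := by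
  induction n using induction_on_prime with
  | h₁ => exact absurd rfl hn
  | h₂ u hu => rw [lam_unit hu, norm_one]
  | h₃ c π h0 hπ ih => rw [lam_mul, norm_mul, ih h0, lam_prime hπ, norm_lamP hπ, mul_one]

theorem conj_lam_mul {n : R K} (hn : n ≠ 0) : conj (lam n) * lam n = 1 := by
  rw [Complex.conj_mul', norm_lam hn]; simp

theorem gs_two_sq {π : R K} (hπ : Prime π) :
    gs 2 1 π ^ 2 = -lam π * (√(Nr π : ℝ) : ℝ) * conj (gs 2 1 π) := by
  have : Fact (Prime π) := ⟨hπ⟩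
  rw [← gs_four_mul_jac, conj_gs_eq hπ.ne_zero (i := 2) (j := 4) (by norm_num) (by norm_num) rfl,
    lam_prime hπ, lamP, neg_div, neg_neg, div_mul_cancel₀ _ (sqrtC_ne hπ.ne_zero), mul_comm]

/-- the cube of the cubic Gauss sum of a prime -/
theorem gs_two_cube {π : R K} (hπ : Prime π) :
    gs 2 1 π ^ 3 = -lam π * ((√(Nr π : ℝ) : ℝ) : ℂ) ^ 3 := by
  have h1 := gs_mul_conj hπ.squarefree (j := 2) (by norm_num) (by norm_num)
  rw [← sqrtC_sq] at h1
  rw [pow_succ, gs_two_sq hπ]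
  linear_combination (-lam π * (√(Nr π : ℝ) : ℝ)) * h1

theorem norm_gg {n : R K} (hn : Squarefree n) : ‖gg n‖ = 1 := by
  rw [gg, norm_div, norm_mul, Complex.norm_conj, norm_lam hn.ne_zero,
    norm_gs hn (by norm_num) (by norm_num), Complex.norm_real,
    Real.norm_of_nonneg (Real.sqrt_nonneg _), one_mul, div_self (sqrt_Nr_pos hn.ne_zero).ne']

theorem gg_unit {u : R K} (hu : IsUnit u) : gg u = 1 := by
  rw [gg, lam_unit hu, gs_unit hu, Nr_unit hu]; simp

@[simp] theorem gg_one : gg (1 : R K) = 1 := gg_unit isUnit_one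

@[simp] theorem gg_zero : gg (0 : R K) = 0 := by rw [gg]; simp

theorem gs_two_eq {n : R K} (hn : n ≠ 0) : gs 2 1 n = (√(Nr n : ℝ) : ℝ) * lam n * gg n := by
  rw [gg, mul_div_assoc', eq_div_iff (sqrtC_ne hn)]
  linear_combination (-(gs 2 1 n * (√(Nr n : ℝ) : ℝ))) * conj_lam_mul hn

theorem gg_mul' {a b : R K} (ha : a ≠ 0) (hb : b ≠ 0) (hab : IsCoprime a b) :
    gg (a * b) = (x6 a b * x6 b a) ^ 2 * (gg a * gg b) := by
  rw [gg, gg, gg, gs_mul ha hb hab, lam_mul, map_mul, sqrt_Nr_mul]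
  ring

theorem mob_prime_one {π : R K} (hπ : Prime π) :
    -gs 1 1 π = (√(Nr π : ℝ) : ℝ) * gam2 π * conj (x6 π 4) * conj (gg π) := by
  have : Fact (Prime π) := ⟨hπ⟩
  have h1 := hd_prime π
  rw [← conj_gs_eq hπ.ne_zero (i := 2) (j := 4) (by norm_num) (by norm_num) rfl,
    gs_three hπ.squarefree, G2_eq hπ.ne_zero] at h1
  have h2 := gs_two_sq hπ
  have h3 := gs_mul_conj hπ.squarefree (j := 2) (by norm_num) (by norm_num)
  rw [← sqrtC_sq] at h3
  have h4 : conj (x6 π 4) * x6 π 4 = 1 := by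
    rw [conj_x6_mul hπ.ne_zero, cop_of_coprime]
    exact coprime_of_isUnit (by simpa [← two_mul, show (2 : R K) * 2 = 4 by norm_num]
      using (isUnit_two (K := K)).mul isUnit_two) π
  have h5 := sqrtC_ne hπ.ne_zero
  rw [gg, map_div₀, map_mul, Complex.conj_conj, Complex.conj_ofReal]
  generalize ((√(Nr π : ℝ) : ℝ) : ℂ) = s at *
  generalize conj (gs 2 1 π) = g' at *
  generalize conj (x6 π 4) = t' at *
  field_simp
  apply mul_left_cancel₀ (pow_ne_zero 2 h5)
  linear_combination (-(t' * gs 2 1 π)) * h1 + (gs 1 1 π * g' * gs 2 1 π) * h4 +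
    gs 1 1 π * h3 - (t' * s * gam2 π) * h2

theorem mob_one {b : R K} (hb : Squarefree b) :
    mb b * gs 1 1 b = (√(Nr b : ℝ) : ℝ) * gam2 b * conj (x6 b 4) * conj (gg b) := by
  refine sqf_induction (p := fun b => mb b * gs 1 1 b =
    (√(Nr b : ℝ) : ℝ) * gam2 b * conj (x6 b 4) * conj (gg b)) (fun u hu => ?_)
    (fun π b hπ hb h ih => ?_) hb
  · rw [mb_unit hu, gs_unit hu, gam2_unit hu, gg_unit hu, x6_unit hu, Nr_unit hu]; simp
  · have h1 := mob_prime_one hπ
    have h2 : conj (x6 π b * x6 b π) * (x6 π b * x6 b π) = 1 := by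
      rw [map_mul, mul_mul_mul_comm, conj_x6_mul hπ.ne_zero, conj_x6_mul hb.ne_zero,
        cop_of_coprime h, cop_of_coprime h.symm, one_mul]
    rw [mb_mul hπ.ne_zero hb.ne_zero, mb_prime hπ, gs_mul hπ.ne_zero hb.ne_zero h, sqrt_Nr_mul,
      gam2_mul hπ.squarefree hb h, gg_mul' hπ.ne_zero hb.ne_zero h, x6_mul_left π b 4]
    generalize x6 π b * x6 b π = t at h2
    simp only [map_mul, map_pow]
    have h3 : -1 * mb b * (t ^ 1 * (gs 1 1 π * gs 1 1 b)) =
        t * ((-gs 1 1 π) * (mb b * gs 1 1 b)) := by ring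
    have h4 : t = t ^ 3 * conj t ^ 2 := by
      linear_combination (-t * (conj t * t + 1)) * h2
    rw [h3, h1, ih]
    conv_lhs => rw [h4]
    ring

/-- **Moebius times the sextic Gauss sum is a cubic Gauss sum.** -/
theorem mobG : MOBG K := fun b h hb => by
  rw [gs_eq hb (by norm_num) (by norm_num), ← mob_one hb, pow_one]
  ring

theorem gs_one_eq {b : R K} (hb : Squarefree b) (h : R K) : gs 1 h b =
    mb b * ((√(Nr b : ℝ) : ℝ) * gam2 b * conj (x6 b 4) * conj (gg b) * conj (x6 b h)) := by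
  rw [← mobG b h hb, ← mul_assoc, mb_mul_self, one_mul]

theorem isUnit_four : IsUnit (4 : R K) := by
  simpa [show (2 : R K) * 2 = 4 by norm_num] using (isUnit_two (K := K)).mul isUnit_two

namespace IsRec

variable {r : J K → J K → ℂ} (hr : IsRec r)

include hr

theorem gg_mul {d n : R K} (hd : d ≠ 0) (hn : n ≠ 0) (h : IsCoprime d n) :
    gg (d * n) = gg d * gg n * x6 n (d ^ 4) * r (cl (n : K)) (cl (d : K)) ^ 2 := by
  rw [gg_mul' hd hn h, hr.recip' hn hd, x6_pow hn]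
  ring

theorem gg_unit_mul {u : R K} (hu : IsUnit u) (h1 : cl (u : K) = 1) (n : R K) :
    gg (u * n) = gg n := by
  by_cases hn : n = 0
  · simp [hn]
  rw [hr.gg_mul hu.ne_zero hn (coprime_of_isUnit hu n), gg_unit hu, x6_pow hn,
    hr.unit_one hu h1 hn, h1, hr.one_right]
  simp

omit hr in
theorem exists_unit {η : Kˣ} (hη : η ∈ U K) :
    ∃ u : R K, IsUnit u ∧ cl (u : K) = 1 ∧ (u : K) = η :=
  ⟨⟨η, hη.1.1⟩, IsUnit.of_mul_eq_one ⟨(η : K)⁻¹, hη.1.2⟩
    (Subtype.ext (mul_inv_cancel₀ η.ne_zero)), cl_eq_one.2 hη.2, rfl⟩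

theorem invU_gg : InvU (gg : R K → ℂ) := by
  intro η hη x y h
  obtain ⟨u, h1, h2, h3⟩ := exists_unit hη
  rw [show y = u * x from Subtype.ext (by rw [h, ← h3]; rfl), hr.gg_unit_mul h1 h2]

theorem invU_x6_right (n : R K) : InvU (x6 n) := by
  intro η hη x y h
  obtain ⟨u, h1, h2, h3⟩ := exists_unit hη
  by_cases hn : n = 0
  · simp [hn]
  rw [show y = u * x from Subtype.ext (by rw [h, ← h3]; rfl), x6_mul, hr.unit_one h1 h2 hn, one_mul]

omit hr in
theorem invU_x6_left (x : R K) : InvU fun n : R K => x6 n x :=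
  invU_of_associated fun _ _ h => x6_of_associated h x

theorem x6_four {n : R K} (hn : n ≠ 0) : x6 n 4 = r (cl (4 : K)) (cl (n : K)) :=
  hr.unit isUnit_four hn

/-- **The pair identity.** -/
theorem pairG : PAIRG r := by
  intro a b h sa sb hab
  have h1 := rsum_mul_E sa.ne_zero sb.ne_zero hab (x6_per a).conj (x6_per b) h
  simp only [x6_mul, map_mul, mul_assoc, rsum_const_mul] at h1
  simp only [mul_assoc (conj (x6 a _))]
  have h2 := conj_gs sa.ne_zero 1 h
  have h3 := gs_one_eq sb h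
  rw [gs_one_eq sa] at h2
  rw [gs] at h3
  simp only [pow_one] at h2 h3
  rw [h1, ← h2, h3, Esg, gamJ_cl sa.ne_zero, gamJ_cl sb.ne_zero, ← hr.x6_four sa.ne_zero,
    ← hr.x6_four sb.ne_zero]
  have h4 : conj (x6 a b) * x6 b a = r (cl (a : K)) (cl (b : K)) := by
    rw [hr.recip a b sa.ne_zero sb.ne_zero hab, mul_left_comm, conj_x6_mul sa.ne_zero,
      cop_of_coprime hab.symm, mul_one]
  simp only [map_mul, Complex.conj_conj, Complex.conj_ofReal, conj_mb, conj_gam2 sa.ne_zero]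
  rw [← h4]
  push_cast
  ring

end IsRec

theorem pairG {r : J K → J K → ℂ} (hr : IsRec r) : PAIRG r := hr.pairG

end Vale.Agent.P016Z.Sym
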