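import Vale.Agent.P016Z.Sym.Symb
import Vale.Agent.P006.CR.Bridge
import Mathlib.Data.Nat.Choose.Lucas
import Mathlib.Data.Nat.Prime.Factorial

/-!
P016, block SYM: the cubic Jacobi sum of a finite field as an Eisenstein integer.
-/

namespace Vale.Agent.P016Z.Sym.LamAux

open Finset
open Vale.Agent.P006 (O om toC omC Primary)
open scoped ComplexConjugate

theorem exp_eq_omC : Complex.exp (2 * Real.pi * Complex.I / 3) = omC := by
  rw [show (2 * Real.pi * Complex.I / 3 : ℂ) = ((Real.pi - Real.pi / 3 : ℝ) : ℂ) * Complex.I by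
    push_cast; ring]
  apply Complex.ext
  · rw [Complex.exp_ofReal_mul_I_re, Real.cos_pi_sub, Real.cos_pi_div_three]
    simp only [omC]; ring
  · rw [Complex.exp_ofReal_mul_I_im, Real.sin_pi_sub, Real.sin_pi_div_three]
    simp only [omC]

theorem zC_sq : zC ^ 2 = omC := by
  rw [← exp_eq_omC, zC, ← Complex.exp_nat_mul]
  congr 1
  push_cast; ring

theorem not_dvd_choose {p t : ℕ} (hp : p.Prime) (ht : p = 3 * t + 1) (f : ℕ) :
    ∀ m : ℕ, p ^ f = 3 * m + 1 → ¬ p ∣ (2 * m).choose m := by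
  have : Fact p.Prime := ⟨hp⟩
  induction f with
  | zero =>
    intro m hm
    have : m = 0 := by rw [pow_zero] at hm; omega
    subst this
    simpa using hp.one_lt.ne'
  | succ f ih =>
    intro m hm h
    have h1 : p ^ f % 3 = 1 := by rw [Nat.pow_mod, show p % 3 = 1 by omega]; simp
    obtain ⟨n, hn⟩ : ∃ n, p ^ f = 3 * n + 1 := ⟨p ^ f / 3, by omega⟩
    have h2 : m = t + p * n := by
      rw [pow_succ, hn] at hm
      have : (3 * n + 1) * p = 3 * (t + p * n) + 1 := by rw [add_mul, one_mul]; nlinarith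
      omega
    have h3 : 2 * m = 2 * t + p * (2 * n) := by rw [h2]; ring
    have h4 := Choose.choose_modEq_choose_mod_mul_choose_div_nat (n := 2 * m) (k := m) (p := p)
    have h5 : (2 * m) % p = 2 * t := by
      rw [h3, Nat.add_mul_mod_self_left, Nat.mod_eq_of_lt (by omega)]
    have h6 : (2 * m) / p = 2 * n := by
      rw [h3, Nat.add_mul_div_left _ _ hp.pos, Nat.div_eq_of_lt (by omega), zero_add]
    have h7 : m % p = t := by
      rw [h2, Nat.add_mul_mod_self_left, Nat.mod_eq_of_lt (by omega)]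
    have h8 : m / p = n := by
      rw [h2, Nat.add_mul_div_left _ _ hp.pos, Nat.div_eq_of_lt (by omega), zero_add]
    rw [h5, h6, h7, h8] at h4
    rcases (Nat.Prime.dvd_mul hp).1 ((h4.dvd_iff dvd_rfl).1 h) with h9 | h9
    · have h10 := (Nat.Prime.dvd_factorial hp).1 (h9.trans ⟨_, by
        rw [← Nat.choose_mul_factorial_mul_factorial (show t ≤ 2 * t by omega), mul_assoc]⟩)
      omega
    · exact ih n hn h9

variable {F : Type} [Field F] [Fintype F]

theorem sum_pow_eq {m : ℕ} (hm0 : 0 < m) (hm : Fintype.card F - 1 = 3 * m) :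
    ∑ x : F, x ^ (2 * m) * (1 - x) ^ (2 * m) = -((-1) ^ m * ((2 * m).choose m : F)) := by
  classical
  have h1 : ∀ x : F, x ^ (2 * m) * (1 - x) ^ (2 * m) =
      ∑ k ∈ range (2 * m + 1), ((-1) ^ k * ((2 * m).choose k : F)) * x ^ (2 * m + k) := by
    intro x
    rw [show (1 : F) - x = -x + 1 by ring, add_pow, mul_sum]
    refine sum_congr rfl fun k _ => ?_
    rw [neg_pow, one_pow, pow_add]; ring
  have h2 : ∀ i : ℕ, 0 < i → ∑ x : F, x ^ i = if Fintype.card F - 1 ∣ i then -1 else 0 := by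
    intro i hi
    let e : Fˣ ↪ F := ⟨fun x => x, Units.val_injective⟩
    have h3 : univ.map e = univ \ {0} := by
      ext x
      simp only [mem_map, mem_univ, true_and, mem_sdiff, mem_singleton]
      exact isUnit_iff_ne_zero
    rw [← FiniteField.sum_pow_units F i, ← sum_sdiff ({0} : Finset F).subset_univ, sum_singleton,
      zero_pow hi.ne', add_zero, ← h3, sum_map]
    rfl
  simp only [h1]
  rw [sum_comm, sum_eq_single m]
  · rw [← mul_sum, h2 _ (by omega), if_pos ⟨1, by omega⟩]; ring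
  · intro k hk hne
    rw [← mul_sum, h2 _ (by omega), if_neg, mul_zero]
    rintro ⟨c, hc⟩
    have := mem_range.1 hk
    rw [hm] at hc
    rcases c with _ | _ | c
    · omega
    · omega
    · nlinarith
  · intro h; exact absurd (mem_range.2 (by omega)) h

variable {ζ : F} (hζ : IsPrimitiveRoot ζ 6) {φ : O →+* F} (hφ : φ om = ζ ^ 2)

include hφ

theorem exists_chi : ∃ χ : MulChar F O, χ.ringHomComp toC = pch hζ ^ 2 ∧
    ∀ x, φ (star (χ x)) = x ^ ((Nat.card F - 1) / 6 * 4) := by
  have h : ∀ x : F, ∃ c : O, toC c = pf ζ x ^ 2 ∧ φ (star c) = x ^ ((Nat.card F - 1) / 6 * 4) := by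
    intro x
    by_cases hx : x = 0
    · refine ⟨0, by rw [hx, pf_zero hζ]; simp, ?_⟩
      rw [hx, zero_pow (Nat.mul_pos (expo_pos hζ) (by norm_num)).ne', star_zero, map_zero]
    · obtain ⟨i, -, hi⟩ := exists_expo hζ hx
      refine ⟨om ^ i, ?_, ?_⟩
      · rw [pf_of_eq hζ hi, map_pow, P006.toC_om, ← zC_sq, ← pow_mul, ← pow_mul, mul_comm]
      · rw [star_pow, show star om = om ^ 2 by decide, map_pow, map_pow, hφ, pow_mul x, hi]
        ring
  choose c h1 h2 using h
  refine ⟨⟨⟨⟨c, P006.toC_injective ?_⟩, fun x y => P006.toC_injective ?_⟩,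
    fun x hx => P006.toC_injective ?_⟩, ?_, h2⟩
  · rw [h1, pf_one hζ, one_pow, map_one]
  · rw [map_mul, h1, h1, h1, pf_mul hζ, mul_pow]
  · have : x = 0 := by simpa using hx
    change toC (c x) = _
    rw [h1, this, pf_zero hζ]; simp
  · ext x
    rw [MulChar.pow_apply_coe]
    exact h1 x

theorem exists_jac {w : O} (hw : Prime w) (hker : ∀ a, φ a = 0 ↔ w ∣ a) :
    ∃ (J : O) (b : ℕ), jacobiSum (pch hζ ^ 2) (pch hζ ^ 2) = toC J ∧ Primary (-J) ∧
      P006.N J = Nat.card F ∧ Associated J (w ^ b) := by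
  classical
  obtain ⟨χ, h1, h2⟩ := exists_chi hζ hφ
  have h6 := six_mul hζ
  have he := expo_pos hζ
  set e := (Nat.card F - 1) / 6 with hedef
  rw [Nat.card_eq_fintype_card] at h6 ⊢
  have hJ : jacobiSum (pch hζ ^ 2) (pch hζ ^ 2) = toC (jacobiSum χ χ) := by
    rw [← h1, jacobiSum_ringHomComp]
  have h3 : χ ^ 3 = 1 := by
    refine MulChar.ext fun x => P006.toC_injective ?_
    have h := congrArg (fun ψ : MulChar F ℂ => ψ x) h1
    simp only [MulChar.ringHomComp_apply, MulChar.pow_apply_coe] at h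
    rw [MulChar.pow_apply_coe, map_pow, h, ← pow_mul, MulChar.one_apply_coe, map_one]
    exact pf_pow_six hζ x.ne_zero
  have hb : Primary (-jacobiSum χ χ) := by
    obtain ⟨z, -, hz⟩ := exists_jacobiSum_eq_neg_one_add (F := F) (R := O) (n := 3)
      (by norm_num) h3 h3 ⟨2 * e, by omega⟩ P006.isPrimitiveRoot_om
    rw [show (om - 1) ^ 2 = 3 * (-om) by decide] at hz
    exact ⟨z * om, by rw [hz]; ring⟩
  have hc : P006.N (jacobiSum χ χ) = Fintype.card F := by
    have hch : ringChar ℂ ≠ ringChar F := by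
      rw [ringChar.eq_zero]
      exact (CharP.ringChar_ne_zero_of_finite F).symm
    have h4 := jacobiSum_mul_jacobiSum_inv hch (pch_pow_ne_one hζ (j := 2) (by norm_num)
      (by norm_num)) (pch_pow_ne_one hζ (j := 2) (by norm_num) (by norm_num))
      (by rw [← pow_add]; exact pch_pow_ne_one hζ (by norm_num) (by norm_num))
    have h5 : jacobiSum (pch hζ ^ 2)⁻¹ (pch hζ ^ 2)⁻¹ =
        conj (jacobiSum (pch hζ ^ 2) (pch hζ ^ 2)) := by
      rw [← MulChar.star_eq_inv]
      exact jacobiSum_ringHomComp _ _ (starRingEnd ℂ)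
    rw [h5, hJ, Complex.mul_conj, ← P006.N_cast_real] at h4
    exact_mod_cast h4
  have hd : jacobiSum χ χ * star (jacobiSum χ χ) = (Fintype.card F : O) := by
    rw [← P006.N_mul_star, hc]
  have hl : ¬ P006.lam ∣ w := by
    intro h
    have h4 := (hker _).2 (P006.prime_lam.associated_of_dvd hw h).symm.dvd
    rw [show P006.lam = 1 - om by decide, map_sub, map_one, hφ] at h4
    exact hζ.pow_ne_one_of_pos_of_lt (l := 2) (by norm_num) (by norm_num) (sub_eq_zero.1 h4).symm
  obtain ⟨u, hu, hv⟩ := P006.exists_unit_mul_primary hl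
  have ha : Associated w (u * w) := associated_unit_mul_right w u hu
  set v := u * w
  have hvp : Prime v := ha.prime hw
  have hv0 : φ v = 0 := (hker v).2 ha.dvd
  have hcard : ∀ l : ℕ, l.Prime → φ l = 0 → ringChar F = l ∧ ∃ f : ℕ, Fintype.card F = l ^ f := by
    intro l hl h
    rw [map_natCast] at h
    have h4 := CharP.ringChar_of_prime_eq_zero hl h
    have := ringChar.of_eq h4
    obtain ⟨n, -, hn⟩ := FiniteField.card F l
    exact ⟨h4, n, hn⟩
  have key : ∃ f : ℕ, jacobiSum χ χ ∣ v ^ f := by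
    rcases P006.primary_prime_cases hvp hv with ⟨hp, hp3⟩ | ⟨l, hl, -, hvl, -⟩
    · obtain ⟨h4, f, hf⟩ := hcard _ hp (by rw [P006.N_mul_star, map_mul, hv0, zero_mul])
      refine ⟨f, ?_⟩
      have h5 : jacobiSum χ χ ∣ v ^ f * star v ^ f :=
        ⟨_, by rw [hd, hf, ← mul_pow, ← P006.N_mul_star]; push_cast; rfl⟩
      refine IsCoprime.dvd_of_dvd_mul_right (IsCoprime.pow_right ?_) h5
      refine ((P006.prime_star hvp).coprime_iff_not_dvd.2 ?_).symm
      rintro ⟨c, hc⟩
      have h7 : φ (star (jacobiSum χ χ)) = 0 := by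
        rw [hc, star_mul, star_star, map_mul, hv0, mul_zero]
      have h8 : φ (star (jacobiSum χ χ)) =
          ∑ x : F, x ^ (2 * (2 * e)) * (1 - x) ^ (2 * (2 * e)) := by
        rw [jacobiSum, star_sum, map_sum]
        refine sum_congr rfl fun x _ => ?_
        rw [star_mul, map_mul, h2, h2, mul_comm, show e * 4 = 2 * (2 * e) by ring]
      rw [h8, sum_pow_eq (by omega) (by omega), neg_eq_zero, mul_eq_zero] at h7
      rcases h7 with h7 | h7
      · exact pow_ne_zero _ (neg_ne_zero.2 one_ne_zero) h7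
      · rw [ringChar.spec, h4] at h7
        have h9 : 1 < Fintype.card F := Fintype.one_lt_card
        exact not_dvd_choose hp (t := P006.N v / 3) (by omega) f (2 * e) (by omega) h7
    · obtain ⟨-, f, hf⟩ := hcard l hl (by rw [← neg_eq_zero, ← map_neg, ← hvl, hv0])
      refine ⟨f, Dvd.dvd.trans ⟨_, hd.symm⟩ ?_⟩
      rw [hf, hvl]
      push_cast
      exact pow_dvd_pow_of_dvd (dvd_neg.2 dvd_rfl) f
  obtain ⟨f, hf⟩ := key
  obtain ⟨b, -, h⟩ := (dvd_prime_pow hvp f).1 hf
  exact ⟨_, b, hJ, hb, hc, h.trans (ha.pow_pow).symm⟩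

end Vale.Agent.P016Z.Sym.LamAux
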