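import Vale.Agent.P016Z.Sym.Defs
import Vale.Agent.P016Z.Sym.LamA
import Vale.Agent.P016Z.Fin.MuK
import Mathlib.RingTheory.Ideal.Norm.RelNorm
import Mathlib.LinearAlgebra.Matrix.Charpoly.Coeff

/-!
P016, block SYM: the Jacobi sums form the Hecke character given by the argument of the relative
norm to the Eisenstein field.
-/

namespace Vale.Agent.P016Z.Sym

open NumberField Finset UniqueFactorizationMonoid
open Vale.Agent.P006 (O om toC omC Primary)

variable {K : Type} [Field K] [NumberField K] [Dat K]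

namespace LamAux

variable (K) in
/-- the cube root of unity in the ring of integers -/
noncomputable def om4 : 𝓞 K := ⟨z12 K ^ 4, (Dat.hz.isIntegral (by norm_num)).pow 4⟩

theorem om4_sq : om4 K * om4 K = -1 - om4 K := by
  have h : IsPrimitiveRoot (z12 K ^ 4) 3 := Dat.hz.pow (by norm_num) (by norm_num)
  have h1 := h.geom_sum_eq_zero (by norm_num)
  simp only [sum_range_succ, sum_range_zero] at h1
  refine RingOfIntegers.ext ?_
  change z12 K ^ 4 * z12 K ^ 4 = -1 - z12 K ^ 4
  linear_combination h1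

variable (K) in
/-- the Eisenstein integers inside the ring of integers -/
noncomputable def iota : O →+* 𝓞 K where
  toFun z := (z.re : 𝓞 K) + (z.im : 𝓞 K) * om4 K
  map_one' := by simp [QuadraticAlgebra.re_one, QuadraticAlgebra.im_one]
  map_zero' := by simp
  map_add' x y := by simp; ring
  map_mul' x y := by
    simp only [QuadraticAlgebra.re_mul, QuadraticAlgebra.im_mul]
    push_cast
    linear_combination (-(x.im : 𝓞 K) * y.im) * om4_sq (K := K)

theorem iota_om : iota K om = om4 K := by simp [iota, om]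

theorem sig_iota (j : io K) (a : O) : (cmK K).sig j ((iota K a : 𝓞 K) : K) = toC a := by
  have h : (cmK K).sig j (z12 K ^ 4) = omC := (Dat.sig_z j).trans exp_eq_omC
  change (cmK K).sig j (algebraMap (𝓞 K) K ((a.re : 𝓞 K) + (a.im : 𝓞 K) * om4 K)) = _
  rw [map_add, map_mul, map_intCast, map_intCast, map_add, map_mul, map_intCast, map_intCast,
    P006.toC_apply, ← h]
  rfl

theorem iota_inj : Function.Injective (iota K) := by
  intro a b h
  obtain ⟨j⟩ : Nonempty (io K) := inferInstance
  exact P006.toC_injective (by rw [← sig_iota j, ← sig_iota j, h])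

variable (K) in
/-- the relative norm to the Eisenstein integers -/
theorem exists_RN : ∃ RN : Ideal (𝓞 K) →*₀ Ideal O,
    (∀ I, Ideal.absNorm (RN I) = Ideal.absNorm I) ∧
    (∀ P : Ideal (𝓞 K), P.IsPrime → ∃ s, RN P = P.comap (iota K) ^ s) ∧
    ∀ t : 𝓞 K, ∃ ν : O, Primary ν ∧ RN (Ideal.span {1 + 3 * t}) = Ideal.span {ν} ∧
      toC ν = ∏ j, (cmK K).sig j ((1 + 3 * t : 𝓞 K) : K) := by
  classical
  let : Algebra O (𝓞 K) := (iota K).toAlgebra
  have : Module.Finite O (𝓞 K) := Module.Finite.of_restrictScalars_finite ℤ O (𝓞 K)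
  have : FaithfulSMul O (𝓞 K) := (faithfulSMul_iff_algebraMap_injective _ _).2 iota_inj
  refine ⟨Ideal.relNorm O, fun I => Ideal.absNorm_relNorm O _ I, fun P hP => ?_, fun t => ?_⟩
  · exact Ideal.exists_relNorm_eq_pow_of_isPrime P (P.under O)
  refine ⟨_, ?_, Ideal.relNorm_singleton O _, ?_⟩
  · let b := Module.Free.chooseBasis O (𝓞 K)
    have e : (1 + 3 * t : 𝓞 K) = 1 + (3 : O) • t := by rw [Algebra.smul_def, map_ofNat]
    rw [Algebra.intNorm_eq_norm, Algebra.norm_eq_matrix_det b, e, map_add, map_one, map_smul,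
      Matrix.det_one_add_smul, Primary, add_assoc, add_sub_cancel_left]
    exact dvd_add (dvd_mul_left _ _) (Dvd.dvd.mul_left (dvd_pow_self _ (by norm_num)) _)
  let : Algebra O K := ((algebraMap (𝓞 K) K).comp (iota K)).toAlgebra
  have : IsScalarTower O (𝓞 K) K := IsScalarTower.of_algebraMap_eq fun _ => rfl
  have : FaithfulSMul O K := (faithfulSMul_iff_algebraMap_injective _ _).2
    (RingOfIntegers.coe_injective.comp iota_inj)
  let : Algebra O ℂ := toC.toAlgebra
  have : FaithfulSMul O ℂ := (faithfulSMul_iff_algebraMap_injective _ _).2 P006.toC_injective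
  let := FractionRing.liftAlgebra O K
  let := FractionRing.liftAlgebra O ℂ
  have : IsIntegralClosure (𝓞 K) O K := IsIntegralClosure.of_isIntegrallyClosed _ _ _
  have : FiniteDimensional (FractionRing O) K :=
    Module.Finite.of_restrictScalars_finite ℚ (FractionRing O) K
  generalize (1 + 3 * t : 𝓞 K) = y
  have h1 := Algebra.algebraMap_intNorm (A := O) (K := FractionRing O) (L := K) y
  have h2 := Algebra.norm_eq_prod_embeddings (FractionRing O) ℂ (y : K)
  rw [← h1, ← IsScalarTower.algebraMap_apply] at h2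
  refine h2.trans ?_
  have h3 : ∀ j, ((cmK K).sig j).comp (algebraMap (FractionRing O) K) =
      algebraMap (FractionRing O) ℂ := by
    intro j
    refine IsLocalization.ringHom_ext (nonZeroDivisors O) (RingHom.ext fun a => ?_)
    simp only [RingHom.comp_apply, ← IsScalarTower.algebraMap_apply]
    exact sig_iota j a
  let f : io K → (K →ₐ[FractionRing O] ℂ) := fun j =>
    { (cmK K).sig j with commutes' := fun r => RingHom.congr_fun (h3 j) r }
  refine (Fintype.prod_bijective f ⟨fun i j h => ?_, fun σ => ?_⟩ _ _ fun _ => rfl).symm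
  · have h4 : (cmK K).sig i = (cmK K).sig j := congrArg AlgHom.toRingHom h
    simpa using (cmK K).bij.1 (a₁ := Sum.inl i) (a₂ := Sum.inl j) h4
  · obtain ⟨j | j, h⟩ := (cmK K).bij.2 σ.toRingHom
    · exact ⟨j, AlgHom.ext fun x => RingHom.congr_fun h x⟩
    · exfalso
      have h4 := RingHom.congr_fun h ((iota K om : 𝓞 K) : K)
      have h5 : σ ((iota K om : 𝓞 K) : K) = toC om := by
        have := σ.commutes (algebraMap O (FractionRing O) om)
        rwa [← IsScalarTower.algebraMap_apply, ← IsScalarTower.algebraMap_apply] at this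
      rw [Sum.elim_inr, ComplexEmbedding.conjugate_coe_eq, sig_iota, ← P006.toC_star] at h4
      exact absurd (P006.toC_injective (h4.trans h5)) (by decide)

theorem absNorm_span (a : O) : Ideal.absNorm (Ideal.span {a}) = P006.N a := by
  rw [Ideal.absNorm_apply, Submodule.cardQuot_apply]
  exact P006.card_Rs a

theorem prime_step {RN : Ideal (𝓞 K) →*₀ Ideal O}
    (h1 : ∀ I, Ideal.absNorm (RN I) = Ideal.absNorm I)
    (h2 : ∀ P : Ideal (𝓞 K), P.IsPrime → ∃ s, RN P = P.comap (iota K) ^ s) {π : R K}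
    (hπ : Prime π) : ∃ A : O, Primary A ∧ RN (idl π) = Ideal.span {A} ∧ -jac π = toC A := by
  have : Fact (Prime π) := ⟨hπ⟩
  have := Fintype.ofFinite (Rs π)
  let φ : O →+* Rs π := ((rs π).comp toR).comp (iota K)
  have hφ : φ om = rs π (zR K ^ 2) ^ 2 := by
    rw [← map_pow, ← pow_mul]
    change rs π (toR (iota K om)) = _
    rw [iota_om]
    rfl
  obtain ⟨w, hw⟩ := (IsPrincipalIdealRing.principal ((idl π).comap (iota K))).principal
  rw [Ideal.submodule_span_eq] at hw
  have hker : ∀ a, φ a = 0 ↔ w ∣ a := fun a => by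
    rw [← Ideal.mem_span_singleton, ← hw, Ideal.mem_comap, mem_idl, ← rs_eq_zero]
    rfl
  have hp : (idl π).IsPrime := Ideal.isPrime_of_prime (prime_idl hπ)
  have hw0 : w ≠ 0 := by
    rintro rfl
    have h3 := (hker (Nr π)).1 (by
      rw [map_natCast, ← map_natCast (rs π), rs_eq_zero]; exact dvd_Nr hπ.ne_zero)
    exact Nr_ne_zero hπ.ne_zero (by exact_mod_cast zero_dvd_iff.1 h3)
  have hwp : Prime w := (Ideal.span_singleton_prime hw0).1 (hw ▸ Ideal.IsPrime.comap _)
  obtain ⟨J, b, hJ, hJp, hJN, hJa⟩ := exists_jac (prim_rs π) hφ hwp hker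
  obtain ⟨s, hs⟩ := h2 _ hp
  rw [hw, Ideal.span_singleton_pow] at hs
  have h3 := h1 (idl π)
  rw [hs, absNorm_span, ← Nr_eq_absNorm hπ.ne_zero, P006.N_pow] at h3
  have h4 : P006.N w ^ b = P006.N w ^ s := by
    rw [h3, ← P006.N_pow, ← P006.N_eq_of_associated hJa, hJN]; rfl
  have h5 : 2 ≤ P006.N w := by
    have := P006.N_pos hw0
    have := P006.N_ne_one hwp
    omega
  rw [Nat.pow_right_injective h5 h4] at hJa
  refine ⟨-J, hJp, ?_, ?_⟩
  · rw [hs, Ideal.span_singleton_eq_span_singleton]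
    exact hJa.symm.neg_right
  · rw [map_neg, ← hJ, jac, rsum_eq_sum, jacobiSum]
    congr 1
    refine sum_congr rfl fun x _ => ?_
    rw [MulChar.pow_apply' _ (by norm_num), MulChar.pow_apply' _ (by norm_num), ← X6_rs, ← X6_rs,
      map_sub, map_one, rs_out]
    rfl

end LamAux

open LamAux in
theorem lamStmt : LAM K := by
  intro z hz
  obtain ⟨RN, h1, h2, h3⟩ := exists_RN K
  have key : ∀ s : Multiset (R K), (∀ π ∈ s, Prime π) → s.prod ≠ 0 ∧ ∃ A : O, Primary A ∧
      RN (idl s.prod) = Ideal.span {A} ∧ (s.map lamP).prod = toC A / (√(Nr s.prod : ℝ) : ℝ) := by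
    intro s
    induction s using Multiset.induction_on with
    | empty =>
      refine fun _ => ⟨by simp, 1, P006.primary_one, ?_, by simp [Nr_one]⟩
      rw [Multiset.prod_zero, idl_one, Ideal.span_singleton_one, ← Ideal.one_eq_top, map_one,
        Ideal.one_eq_top]
    | cons π s ih =>
      intro h
      have hπ := h π (Multiset.mem_cons_self _ _)
      obtain ⟨h0, A, hA, e1, e2⟩ := ih fun x hx => h x (Multiset.mem_cons_of_mem hx)
      obtain ⟨B, hB, e3, e4⟩ := prime_step h1 h2 hπ
      rw [Multiset.prod_cons]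
      refine ⟨mul_ne_zero hπ.ne_zero h0, B * A, hB.mul hA, ?_, ?_⟩
      · rw [idl_mul hπ.ne_zero h0, map_mul, e1, e3, Ideal.span_singleton_mul_span_singleton]
      · rw [Multiset.map_cons, Multiset.prod_cons, e2, lamP, e4, Nr_mul, Nat.cast_mul,
          Real.sqrt_mul (Nat.cast_nonneg _), map_mul]
        push_cast
        ring
  obtain ⟨hinv, hz0⟩ := inv_mem_Si_of_sub_one hz
  have hz0' : z ≠ 0 := fun h => hz0 (congrArg Subtype.val h)
  have hzS : (z : K) ∈ Si K := mem_Si_of_sub_one (k := 1) (by rwa [pow_one])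
  obtain ⟨c, hc⟩ : 3 ∣ Q K := Dvd.dvd.trans (by norm_num) (Q_dvd36 K)
  have hzR : ((z : K) - 1) / (Q K : K) ∈ R K := by
    simpa using div_Q_pow_mem_R (sub_mem z.2 (one_mem _)) 1
  obtain ⟨t0, ht0⟩ : ∃ t0 : 𝓞 K, algebraMap (𝓞 K) K t0 = ((z : K) - 1) / (Q K : K) :=
    ⟨⟨_, isIntegral_of_mem hzR hz⟩, rfl⟩
  set t : 𝓞 K := (c : 𝓞 K) * t0 with ht
  have e : ((1 + 3 * t : 𝓞 K) : K) = z := by
    have hQ := QK_ne K
    have hQc : (Q K : K) = 3 * c := by exact_mod_cast hc
    change algebraMap (𝓞 K) K _ = _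
    rw [ht, map_add, map_mul, map_mul, map_one, map_ofNat, map_natCast, ← mul_assoc, ← hQc, ht0]
    field_simp
    ring
  obtain ⟨ν, hν, e1, e2⟩ := h3 t
  obtain ⟨-, A, hA, e3, e4⟩ := key (factors z) prime_of_factor
  have ha := factors_prod hz0'
  have e5 : idl (factors z).prod = Ideal.span {1 + 3 * t} := by
    ext x
    rw [mem_idl, ha.dvd_iff_dvd_left, dvd_iff_div_mem hz0', Ideal.mem_span_singleton, coe_toR]
    constructor
    · intro h
      refine ⟨⟨_, isIntegral_of_mem h (by
        rw [div_eq_mul_inv]; exact mul_mem (coe_mem_Loc x) hinv)⟩, RingOfIntegers.ext ?_⟩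
      change (x : K) = ((1 + 3 * t : 𝓞 K) : K) * ((x : K) / z)
      rw [e]
      field_simp
    · rintro ⟨y, rfl⟩
      change ((1 + 3 * t : 𝓞 K) : K) * (y : K) / z ∈ _
      rw [e, mul_div_cancel_left₀ _ hz0]
      exact coe_mem_Loc y
  rw [e5, e1, Ideal.span_singleton_eq_span_singleton] at e3
  rw [lam, if_neg hz0', e4, ← hν.eq_of_associated hA e3, e2, e, alp, prod_div_distrib,
    show Nr (factors z).prod = Nr z from Nq_congr ha, ← nm_eq_Nr hz0' hzS hinv, TH.CM.nm]
  congr 1
  simp only [Complex.normSq_eq_norm_sq, prod_pow]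
  rw [Real.sqrt_sq (prod_nonneg fun _ _ => norm_nonneg _)]
  push_cast
  rfl

end Vale.Agent.P016Z.Sym
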