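import Vale.Agent.P016Z.Sym.Defs

/-!
P016, block SYM: the reciprocity factor from the ray class property.
-/

namespace Vale.Agent.P016Z.Sym

open NumberField
open scoped ComplexConjugate

set_option linter.unusedSectionVars false

variable {K : Type} [Field K] [NumberField K] [Dat K]

/-- congruent to `1` modulo `Q²` at the primes dividing `Q` -/
def In1 (u : K) : Prop := (u - 1) / (Q K : K) ^ 2 ∈ Si K

namespace In1

theorem ne_zero {u : K} (h : In1 u) : u ≠ 0 := by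
  have h1 : (u - 1) / (Q K : K) ∈ Si K := by
    simpa using div_pow_mem_Si_mono (k := 1) h (by omega)
  exact (inv_mem_Si_of_sub_one h1).2

theorem mem {u : K} (h : In1 u) : Units.mk0 u h.ne_zero ∈ P K 1 := h

theorem mul {u v : K} (h : In1 u) (h' : In1 v) : In1 (u * v) := mul_mem h.mem h'.mem

theorem inv {u : K} (h : In1 u) : In1 u⁻¹ := by
  have := inv_mem h.mem
  rwa [mem_P, Units.val_inv_eq_inv_val] at this

theorem pow {u : K} (h : In1 u) (n : ℕ) : In1 (u ^ n) := by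
  have := pow_mem h.mem n
  rwa [mem_P, Units.val_pow_eq_pow_val] at this

theorem cl_eq {u : K} (h : In1 u) : cl u = 1 := cl_eq_one.2 (P_le_H le_rfl h.mem)

end In1

theorem exists_in1 {w : K} (hw : w ≠ 0) {m : R K} (hm : m ≠ 0) (a : R K) :
    ∃ t : R K, t ≠ 0 ∧ m ∣ t - a ∧ In1 (t * w) := by
  have hQ := QK_ne K
  obtain ⟨t, h1, h2⟩ := exists_R_near_mod a m hm w⁻¹ (c := (Q K : K) ^ 2 / w) (by positivity)
  have h3 : In1 (t * w) := by
    have e : ((t : K) * w - 1) / (Q K : K) ^ 2 = (t - w⁻¹) / ((Q K : K) ^ 2 / w) := by field_simp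
    rwa [In1, e]
  exact ⟨t, fun h0 => h3.ne_zero (by rw [h0]; simp), h1, h3⟩

theorem cop_of_dvd_sub_one {m t : R K} (h : m ∣ t - 1) : IsCoprime t m := by
  obtain ⟨k, hk⟩ := h
  exact ⟨1, -k, by linear_combination hk⟩

theorem exists_cl_cop (j : J K) {m : R K} (hm : m ≠ 0) :
    ∃ y : R K, y ≠ 0 ∧ IsCoprime y m ∧ cl (y : K) = j := by
  obtain ⟨x, rfl⟩ := mkJ_surj j
  obtain ⟨t, h0, h1, h2⟩ := exists_in1 (inv_ne_zero x.ne_zero) hm 1
  refine ⟨t, h0, cop_of_dvd_sub_one h1, ?_⟩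
  have h3 := h2.cl_eq
  rw [cl_mul (coe_ne_zero h0) (inv_ne_zero x.ne_zero), cl_inv x.ne_zero, mul_inv_eq_one] at h3
  rw [h3, cl_unit]

theorem exists_sq_mul_sf (x : R K) (hx : x ≠ 0) : ∃ n u : R K, x = u ^ 2 * n ∧ Squarefree n := by
  induction x using (wellFounded_dvdNotUnit (α := R K)).induction with
  | _ x ih =>
    by_cases h : Squarefree x
    · exact ⟨x, 1, by simp, h⟩
    · simp only [Squarefree, not_forall] at h
      obtain ⟨p, ⟨c, rfl⟩, hp⟩ := h
      have h0 := right_ne_zero_of_mul hx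
      obtain ⟨n, u, rfl, hn⟩ := ih c ⟨h0, p * p, fun hu => hp (isUnit_of_mul_isUnit_left hu),
        mul_comm _ _⟩ h0
      exact ⟨n, p * u, by ring, hn⟩

theorem gs_three_mul {a b : R K} (ha : a ≠ 0) (hb : b ≠ 0) (h : IsCoprime a b) :
    gs 3 1 (a * b) = x6 a b ^ 3 * x6 b a ^ 3 * gs 3 1 a * gs 3 1 b := by
  have h1 := rsum_mul_E ha hb h ((x6_per a).pow 3) ((x6_per b).pow 3) 1
  simp only [x6_mul, mul_pow, mul_assoc, rsum_const_mul] at h1
  simp only [gs, x6_mul_left, mul_pow, mul_assoc]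
  rw [h1]
  ring

section

variable (h3 : ∀ n : R K, Squarefree n → gs 3 1 n = G2 n)

include h3

theorem quad_sf {a b : R K} (ha : Squarefree a) (hb : Squarefree b) (h : IsCoprime a b) :
    x6 a b ^ 3 * x6 b a ^ 3 =
      gamJ (cl (a : K) * cl (b : K)) * gamJ (cl (a : K)) * gamJ (cl (b : K)) := by
  have ha0 := ha.ne_zero
  have hb0 := hb.ne_zero
  have hab : Squarefree (a * b) := squarefree_mul_iff.2 ⟨h.isRelPrime, ha, hb⟩
  have h1 := gs_three_mul ha0 hb0 h
  rw [h3 _ hab, h3 _ ha, h3 _ hb, G2_eq_gamJ ha0, G2_eq_gamJ hb0, G2_eq_gamJ hab.ne_zero, Nr_mul,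
    Nat.cast_mul, Real.sqrt_mul (Nat.cast_nonneg _), MulMemClass.coe_mul,
    cl_mul (coe_ne_zero ha0) (coe_ne_zero hb0)] at h1
  have h4 : ((√(Nr a : ℝ) : ℝ) : ℂ) ≠ 0 := by exact_mod_cast (sqrt_Nr_pos ha0).ne'
  have h5 : ((√(Nr b : ℝ) : ℝ) : ℂ) ≠ 0 := by exact_mod_cast (sqrt_Nr_pos hb0).ne'
  have h6 : gamJ (cl (a : K) * cl (b : K)) =
      x6 a b ^ 3 * x6 b a ^ 3 * gamJ (cl (a : K)) * gamJ (cl (b : K)) := by
    refine mul_left_cancel₀ (mul_ne_zero h4 h5) ?_
    push_cast at h1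
    linear_combination h1
  rw [h6]
  linear_combination (-(x6 a b ^ 3 * x6 b a ^ 3 * gamJ (cl (b : K)) ^ 2)) * gamJ_pow_two (cl (a : K)) -
    (x6 a b ^ 3 * x6 b a ^ 3) * gamJ_pow_two (cl (b : K))

/-- quadratic reciprocity -/
theorem quad {a b : R K} (ha : a ≠ 0) (hb : b ≠ 0) (h : IsCoprime a b) :
    x6 a b ^ 3 * x6 b a ^ 3 =
      gamJ (cl (a : K) * cl (b : K)) * gamJ (cl (a : K)) * gamJ (cl (b : K)) := by
  obtain ⟨n, u, rfl, hn⟩ := exists_sq_mul_sf a ha
  obtain ⟨m, v, rfl, hm⟩ := exists_sq_mul_sf b hb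
  have hu : u ≠ 0 := fun h0 => ha (by rw [h0]; simp)
  have hv : v ≠ 0 := fun h0 => hb (by rw [h0]; simp)
  have hn0 := hn.ne_zero
  have hm0 := hm.ne_zero
  have c1 : IsCoprime n m := h.of_mul_left_right.of_mul_right_right
  have c2 : IsCoprime (v ^ 2 * m) u := (IsCoprime.pow_left_iff two_pos).1 h.of_mul_left_left |>.symm
  have c3 : IsCoprime (u ^ 2 * n) v :=
    (IsCoprime.pow_right_iff two_pos).1 h.of_mul_right_left
  have c4 : IsCoprime v n := c3.of_mul_left_right.symm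
  have c5 : IsCoprime u m := c2.of_mul_left_right.symm
  have e1 : x6 (u ^ 2 * n) (v ^ 2 * m) ^ 3 = x6 n m ^ 3 := by
    rw [x6_mul_left, x6_pow_left, x6_mul n, x6_pow hn0, mul_pow, mul_pow, ← pow_mul, ← pow_mul,
      x6_pow_six hu c2, x6_pow_six hn0 c4, one_mul, one_mul]
  have e2 : x6 (v ^ 2 * m) (u ^ 2 * n) ^ 3 = x6 m n ^ 3 := by
    rw [x6_mul_left, x6_pow_left, x6_mul m, x6_pow hm0, mul_pow, mul_pow, ← pow_mul, ← pow_mul,
      x6_pow_six hv c3, x6_pow_six hm0 c5, one_mul, one_mul]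
  have e3 : ∀ {s t : R K}, s ≠ 0 → t ≠ 0 → cl ((s ^ 2 * t : R K) : K) = cl (t : K) * cl (s : K) ^ 2 := by
    intro s t hs ht
    push_cast
    rw [cl_mul (pow_ne_zero _ (coe_ne_zero hs)) (coe_ne_zero ht), cl_pow (coe_ne_zero hs), mul_comm]
  rw [e1, e2, quad_sf h3 hn hm c1, e3 hu hn0, e3 hv hm0, gamJ_mul_sq, gamJ_mul_sq,
    mul_mul_mul_comm, ← mul_pow, gamJ_mul_sq]

variable (hR : RAY K)

include hR

theorem ray_six {b c : R K} (hc : c ≠ 0) (hb : In1 (b : K)) (h : c ∣ b - 1) : x6 b c = 1 := by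
  have hb0 : b ≠ 0 := fun h0 => hb.ne_zero (by rw [h0]; rfl)
  have h1 := hR b c hc hb h
  have h2 := quad h3 hb0 hc (cop_of_dvd_sub_one h)
  rw [x6_congr h, x6_one_right hc, hb.cl_eq, one_mul, gamJ_one] at h2
  linear_combination h2 - x6 b c * h1 + gamJ_pow_two (cl (c : K))

theorem ray_congr {b b' c : R K} (hc : c ≠ 0) (hb' : b' ≠ 0) (hcop : IsCoprime b' c)
    (h : c ∣ b - b') (h1 : In1 ((b : K) / b')) : x6 b c = x6 b' c := by
  obtain ⟨s, k, hs⟩ := hcop
  obtain ⟨t, -, h2, h4⟩ := exists_in1 (coe_ne_zero hb') hc s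
  have d1 : c ∣ t * b' - 1 := by
    have : t * b' - 1 = (t - s) * b' - c * k := by linear_combination hs
    rw [this]
    exact dvd_sub (h2.mul_right _) (dvd_mul_right _ _)
  have d2 : c ∣ t * b - 1 := by
    have : t * b - 1 = t * (b - b') + (t * b' - 1) := by ring
    rw [this]
    exact dvd_add (h.mul_left _) d1
  have i2 : In1 ((t * b : R K) : K) := by
    have := h4.mul h1
    rwa [mul_assoc, mul_div_cancel₀ _ (coe_ne_zero hb')] at this
  have r1 := ray_six h3 hR hc (b := t * b') h4 d1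
  have r2 := ray_six h3 hR hc i2 d2
  rw [x6_mul_left] at r1 r2
  linear_combination x6 b' c * r2 - x6 b c * r1

end

/-- `(x/y) (y/x)⁻¹` -/
noncomputable def rq (x y : R K) : ℂ := x6 y x * conj (x6 x y)

theorem rq_mul_right (x y y' : R K) : rq x (y * y') = rq x y * rq x y' := by
  rw [rq, rq, rq, x6_mul_left, x6_mul, map_mul]; ring

theorem rq_mul_left (x x' y : R K) : rq (x * x') y = rq x y * rq x' y := by
  rw [rq, rq, rq, x6_mul_left, x6_mul, map_mul]; ring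

theorem conj_rq (x y : R K) : conj (rq x y) = rq y x := by
  rw [rq, rq, map_mul, Complex.conj_conj, mul_comm]

theorem rq_pow_six {x y : R K} (hx : x ≠ 0) (hy : y ≠ 0) (h : IsCoprime x y) :
    rq x (y ^ 6) = 1 := by
  rw [rq, x6_pow_left, x6_pow_six hy h, x6_sixth hx h.symm, map_one, one_mul]

section

variable (h3 : ∀ n : R K, Squarefree n → gs 3 1 n = G2 n) (hR : RAY K)

include h3 hR

theorem rq_near {x y : R K} (hx : x ≠ 0) (h : IsCoprime x y) (h1 : In1 ((y : K) / x)) :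
    rq x y = 1 := by
  by_cases ha : y - x = 0
  · rw [sub_eq_zero] at ha
    subst ha
    rw [rq, x6_unit (isCoprime_self.1 h), map_one, one_mul]
  have c1 : IsCoprime x (y - x) := by
    obtain ⟨a, b, hab⟩ := h
    exact ⟨a + b, b, by linear_combination hab⟩
  have e1 : x6 y x = x6 y (y - x) := by
    rw [← x6_neg y x]; exact x6_congr ⟨-1, by ring⟩
  have e2 : x6 x y = x6 x (y - x) := x6_congr ⟨1, by ring⟩
  rw [rq, e1, e2, ray_congr h3 hR ha hx c1 dvd_rfl h1, mul_comm, conj_x6_mul hx,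
    cop_of_coprime c1.symm]

theorem rq_in1 {x y : R K} (hx : x ≠ 0) (h : IsCoprime x y) (h1 : In1 (y : K)) : rq x y = 1 := by
  obtain ⟨t, -, h2, h4⟩ := exists_in1 (inv_ne_zero (coe_ne_zero hx)) hx 1
  have c1 := (cop_of_dvd_sub_one h2).symm
  have r1 := rq_near h3 hR hx c1 (by rwa [div_eq_mul_inv])
  have r2 := rq_near h3 hR hx (h.mul_right c1) (by
    have := h1.mul h4
    rwa [← mul_assoc, ← div_eq_mul_inv] at this)
  rwa [rq_mul_right, r1, mul_one] at r2

theorem rq_congr_right {x y y' : R K} (hx : x ≠ 0) (hy : y ≠ 0) (hy' : y' ≠ 0)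
    (h : IsCoprime x y) (h' : IsCoprime x y') (hc : cl (y : K) = cl (y' : K)) :
    rq x y = rq x y' := by
  obtain ⟨η, hη, e⟩ := exists_H_of_cl_eq (coe_ne_zero hy) (coe_ne_zero hy') hc
  obtain ⟨w, p, hp, rfl⟩ := mem_H.1 hη
  obtain ⟨s, hs, h1, h2⟩ := exists_in1 (inv_ne_zero w.ne_zero) hx 1
  have h0 : s ^ 6 * y ≠ 0 := mul_ne_zero (pow_ne_zero _ hs) hy
  obtain ⟨t, -, h4, h5⟩ := exists_in1 (coe_ne_zero h0) hx 1
  have c1 := (cop_of_dvd_sub_one h1).symm
  have c2 := (cop_of_dvd_sub_one h4).symm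
  have r1 := rq_in1 h3 hR hx (c2.mul_right (c1.pow_right.mul_right h)) (y := t * (s ^ 6 * y)) h5
  have r2 := rq_in1 h3 hR hx (c2.mul_right h') (by
    have h6 : In1 (p : K) := hp
    have := (h5.mul h6).mul (h2.pow 6).inv
    have e2 : (t : K) * ((s ^ 6 * y : R K) : K) * p * (((s : K) * (w : K)⁻¹) ^ 6)⁻¹ =
        ((t * y' : R K) : K) := by
      have := coe_ne_zero hs
      push_cast
      rw [e]
      push_cast
      field_simp
    rwa [e2] at this)
  rw [rq_mul_right, rq_mul_right, rq_pow_six hx hs c1, one_mul] at r1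
  rw [rq_mul_right] at r2
  linear_combination rq x y' * r1 - rq x y * r2

theorem rq_congr {x y x' y' : R K} (hx : x ≠ 0) (hy : y ≠ 0) (hx' : x' ≠ 0) (hy' : y' ≠ 0)
    (h : IsCoprime x y) (h' : IsCoprime x' y') (c1 : cl (x : K) = cl (x' : K))
    (c2 : cl (y : K) = cl (y' : K)) : rq x y = rq x' y' := by
  obtain ⟨z, hz, h1, h2⟩ := exists_cl_cop (cl (y : K)) (mul_ne_zero hx hx')
  rw [rq_congr_right h3 hR hx hy hz h h1.of_mul_right_left.symm h2.symm,
    rq_congr_right h3 hR hx' hy' hz h' h1.of_mul_right_right.symm (c2.symm.trans h2.symm),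
    ← conj_rq z x, ← conj_rq z x',
    rq_congr_right h3 hR hz hx hx' h1.of_mul_right_left h1.of_mul_right_right c1]

/-- **the reciprocity factor exists** -/
theorem rec_of_ray : REC K := by
  choose f f0 _ f2 using fun j : J K => exists_cl_cop j (one_ne_zero (α := R K))
  choose g g0 g1 g2 using fun i j : J K => exists_cl_cop j (f0 i)
  have key : ∀ x y : R K, x ≠ 0 → y ≠ 0 → IsCoprime x y →
      rq (f (cl (x : K))) (g (cl (x : K)) (cl (y : K))) = rq x y := fun x y hx hy h =>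
    rq_congr h3 hR (f0 _) (g0 _ _) hx hy (g1 _ _).symm h (f2 _) (g2 _ _)
  refine ⟨fun i j => rq (f i) (g i j), fun a a' b => ?_, fun a b b' => ?_, fun a => ?_,
    fun x y hx hy h => ?_⟩
  · have k := fun (x : R K) (hx : x ≠ 0) (h : IsCoprime x (f b)) => key x (f b) hx (f0 b) h
    have k1 := k _ (mul_ne_zero (g0 b a) (g0 b a')) ((g1 b a).mul_left (g1 b a'))
    have k2 := k _ (g0 b a) (g1 b a)
    have k3 := k _ (g0 b a') (g1 b a')
    rw [MulMemClass.coe_mul, cl_mul (coe_ne_zero (g0 b a)) (coe_ne_zero (g0 b a'))] at k1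
    simp only [f2, g2] at k1 k2 k3
    simp only [k1, k2, k3, rq_mul_left]
  · have k := fun (y : R K) (hy : y ≠ 0) (h : IsCoprime y (f a)) => key (f a) y (f0 a) hy h.symm
    have k1 := k _ (mul_ne_zero (g0 a b) (g0 a b')) ((g1 a b).mul_left (g1 a b'))
    rw [MulMemClass.coe_mul, cl_mul (coe_ne_zero (g0 a b)) (coe_ne_zero (g0 a b'))] at k1
    simp only [f2, g2] at k1
    simp only [k1, rq_mul_right]
  · obtain ⟨t, ht, h1, h2⟩ := exists_in1 (inv_ne_zero (coe_ne_zero (f0 a))) (f0 a) 1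
    have c1 := (cop_of_dvd_sub_one h1).symm
    have h4 := h2.cl_eq
    rw [cl_mul (coe_ne_zero ht) (inv_ne_zero (coe_ne_zero (f0 a))), cl_inv (coe_ne_zero (f0 a)),
      mul_inv_eq_one, f2] at h4
    have k1 := key (f a) t (f0 a) ht c1
    rw [f2, h4] at k1
    simp only [k1]
    exact rq_near h3 hR (f0 a) c1 (by rwa [div_eq_mul_inv])
  · simp only [key x y hx hy h]
    rw [rq, mul_assoc, conj_x6_mul hx, cop_of_coprime h.symm, mul_one]

end

end Vale.Agent.P016Z.Sym
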