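import Vale.Agent.P016Z.TH.Emb
import Mathlib.NumberTheory.ModularForms.JacobiTheta.TwoVariable
import Mathlib.Analysis.Normed.Group.Tannery

/-!
P016, block SYM: the classical Gauss sum `∑_{r mod 2m} e(r² / 4m) = (1 + i) √m`.
-/

namespace Vale.Agent.P016Z.Sym

open Complex Finset Filter Topology TH
open scoped Real ComplexConjugate

theorem theta_tendsto (x u : ℝ) :
    Tendsto (fun y : ℝ => jacobiTheta₂ x (u + y * I)) atTop (𝓝 1) := by
  have h := tendsto_tsum_of_dominated_convergence (𝓕 := atTop)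
    (f := fun (y : ℝ) (n : ℤ) => jacobiTheta₂_term n x (u + y * I))
    (g := fun n : ℤ => if n = 0 then (1 : ℂ) else 0)
    (bound := fun n : ℤ => ‖jacobiTheta₂_term n 0 I‖)
    ((summable_jacobiTheta₂_term_iff 0 I).2 (by simp)).norm ?_ ?_
  · rw [tsum_ite_eq] at h
    exact h
  · intro n
    by_cases hn : n = 0
    · subst hn
      simp [jacobiTheta₂_term]
    · rw [if_neg hn, tendsto_zero_iff_norm_tendsto_zero]
      simp only [norm_jacobiTheta₂_term, add_im, ofReal_im, mul_im, ofReal_re, I_im, mul_one,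
        I_re, mul_zero, add_zero, zero_add, sub_zero]
      refine Real.tendsto_exp_atBot.comp ?_
      have h1 : (0 : ℝ) < (n : ℝ) ^ 2 := by positivity
      exact tendsto_id.const_mul_atTop_of_neg
        (mul_neg_of_neg_of_pos (by linarith [Real.pi_pos]) h1)
  · filter_upwards [eventually_ge_atTop (1 : ℝ)] with y hy n
    simp only [norm_jacobiTheta₂_term, add_im, ofReal_im, mul_im, ofReal_re, I_im, mul_one,
      I_re, mul_zero, add_zero, zero_add, sub_zero, zero_im]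
    refine Real.exp_le_exp.2 ?_
    have h1 : (0 : ℝ) ≤ π * (n : ℝ) ^ 2 := by positivity
    nlinarith

theorem real_mul_cpow_half {a : ℝ} (ha : 0 < a) {z : ℂ} (hz : z ≠ 0) :
    ((a : ℂ) * z) ^ (1 / 2 : ℂ) = (√a : ℝ) * z ^ (1 / 2 : ℂ) := by
  have ha' : (a : ℂ) ≠ 0 := by exact_mod_cast ha.ne'
  rw [cpow_def_of_ne_zero (mul_ne_zero ha' hz), cpow_def_of_ne_zero hz,
    log_ofReal_mul ha hz, add_mul, exp_add]
  congr 1
  rw [Real.sqrt_eq_rpow, Real.rpow_def_of_pos ha]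
  push_cast
  rfl

theorem theta_add_even (τ : ℂ) (m : ℕ) : jacobiTheta₂ 0 (τ + 2 * m) = jacobiTheta₂ 0 τ := by
  induction m with
  | zero => simp
  | succ m ih =>
    rw [← ih, ← jacobiTheta₂_add_right 0 (τ + 2 * m)]
    congr 1
    push_cast
    ring

/-- one residue class of a Gaussian -/
theorem class_sum {y : ℝ} (hy : 0 < y) (x : ℝ) :
    ∑' k : ℤ, cexp (-π / y * (k + x) ^ 2) = (√y : ℝ) * jacobiTheta₂ x ((0 : ℝ) + y * I) := by
  have h := Complex.tsum_exp_neg_quadratic (a := y) (by simpa using hy) (-I * x)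
  have h1 : I * (-I * x) = x := by linear_combination (-(x : ℂ)) * I_mul_I
  rw [h1] at h
  have h2 : (y : ℂ) ^ (1 / 2 : ℂ) = (√y : ℝ) := by
    have := real_mul_cpow_half hy (z := 1) one_ne_zero
    rwa [mul_one, one_cpow, mul_one] at this
  have h3 : ((√y : ℝ) : ℂ) ≠ 0 := by exact_mod_cast (Real.sqrt_pos.2 hy).ne'
  rw [h2] at h
  rw [← jacobiTheta₂_neg_left, jacobiTheta₂]
  have h4 : ∑' n : ℤ, jacobiTheta₂_term n (-(x : ℂ)) ((0 : ℝ) + y * I) =
      ∑' n : ℤ, cexp (-π * y * n ^ 2 + 2 * π * (-I * x) * n) := by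
    refine tsum_congr fun n => ?_
    rw [jacobiTheta₂_term]
    congr 1
    push_cast
    linear_combination (π * (n : ℂ) ^ 2 * y) * I_mul_I
  rw [h4, h]
  field_simp

/-- the Gauss sum `∑_{r mod 2m} e(r² / 4m)` -/
noncomputable def gs1 (m : ℕ) : ℂ := ∑ r ∈ range (2 * m), ee ((r : ℝ) ^ 2 / (4 * m))

theorem side_A {m : ℕ} (hm : 0 < m) {y : ℝ} (hy : 0 < y) :
    jacobiTheta₂ 0 (1 / (2 * m) + I / ((2 * m) ^ 2 * y)) =
      (√y : ℝ) * ∑ r ∈ range (2 * m), ee ((r : ℝ) ^ 2 / (4 * m)) *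
        jacobiTheta₂ ((r : ℝ) / (2 * m) : ℝ) ((0 : ℝ) + y * I) := by
  have : NeZero (2 * m) := ⟨by omega⟩
  have hm' : (m : ℂ) ≠ 0 := by exact_mod_cast hm.ne'
  have hy' : (y : ℂ) ≠ 0 := by exact_mod_cast hy.ne'
  set τ : ℂ := 1 / (2 * m) + I / ((2 * m) ^ 2 * y) with hτ
  have hτ0 : 0 < τ.im := by
    have : τ = ((1 / (2 * m) : ℝ) : ℂ) + ((1 / ((2 * m) ^ 2 * y) : ℝ) : ℂ) * I := by
      rw [hτ]; push_cast; ring
    rw [this]
    simp only [add_im, ofReal_im, mul_im, ofReal_re, I_im, mul_one, I_re, mul_zero, add_zero,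
      zero_add]
    have : (0 : ℝ) < m := by exact_mod_cast hm
    positivity
  have hs := (summable_jacobiTheta₂_term_iff 0 τ).2 hτ0
  let e : Fin (2 * m) × ℤ ≃ ℤ := (Equiv.prodComm _ _).trans (Int.divModEquiv (2 * m)).symm
  have he : ∀ p : Fin (2 * m) × ℤ, e p = p.2 * ((2 * m : ℕ) : ℤ) + (p.1 : ℕ) := fun p => rfl
  have hs' : Summable fun p : Fin (2 * m) × ℤ => jacobiTheta₂_term (e p) 0 τ :=
    (e.summable_iff (f := fun n => jacobiTheta₂_term n 0 τ)).2 hs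
  rw [jacobiTheta₂, ← e.tsum_eq, hs'.tsum_prod, tsum_fintype, mul_sum, ← Fin.sum_univ_eq_sum_range (fun r : ℕ =>
      ((√y : ℝ) : ℂ) * (ee ((r : ℝ) ^ 2 / (4 * m)) *
        jacobiTheta₂ ((r : ℝ) / (2 * m) : ℝ) ((0 : ℝ) + y * I)))]
  refine sum_congr rfl fun r _ => ?_
  rw [mul_left_comm, ← class_sum hy, ← tsum_mul_left]
  refine tsum_congr fun k => ?_
  rw [he, jacobiTheta₂_term, ee, ← exp_add, exp_eq_exp_iff_exists_int]
  refine ⟨((r : ℕ) : ℤ) * k + m * k ^ 2, ?_⟩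
  rw [hτ]
  push_cast
  field_simp
  linear_combination (4 * (2 * m * (k : ℂ) + (r : ℕ)) ^ 2) * I_mul_I

theorem side_B {m : ℕ} (hm : 0 < m) {y : ℝ} (hy : 0 < y) :
    jacobiTheta₂ 0 (1 / (2 * m) + I / ((2 * m) ^ 2 * y)) =
      (√y : ℝ) * (1 / (-I * (1 / (2 * m) + I / ((2 * m) ^ 2 * y))) ^ (1 / 2 : ℂ) *
        (1 / (1 / (1 + I / (2 * m * y))) ^ (1 / 2 : ℂ) *
          jacobiTheta₂ (0 : ℝ) ((-(1 / (2 * m)) : ℝ) + y * I))) := by
  have hm' : (m : ℂ) ≠ 0 := by exact_mod_cast hm.ne'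
  have hy' : (y : ℂ) ≠ 0 := by exact_mod_cast hy.ne'
  have hw : (1 + I / (2 * m * y) : ℂ) ≠ 0 := by
    intro h
    have h1 := congrArg Complex.re h
    have h2 : (I / (2 * m * y) : ℂ) = ((1 / (2 * m * y) : ℝ) : ℂ) * I := by push_cast; ring
    rw [h2] at h1
    simp at h1
  have hw' : (2 * m * y + I : ℂ) ≠ 0 := by
    intro h
    apply hw
    field_simp
    linear_combination h
  set τ : ℂ := 1 / (2 * m) + I / ((2 * m) ^ 2 * y) with hτ
  have hτ1 : τ = (2 * m * y + I) / ((2 * m) ^ 2 * y) := by rw [hτ]; field_simp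
  have hτ0 : τ ≠ 0 := by
    rw [hτ1]
    exact div_ne_zero hw' (mul_ne_zero (pow_ne_zero _ (mul_ne_zero two_ne_zero hm')) hy')
  have fe : ∀ σ : ℂ, jacobiTheta₂ 0 σ = 1 / (-I * σ) ^ (1 / 2 : ℂ) * jacobiTheta₂ 0 (-1 / σ) := by
    intro σ
    rw [jacobiTheta₂_functional_equation 0 σ]
    simp
  have h1 : -1 / τ + 2 * m = 2 * m * I / (2 * m * y + I) := by
    rw [hτ1]
    field_simp
    ring
  have h2 : -I * (2 * m * I / (2 * m * y + I)) = ((1 / y : ℝ) : ℂ) * (1 / (1 + I / (2 * m * y))) := by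
    push_cast
    field_simp
    linear_combination (-1 : ℂ) * I_mul_I
  have h3 : -1 / (2 * m * I / (2 * m * y + I)) = ((-(1 / (2 * m)) : ℝ) : ℂ) + y * I := by
    push_cast
    field_simp
    linear_combination (-2 * (m : ℂ) * y) * I_mul_I
  have h4 : ((√y : ℝ) : ℂ) ≠ 0 := by exact_mod_cast (Real.sqrt_pos.2 hy).ne'
  rw [fe τ, ← theta_add_even (-1 / τ) m, h1, fe (2 * m * I / (2 * m * y + I)), h2, h3,
    real_mul_cpow_half (by positivity) (one_div_ne_zero hw), Real.sqrt_div zero_le_one,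
    Real.sqrt_one, ofReal_zero]
  push_cast
  field_simp

theorem gs1_eq {m : ℕ} (hm : 0 < m) : gs1 m = (√(m : ℝ) : ℝ) * (1 + I) := by
  have hm' : (m : ℂ) ≠ 0 := by exact_mod_cast hm.ne'
  have hm0 : (0 : ℝ) < m := by exact_mod_cast hm
  have hA : Tendsto (fun y : ℝ => ∑ r ∈ range (2 * m), ee ((r : ℝ) ^ 2 / (4 * m)) *
      jacobiTheta₂ ((r : ℝ) / (2 * m) : ℝ) ((0 : ℝ) + y * I)) atTop (𝓝 (gs1 m)) := by
    refine tendsto_finsetSum _ fun r _ => ?_
    simpa only [mul_one] using (theta_tendsto ((r : ℝ) / (2 * m)) 0).const_mul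
      (ee ((r : ℝ) ^ 2 / (4 * m)))
  have hinv : Tendsto (fun y : ℝ => ((y : ℂ))⁻¹) atTop (𝓝 0) := by
    have := (continuous_ofReal.tendsto 0).comp tendsto_inv_atTop_zero
    refine this.congr fun y => ?_
    simp
  have h1 : Tendsto (fun y : ℝ => -I * (1 / (2 * m) + I / ((2 * m) ^ 2 * y))) atTop
      (𝓝 (-I * (1 / (2 * m)))) := by
    refine Tendsto.const_mul _ ?_
    have := (hinv.const_mul (I / (2 * m) ^ 2)).const_add (1 / (2 * (m : ℂ)))
    rw [mul_zero, add_zero] at this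
    refine this.congr fun y => ?_
    ring
  have h2 : Tendsto (fun y : ℝ => 1 / (1 + I / (2 * m * y))) atTop (𝓝 1) := by
    have := ((hinv.const_mul (I / (2 * m))).const_add 1).inv₀ (by simp)
    rw [mul_zero, add_zero, inv_one] at this
    refine this.congr fun y => ?_
    rw [one_div]
    congr 1
    ring
  have hv : (-I * (1 / (2 * m)) : ℂ) = ((1 / (2 * m) : ℝ) : ℂ) * (-I) := by push_cast; ring
  have hsl : (-I * (1 / (2 * m)) : ℂ) ∈ slitPlane := by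
    rw [hv]
    right
    simp [hm.ne']
  have h3 := ((continuousAt_cpow_const (b := (1 / 2 : ℂ)) hsl).tendsto.comp h1)
  have h4 := ((continuousAt_cpow_const (b := (1 / 2 : ℂ)) one_mem_slitPlane).tendsto.comp h2)
  have hI : (-I) ^ (1 / 2 : ℂ) * (1 + I) = (√2 : ℝ) := by
    rw [cpow_def_of_ne_zero (neg_ne_zero.2 I_ne_zero), log_neg_I]
    have : -(π / 2 : ℂ) * I * (1 / 2) = ((-(π / 4) : ℝ) : ℂ) * I := by push_cast; ring
    rw [this, exp_mul_I, ← ofReal_cos, ← ofReal_sin, Real.cos_neg, Real.sin_neg,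
      Real.cos_pi_div_four, Real.sin_pi_div_four]
    push_cast
    linear_combination (-((√2 : ℝ) : ℂ) / 2) * I_mul_I
  have hs2 : ((√2 : ℝ) : ℂ) ≠ 0 := by exact_mod_cast (Real.sqrt_pos.2 two_pos).ne'
  have hsm : ((√(m : ℝ) : ℝ) : ℂ) ≠ 0 := by exact_mod_cast (Real.sqrt_pos.2 hm0).ne'
  have hc : (-I * (1 / (2 * m)) : ℂ) ^ (1 / 2 : ℂ) * ((√(m : ℝ) : ℝ) * (1 + I)) = 1 := by
    rw [hv, real_mul_cpow_half (by positivity) (neg_ne_zero.2 I_ne_zero),
      Real.sqrt_div zero_le_one, Real.sqrt_one, Real.sqrt_mul zero_le_two]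
    push_cast
    field_simp
    exact hI
  have hne : (-I * (1 / (2 * m)) : ℂ) ^ (1 / 2 : ℂ) ≠ 0 := left_ne_zero_of_mul_eq_one hc
  have hB := ((h3.inv₀ hne).mul ((h4.inv₀ (by simp)).mul (theta_tendsto 0 (-(1 / (2 * m))))))
  rw [one_cpow, inv_one, mul_one, mul_one, inv_eq_of_mul_eq_one_right hc] at hB
  refine tendsto_nhds_unique hA (hB.congr' ?_)
  filter_upwards [eventually_gt_atTop (0 : ℝ)] with y hy
  have h5 : ((√y : ℝ) : ℂ) ≠ 0 := by exact_mod_cast (Real.sqrt_pos.2 hy).ne'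
  have h6 := (side_B hm hy).symm.trans (side_A hm hy)
  have h7 := mul_left_cancel₀ h5 h6
  rw [← h7]
  simp only [Function.comp, one_div]

end Vale.Agent.P016Z.Sym
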