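import Vale.Agent.P016Z.Sym.G2a

/-!
P016, block SYM: residue systems and Milgram's formula for rational quadratic forms of
signature zero.
-/

namespace Vale.Agent.P016Z.Sym

open Complex Finset TH
open scoped Real ComplexConjugate

section res

variable {V : Type} [AddCommGroup V]

/-- `φ` on `s` is a complete system of representatives of `Λ` modulo `L` -/
structure Res (Λ L : AddSubgroup V) {α : Type} (s : Finset α) (φ : α → V) : Prop where
  mem : ∀ a ∈ s, φ a ∈ Λ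
  ex : ∀ x ∈ Λ, ∃ a ∈ s, x - φ a ∈ L
  inj : ∀ a ∈ s, ∀ b ∈ s, φ a - φ b ∈ L → a = b

variable {Λ L N : AddSubgroup V} {α β : Type} {s : Finset α} {φ : α → V} {s' : Finset β}
  {φ' : β → V}

theorem Res.sum_eq (h : Res Λ L s φ) (h' : Res Λ L s' φ') {f : V → ℂ}
    (hf : ∀ x ∈ Λ, ∀ y ∈ L, f (x + y) = f x) : ∑ a ∈ s, f (φ a) = ∑ b ∈ s', f (φ' b) := by
  choose i hi hi' using fun a (ha : a ∈ s) => h'.ex (φ a) (h.mem a ha)
  refine sum_bij i hi ?_ ?_ ?_
  · intro a ha b hb hab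
    refine h.inj a ha b hb ?_
    have h1 := L.sub_mem (hi' a ha) (hi' b hb)
    rwa [hab, sub_sub_sub_cancel_right] at h1
  · intro b hb
    obtain ⟨a, ha, h1⟩ := h.ex (φ' b) (h'.mem b hb)
    refine ⟨a, ha, h'.inj _ (hi a ha) b hb ?_⟩
    have h2 := L.neg_mem (L.add_mem h1 (hi' a ha))
    rwa [sub_add_sub_cancel, neg_sub] at h2
  · intro a ha
    rw [← hf _ (h'.mem _ (hi a ha)) _ (hi' a ha), add_sub_cancel]

open Classical in
theorem Res.filter (h : Res Λ L s φ) {Λ₀ : AddSubgroup V} (h1 : L ≤ Λ₀) (h2 : Λ₀ ≤ Λ) :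
    Res Λ₀ L (s.filter fun a => φ a ∈ Λ₀) φ where
  mem a ha := (mem_filter.1 ha).2
  ex x hx := by
    obtain ⟨a, ha, h3⟩ := h.ex x (h2 hx)
    refine ⟨a, mem_filter.2 ⟨ha, ?_⟩, h3⟩
    have := Λ₀.sub_mem hx (h1 h3)
    rwa [sub_sub_cancel] at this
  inj a ha b hb := h.inj a (mem_filter.1 ha).1 b (mem_filter.1 hb).1

theorem Res.add (h : Res Λ L s φ) {y : V} (hy : y ∈ Λ) : Res Λ L s (fun a => φ a + y) where
  mem a ha := Λ.add_mem (h.mem a ha) hy
  ex x hx := by
    obtain ⟨a, ha, h3⟩ := h.ex (x - y) (Λ.sub_mem hx hy)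
    exact ⟨a, ha, by rwa [sub_sub, add_comm y] at h3⟩
  inj a ha b hb h1 := h.inj a ha b hb (by rwa [add_sub_add_right_eq_sub] at h1)

theorem Res.prod (h : Res Λ L s φ) (h' : Res L N s' φ') (h1 : L ≤ Λ) (h2 : N ≤ L) :
    Res Λ N (s ×ˢ s') (fun p => φ p.1 + φ' p.2) where
  mem p hp := Λ.add_mem (h.mem _ (mem_product.1 hp).1) (h1 (h'.mem _ (mem_product.1 hp).2))
  ex x hx := by
    obtain ⟨a, ha, h3⟩ := h.ex x hx
    obtain ⟨b, hb, h4⟩ := h'.ex _ h3
    exact ⟨(a, b), mem_product.2 ⟨ha, hb⟩, by rwa [sub_sub] at h4⟩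
  inj p hp p' hp' h3 := by
    rw [mem_product] at hp hp'
    have h4 : p.1 = p'.1 := by
      refine h.inj _ hp.1 _ hp'.1 ?_
      have h5 := L.sub_mem (h2 h3) (L.sub_mem (h'.mem _ hp.2) (h'.mem _ hp'.2))
      have e : φ p.1 + φ' p.2 - (φ p'.1 + φ' p'.2) - (φ' p.2 - φ' p'.2) = φ p.1 - φ p'.1 := by
        abel
      rwa [e] at h5
    refine Prod.ext h4 (h'.inj _ hp.2 _ hp'.2 ?_)
    rwa [h4, add_sub_add_left_eq_sub] at h3

theorem Res.card_pos (h : Res Λ L s φ) : 0 < s.card := by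
  obtain ⟨a, ha, -⟩ := h.ex 0 Λ.zero_mem
  exact Finset.card_pos.2 ⟨a, ha⟩

open Classical in
/-- the sum of a function with a quadratic behaviour along `L` -/
theorem Res.iso (h : Res Λ N s φ) (h1 : N ≤ L) (h2 : L ≤ Λ) {f : V → ℂ} {B : V → V → ℂ}
    (hf : ∀ x, ∀ y ∈ L, f (x + y) = f x * B x y)
    (hB : ∀ x y y', B x (y + y') = B x y * B x y') (hBN : ∀ x ∈ Λ, ∀ y ∈ N, B x y = 1)
    {D : AddSubgroup V} (hD : ∀ x, x ∈ D ↔ ∀ y ∈ L, B x y = 1) :
    ∑ a ∈ s, f (φ a) = ∑ a ∈ s.filter (fun a => φ a ∈ D), f (φ a) := by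
  have hU := h.filter h1 h2
  set U := s.filter (fun a => φ a ∈ L) with hUdef
  have hper : ∀ x ∈ Λ, ∀ y ∈ N, f (x + y) = f x := fun x hx y hy => by
    rw [hf x y (h1 hy), hBN x hx y hy, mul_one]
  have hc : (U.card : ℂ) ≠ 0 := by exact_mod_cast hU.card_pos.ne'
  have h3 : ∀ b ∈ U, ∑ a ∈ s, f (φ a) = ∑ a ∈ s, f (φ a) * B (φ a) (φ b) := by
    intro b hb
    rw [h.sum_eq (h.add (h2 (hU.mem b hb))) hper]
    exact sum_congr rfl fun a _ => hf _ _ (hU.mem b hb)
  have h4 : ∀ a ∈ s, ∑ b ∈ U, B (φ a) (φ b) = if φ a ∈ D then (U.card : ℂ) else 0 := by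
    intro a ha
    split_ifs with hd
    · rw [sum_congr rfl fun b hb => (hD _).1 hd _ (hU.mem b hb), sum_const, nsmul_eq_mul, mul_one]
    · rw [hD] at hd
      push Not at hd
      obtain ⟨y, hy, hne⟩ := hd
      have h5 := hU.sum_eq (hU.add hy) (f := B (φ a)) fun x _ z hz => by
        rw [hB, hBN _ (h.mem a ha) z hz, mul_one]
      simp only [hB] at h5
      rw [← sum_mul] at h5
      by_contra h6
      exact hne (mul_left_cancel₀ h6 (h5.symm.trans (mul_one _).symm))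
  refine mul_left_cancel₀ hc ?_
  calc (U.card : ℂ) * ∑ a ∈ s, f (φ a) = ∑ b ∈ U, ∑ a ∈ s, f (φ a) * B (φ a) (φ b) := by
        rw [← sum_congr rfl h3, sum_const, nsmul_eq_mul]
    _ = ∑ a ∈ s, f (φ a) * if φ a ∈ D then (U.card : ℂ) else 0 := by
        rw [sum_comm]
        exact sum_congr rfl fun a ha => by rw [← mul_sum, h4 a ha]
    _ = _ := by
        rw [sum_filter, mul_sum]
        refine sum_congr rfl fun a _ => ?_
        split_ifs <;> ring

end res

/-- `e(t)` for rational `t` -/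
noncomputable def eQ (t : ℚ) : ℂ := ee (t : ℝ)

theorem eQ_add (s t : ℚ) : eQ (s + t) = eQ s * eQ t := by rw [eQ, Rat.cast_add, ee_add]; rfl

theorem eQ_int (k : ℤ) : eQ k = 1 := by rw [eQ, Rat.cast_intCast, ee_int]

theorem eQ_sum {α : Type} (s : Finset α) (f : α → ℚ) : eQ (∑ i ∈ s, f i) = ∏ i ∈ s, eQ (f i) := by
  rw [eQ, Rat.cast_sum, ee_sum]; rfl

theorem eQ_eq_one {t : ℚ} : eQ t = 1 ↔ ∃ k : ℤ, t = k := by
  constructor
  · intro h
    obtain ⟨n, hn⟩ := Complex.exp_eq_one_iff.1 h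
    refine ⟨n, ?_⟩
    have h1 : (2 * Real.pi * Complex.I : ℂ) ≠ 0 := Complex.two_pi_I_ne_zero
    have h2 : (((t : ℝ)) : ℂ) = n := mul_left_cancel₀ h1 (by rw [hn]; ring)
    exact_mod_cast h2
  · rintro ⟨n, rfl⟩; exact eQ_int n

/-- the one dimensional Gauss sums, both signs -/
theorem gs_int {m : ℤ} (hm : m ≠ 0) :
    ∑ t ∈ range (2 * m.natAbs), eQ ((t : ℚ) ^ 2 / (4 * m)) =
      (√(m.natAbs : ℝ) : ℝ) * if 0 < m then 1 + I else 1 - I := by
  have h := gs1_eq (Int.natAbs_pos.2 hm)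
  split_ifs with h0
  · rw [← h, gs1]
    refine sum_congr rfl fun t _ => ?_
    rw [eQ, Nat.cast_natAbs, abs_of_pos h0]
    push_cast
    rfl
  · have h1 : m < 0 := lt_of_le_of_ne (not_lt.1 h0) hm
    have h2 := congrArg conj h
    rw [map_mul, conj_ofReal, map_add, map_one, conj_I, ← sub_eq_add_neg] at h2
    rw [← h2, gs1, map_sum]
    refine sum_congr rfl fun t _ => ?_
    rw [← ee_neg, eQ, Nat.cast_natAbs, abs_of_neg h1]
    push_cast
    congr 1
    ring

section milgram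

variable {V : Type} [AddCommGroup V] [Module ℚ V] {ι : Type} [Fintype ι] [DecidableEq ι]

open Classical in
/-- **Milgram's formula** in signature zero. -/
theorem milgram (e : V ≃ₗ[ℚ] (ι → ℚ)) (w : ι → ℚ) (hw : ∀ i, w i ≠ 0)
    (hsig : (univ.filter fun i => 0 < w i).card = (univ.filter fun i => ¬ 0 < w i).card)
    {q : V → ℚ} {b : V → V → ℚ} (hq : ∀ x, q x = ∑ i, w i * e x i ^ 2)
    (hb : ∀ x y, q (x + y) = q x + q y + b x y)
    {Λ L N : AddSubgroup V} (hNL : N ≤ L) (hLΛ : L ≤ Λ) (hL : ∀ y ∈ L, ∃ k : ℤ, q y = k)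
    (hper : ∀ x ∈ Λ, ∀ y ∈ N, ∃ k : ℤ, b x y = k)
    (hdual : ∀ x, (∀ y ∈ L, ∃ k : ℤ, b x y = k) → x ∈ Λ)
    (hfull : ∀ x : V, ∃ M : ℕ, M ≠ 0 ∧ M • x ∈ N)
    {α : Type} {s : Finset α} {φ : α → V} (h : Res Λ N s φ) :
    ∃ c : ℝ, 0 < c ∧ ∑ a ∈ s, eQ (q (φ a)) = c := by
  have hb' : ∀ x y, b x y = ∑ i, 2 * w i * e x i * e y i := by
    intro x y
    have h1 := hb x y
    rw [hq, hq, hq, ← sum_add_distrib] at h1
    rw [← sub_eq_iff_eq_add'.2 h1, ← sum_sub_distrib]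
    refine sum_congr rfl fun i _ => ?_
    rw [map_add, Pi.add_apply]
    ring
  have hbr : ∀ x y y', b x (y + y') = b x y + b x y' := by
    intro x y y'
    simp only [hb', map_add, Pi.add_apply, mul_add, sum_add_distrib]
  have hbl : ∀ x x' y, b (x + x') y = b x y + b x' y := by
    intro x x' y
    simp only [hb', map_add, Pi.add_apply, mul_add, add_mul, sum_add_distrib]
  have hbn : ∀ x y, b (-x) y = -b x y := by
    intro x y
    simp only [hb', map_neg, Pi.neg_apply, mul_neg, neg_mul, sum_neg_distrib]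
  -- the common multiple
  choose M₀ hM₀ hM₀' using fun i => hfull (e.symm (Pi.single i 1))
  set M : ℕ := ∏ i, M₀ i with hMdef
  have hM : M ≠ 0 := prod_ne_zero_iff.2 fun i _ => hM₀ i
  have hMq : (M : ℚ) ≠ 0 := by exact_mod_cast hM
  set v : ι → V := fun i => M • e.symm (Pi.single i 1) with hv
  have hvN : ∀ i, v i ∈ N := by
    intro i
    obtain ⟨c, hc⟩ : M₀ i ∣ M := dvd_prod_of_mem _ (mem_univ i)
    rw [hv]
    simp only
    rw [hc, mul_comm, mul_smul]
    exact N.nsmul_mem (hM₀' i) c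
  have hev : ∀ i j, e (v i) j = if j = i then (M : ℚ) else 0 := by
    intro i j
    rw [hv]
    simp only [map_nsmul, LinearEquiv.apply_symm_apply, Pi.smul_apply, Pi.single_apply,
      nsmul_eq_mul, mul_ite, mul_one, mul_zero]
  have hbv : ∀ x i, b x (v i) = 2 * w i * e x i * M := by
    intro x i
    simp only [hb', hev, mul_ite, mul_zero, sum_ite_eq', mem_univ, if_true]
  choose m hm using fun i => hL (v i) (hNL (hvN i))
  have hm' : ∀ i, w i * (M : ℚ) ^ 2 = m i := by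
    intro i
    rw [← hm i, hq]
    simp only [hev, ite_pow, ne_eq, OfNat.ofNat_ne_zero, not_false_eq_true, zero_pow, mul_ite,
      mul_zero, sum_ite_eq', mem_univ, if_true]
  have hm0 : ∀ i, m i ≠ 0 := by
    intro i h0
    have := hm' i
    rw [h0, Int.cast_zero] at this
    exact mul_ne_zero (hw i) (pow_ne_zero 2 hMq) this
  have hm0' : ∀ i, (m i : ℚ) ≠ 0 := fun i => by exact_mod_cast hm0 i
  -- the orthogonal lattices
  let L₁ : AddSubgroup V :=
    { carrier := {x | ∀ i, ∃ k : ℤ, e x i = M * k}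
      add_mem' := fun {x y} hx hy i => by
        obtain ⟨k, hk⟩ := hx i
        obtain ⟨l, hl⟩ := hy i
        exact ⟨k + l, by rw [map_add, Pi.add_apply, hk, hl]; push_cast; ring⟩
      zero_mem' := fun i => ⟨0, by simp⟩
      neg_mem' := fun {x} hx i => by
        obtain ⟨k, hk⟩ := hx i
        exact ⟨-k, by rw [map_neg, Pi.neg_apply, hk]; push_cast; ring⟩ }
  let Λ₁ : AddSubgroup V :=
    { carrier := {x | ∀ i, ∃ k : ℤ, 2 * w i * e x i * M = k}
      add_mem' := fun {x y} hx hy i => by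
        obtain ⟨k, hk⟩ := hx i
        obtain ⟨l, hl⟩ := hy i
        exact ⟨k + l, by rw [map_add, Pi.add_apply]; push_cast; linear_combination hk + hl⟩
      zero_mem' := fun i => ⟨0, by simp⟩
      neg_mem' := fun {x} hx i => by
        obtain ⟨k, hk⟩ := hx i
        exact ⟨-k, by rw [map_neg, Pi.neg_apply]; push_cast; linear_combination -hk⟩ }
  let D : AddSubgroup V :=
    { carrier := {x | ∀ y ∈ L, ∃ k : ℤ, b x y = k}
      add_mem' := fun {x x'} hx hx' y hy => by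
        obtain ⟨k, hk⟩ := hx y hy
        obtain ⟨l, hl⟩ := hx' y hy
        exact ⟨k + l, by rw [hbl, hk, hl]; push_cast; ring⟩
      zero_mem' := fun y _ => ⟨0, by simp [hb']⟩
      neg_mem' := fun {x} hx y hy => by
        obtain ⟨k, hk⟩ := hx y hy
        exact ⟨-k, by rw [hbn, hk]; push_cast; ring⟩ }
  have hD : ∀ x, x ∈ D ↔ ∀ y ∈ L, eQ (b x y) = 1 := fun x =>
    forall₂_congr fun y _ => eQ_eq_one.symm
  have hL₁N : L₁ ≤ N := by
    intro x hx
    choose k hk using hx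
    have : x = ∑ i, k i • v i := by
      refine e.injective (funext fun j => ?_)
      simp only [map_sum, map_zsmul, Finset.sum_apply, Pi.smul_apply, hev, smul_ite, smul_zero,
        sum_ite_eq, mem_univ, if_true, hk]
      rw [zsmul_eq_mul, mul_comm]
    rw [this]
    exact N.sum_mem fun i _ => N.zsmul_mem (hvN i) _
  have hLD : L ≤ D := by
    intro x hx y hy
    obtain ⟨k₁, h1⟩ := hL x hx
    obtain ⟨k₂, h2⟩ := hL y hy
    obtain ⟨k₃, h3⟩ := hL _ (L.add_mem hx hy)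
    exact ⟨k₃ - k₁ - k₂, by push_cast; linear_combination h3 - h1 - h2 - hb x y⟩
  have hDΛ₁ : D ≤ Λ₁ := fun x hx i => by
    rw [← hbv]
    exact hx _ (hNL (hvN i))
  have hDΛ : D ≤ Λ := fun x hx => hdual x hx
  have hper₁ : ∀ x ∈ Λ₁, ∀ y ∈ L₁, eQ (b x y) = 1 := by
    intro x hx y hy
    rw [hb', eQ_sum]
    refine prod_eq_one fun i _ => ?_
    obtain ⟨k, hk⟩ := hx i
    obtain ⟨l, hl⟩ := hy i
    rw [hl, ← mul_assoc, hk, ← Int.cast_mul, eQ_int]
  let s₁ : Finset (ι → ℕ) := Fintype.piFinset fun i => range (2 * (m i).natAbs)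
  let φ₁ : (ι → ℕ) → V := fun t => e.symm fun i => (t i : ℚ) * M / (2 * m i)
  have hφ₁ : ∀ t i, e (φ₁ t) i = (t i : ℚ) * M / (2 * m i) := fun t i => by
    simp only [φ₁, LinearEquiv.apply_symm_apply]
  have h₁ : Res Λ₁ L₁ s₁ φ₁ := by
    refine ⟨fun t _ i => ⟨t i, ?_⟩, fun x hx => ?_, fun t ht t' ht' htt => ?_⟩
    · have := hm0' i
      rw [hφ₁, ← hm' i]
      have := hw i
      push_cast
      field_simp
    · choose k hk using hx
      have hpos : ∀ i, (0 : ℤ) < 2 * (m i).natAbs := fun i => by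
        have := Int.natAbs_pos.2 (hm0 i)
        omega
      refine ⟨fun i => (k i % (2 * (m i).natAbs)).toNat, Fintype.mem_piFinset.2 fun i => ?_,
        fun i => ?_⟩
      · rw [mem_range]
        have h1 := Int.emod_lt_of_pos (k i) (hpos i)
        have h2 := Int.emod_nonneg (k i) (hpos i).ne'
        omega
      · have h1 : 2 * m i ∣ k i - k i % (2 * (m i).natAbs) := by
          refine Dvd.dvd.trans ?_ (Int.dvd_self_sub_emod)
          exact mul_dvd_mul_left 2 (Int.dvd_natAbs.2 dvd_rfl)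
        obtain ⟨l, hl⟩ := h1
        refine ⟨l, ?_⟩
        have h2 : (((k i % (2 * (m i).natAbs)).toNat : ℕ) : ℚ) = k i - 2 * m i * l := by
          rw [← Int.cast_natCast, Int.toNat_of_nonneg (Int.emod_nonneg (k i) (hpos i).ne')]
          have : k i % (2 * (m i).natAbs) = k i - 2 * m i * l := by linear_combination -hl
          rw [this]
          push_cast
          rfl
        rw [map_sub, Pi.sub_apply, hφ₁, h2, ← hk i, ← hm' i]
        have := hw i
        field_simp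
        ring
    · funext i
      obtain ⟨l, hl⟩ := htt i
      rw [map_sub, Pi.sub_apply, hφ₁, hφ₁] at hl
      have h1 : ((t i : ℤ) - t' i : ℤ) = 2 * m i * l := by
        have := hm0' i
        have h2 : ((t i : ℚ) - t' i) = 2 * m i * l := by
          field_simp at hl
          linear_combination hl
        exact_mod_cast h2
      have h2 := mem_range.1 (Fintype.mem_piFinset.1 ht i)
      have h3 := mem_range.1 (Fintype.mem_piFinset.1 ht' i)
      have h4 : ((t i : ℤ) - t' i).natAbs = 2 * (m i).natAbs * l.natAbs := by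
        rw [h1, Int.natAbs_mul, Int.natAbs_mul]; rfl
      have h5 : l.natAbs = 0 := by
        by_contra h6
        have h7 : 2 * (m i).natAbs * 1 ≤ 2 * (m i).natAbs * l.natAbs :=
          Nat.mul_le_mul_left _ (Nat.pos_of_ne_zero h6)
        omega
      rw [h5, mul_zero] at h4
      omega
  have hf : ∀ x, ∀ y ∈ L, eQ (q (x + y)) = eQ (q x) * eQ (b x y) := by
    intro x y hy
    rw [hb, eQ_add, eQ_add, eQ_eq_one.2 (hL y hy), mul_one]
  have hB : ∀ x y y', eQ (b x (y + y')) = eQ (b x y) * eQ (b x y') := fun x y y' => by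
    rw [hbr, eQ_add]
  have hperN : ∀ x ∈ Λ, ∀ y ∈ N, eQ (b x y) = 1 := fun x hx y hy => eQ_eq_one.2 (hper x hx y hy)
  have i1 := h.iso hNL hLΛ (f := fun x => eQ (q x)) hf hB hperN hD
  have i2 := h₁.iso (hL₁N.trans hNL) (hLD.trans hDΛ₁) (f := fun x => eQ (q x)) hf hB hper₁ hD
  have r1 := h.filter (hNL.trans hLD) hDΛ
  have r2 := h₁.filter (hL₁N.trans (hNL.trans hLD)) hDΛ₁
  have r3 := h₁.filter hL₁N (hNL.trans (hLD.trans hDΛ₁))
  have hfD : ∀ x ∈ D, ∀ y ∈ N, eQ (q (x + y)) = eQ (q x) := fun x hx y hy => by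
    rw [hf x y (hNL hy), hperN x (hDΛ hx) y hy, mul_one]
  have i3 := r2.sum_eq (r1.prod r3 (hNL.trans hLD) hL₁N) (f := fun x => eQ (q x))
    fun x hx y hy => hfD x hx y (hL₁N hy)
  rw [sum_product, sum_congr rfl fun a ha => sum_congr rfl fun t ht =>
    hfD _ (r1.mem a ha) _ (r3.mem t ht)] at i3
  simp only [sum_const, nsmul_eq_mul] at i3
  rw [← mul_sum, ← i1, ← i2] at i3
  have hc : (0 : ℝ) < (s₁.filter fun a => φ₁ a ∈ N).card := by exact_mod_cast r3.card_pos
  have i4 : ∑ t ∈ s₁, eQ (q (φ₁ t)) =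
      ∏ i, ∑ t ∈ range (2 * (m i).natAbs), eQ ((t : ℚ) ^ 2 / (4 * m i)) := by
    rw [prod_univ_sum]
    refine sum_congr rfl fun t _ => ?_
    rw [hq, eQ_sum]
    refine prod_congr rfl fun i _ => ?_
    rw [hφ₁, ← hm' i]
    congr 1
    have := hw i
    field_simp
    ring
  have hsg : ∀ i, 0 < m i ↔ 0 < w i := fun i => by
    rw [← Int.cast_pos (R := ℚ), ← hm' i]
    exact mul_pos_iff_of_pos_right (by positivity)
  simp only [gs_int (hm0 _), hsg, prod_mul_distrib, prod_ite, prod_const] at i4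
  rw [← hsig, ← mul_pow, show (1 + I) * (1 - I) = ((2 : ℝ) : ℂ) by
    push_cast; linear_combination (-1 : ℂ) * I_mul_I] at i4
  refine ⟨(∏ i, √((m i).natAbs : ℝ)) * 2 ^ (univ.filter fun i => 0 < w i).card /
    (s₁.filter fun a => φ₁ a ∈ N).card, ?_, ?_⟩
  · refine div_pos (mul_pos (prod_pos fun i _ => Real.sqrt_pos.2 ?_) (by positivity)) hc
    exact_mod_cast Int.natAbs_pos.2 (hm0 i)
  · have hc' : (((s₁.filter fun a => φ₁ a ∈ N).card : ℕ) : ℂ) ≠ 0 := by
      exact_mod_cast r3.card_pos.ne'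
    rw [ofReal_div, ofReal_natCast, eq_div_iff hc', mul_comm, ← i3, i4]
    push_cast
    rfl

end milgram

end Vale.Agent.P016Z.Sym
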