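import Vale.Agent.P016Z.Base.Dat
import Mathlib.RingTheory.DedekindDomain.Dvr
import Mathlib.RingTheory.DedekindDomain.PID
import Mathlib.RingTheory.Ideal.Norm.AbsNorm
import Mathlib.NumberTheory.NumberField.ClassNumber
import Mathlib.RingTheory.RootsOfUnity.Lemmas
import Mathlib.LinearAlgebra.Countable
import Mathlib.LinearAlgebra.FreeModule.IdealQuotient

/-!
P016, block SYM: the ring `R = O[1/Q]` of `S`-integers (a principal ideal domain), the semilocal
ring `Lo` at the primes dividing `Q`, norms, approximation.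
-/

namespace Vale.Agent.P016Z.Sym

open NumberField Vale.Agent.P016Z.TH
open scoped ComplexConjugate

/-- splitting a natural number in a part dividing a power of `q` and a part prime to `q` -/
theorem nat_split (q : ℕ) {m : ℕ} (hm : m ≠ 0) :
    ∃ j m1 m2 : ℕ, m = m1 * m2 ∧ m1 ∣ q ^ j ∧ m2.Coprime q := by
  induction m using Nat.strong_induction_on with
  | _ m ih =>
    by_cases h : m.Coprime q
    · exact ⟨0, 1, m, by simp, by simp, h⟩
    · obtain ⟨m', hm'⟩ := Nat.gcd_dvd_left m q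
      have h1 : 1 < m.gcd q := by
        have h2 : m.gcd q ≠ 0 := fun h3 => hm (Nat.eq_zero_of_gcd_eq_zero_left h3)
        have h3 : m.gcd q ≠ 1 := h
        omega
      have h0 : m' ≠ 0 := by rintro rfl; exact hm (by simpa using hm')
      have hlt : m' < m := by
        conv_rhs => rw [hm']
        exact lt_mul_of_one_lt_left (Nat.pos_of_ne_zero h0) h1
      obtain ⟨j, m1, m2, e, h4, h5⟩ := ih m' hlt h0
      refine ⟨j + 1, m.gcd q * m1, m2, ?_, ?_, h5⟩
      · rw [mul_assoc, ← e, ← hm']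
      · rw [pow_succ']; exact mul_dvd_mul (Nat.gcd_dvd_right m q) h4

variable (K : Type) [Field K] [NumberField K] [Dat K]

/-- natural numbers prime to the level -/
abbrev copM : Submonoid ℕ := copT (Q K)

/-- the semilocal ring at the primes dividing `Q` -/
abbrev Lo : Subalgebra (𝓞 K) K := Si K

theorem Q_ne : Q K ≠ 0 := Dat.Q_ne

theorem Q_pos : 0 < Q K := Nat.pos_of_ne_zero (Q_ne K)

theorem dvd_Q : 216 ∣ Q K := Dat.dvd

theorem one_lt_Q : 1 < Q K := lt_of_lt_of_le (by norm_num) (Nat.le_of_dvd (Q_pos K) (dvd_Q K))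

theorem QK_ne : (Q K : K) ≠ 0 := by exact_mod_cast Q_ne K

theorem zero_notMem_powers : 0 ∉ Submonoid.powers (Q K) := by
  rintro ⟨j, h⟩
  exact pow_ne_zero j (Q_ne K) h

theorem zero_notMem_copM : 0 ∉ copM K := by
  intro h
  have h1 : Nat.Coprime 0 (Q K) := h
  have := one_lt_Q K
  simp at h1
  omega

instance : IsLocalization ((Submonoid.powers (Q K)).map (Nat.castRingHom (𝓞 K))) (R K) :=
  isLocalization_Loc (zero_notMem_powers K)

instance : IsLocalization ((copM K).map (Nat.castRingHom (𝓞 K))) (Lo K) :=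
  isLocalization_Loc (zero_notMem_copM K)

instance : Countable (R K) := by
  have : Countable K := Finsupp.Countable.of_moduleFinite (R := ℚ)
  infer_instance

variable {K}

theorem mem_R {x : K} : x ∈ R K ↔ ∃ j : ℕ, IsIntegral ℤ ((Q K : K) ^ j * x) := by
  constructor
  · rintro ⟨_, ⟨j, rfl⟩, h⟩
    exact ⟨j, by simpa using h⟩
  · rintro ⟨j, h⟩
    exact ⟨Q K ^ j, ⟨j, rfl⟩, by simpa using h⟩

theorem mem_Lo {x : K} : x ∈ Lo K ↔ ∃ m : ℕ, m.Coprime (Q K) ∧ IsIntegral ℤ ((m : K) * x) :=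
  Iff.rfl

theorem mem_R_of_int {x : K} (h : IsIntegral ℤ x) : x ∈ R K := mem_R.2 ⟨0, by simpa using h⟩

theorem mem_Lo_of_int {x : K} (h : IsIntegral ℤ x) : x ∈ Lo K :=
  mem_Lo.2 ⟨1, Nat.coprime_one_left _, by simpa using h⟩

theorem coe_mem_R (a : 𝓞 K) : (a : K) ∈ R K := mem_R_of_int a.isIntegral_coe

theorem coe_mem_Lo (a : 𝓞 K) : (a : K) ∈ Lo K := mem_Lo_of_int a.isIntegral_coe

theorem int_of_mem {x : K} (h : x ∈ R K) (h' : x ∈ Lo K) : IsIntegral ℤ x := by
  obtain ⟨j, h1⟩ := mem_R.1 h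
  obtain ⟨m, hm, h2⟩ := mem_Lo.1 h'
  obtain ⟨u, v, huv⟩ := Nat.isCoprime_iff_coprime.2 (hm.pow_right j)
  have h3 : (u : K) * m + v * (Q K : K) ^ j = 1 := by exact_mod_cast congrArg (Int.cast : ℤ → K) huv
  have : x = u * (m * x) + v * ((Q K : K) ^ j * x) := by linear_combination (-x) * h3
  rw [this]
  exact ((isIntegral_intCast u).mul h2).add ((isIntegral_intCast v).mul h1)

/-- the inclusion of the integers in `R` -/
abbrev oR (a : 𝓞 K) : R K := algebraMap (𝓞 K) (R K) a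

@[simp] theorem coe_oR (a : 𝓞 K) : ((oR a : R K) : K) = a := rfl

theorem oR_injective : Function.Injective (oR : 𝓞 K → R K) := fun _ _ h =>
  RingOfIntegers.ext (congrArg (fun t : R K => (t : K)) h)

theorem inv_nat_mem_R {m j : ℕ} (h : m ∣ Q K ^ j) : ((m : K))⁻¹ ∈ R K := by
  obtain ⟨k, hk⟩ := h
  have h0 : m ≠ 0 := by rintro rfl; exact pow_ne_zero j (Q_ne K) (by simpa using hk)
  have h1 : (m : K) ≠ 0 := by exact_mod_cast h0
  refine mem_R.2 ⟨j, ?_⟩
  have : (Q K : K) ^ j * (m : K)⁻¹ = k := by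
    rw [← Nat.cast_pow, hk]; push_cast; field_simp
  rw [this]; exact isIntegral_natCast k

theorem inv_nat_mem_Lo {m : ℕ} (h : m.Coprime (Q K)) : ((m : K))⁻¹ ∈ Lo K := by
  have h0 : m ≠ 0 := by rintro rfl; exact zero_notMem_copM K h
  have h1 : (m : K) ≠ 0 := by exact_mod_cast h0
  refine mem_Lo.2 ⟨m, h, ?_⟩
  rw [mul_inv_cancel₀ h1]; exact isIntegral_one

theorem isUnit_of_inv_mem {x : R K} (h0 : x ≠ 0) (h : (x : K)⁻¹ ∈ R K) : IsUnit x :=
  IsUnit.of_mul_eq_one ⟨_, h⟩ (Subtype.ext (mul_inv_cancel₀ fun h1 => h0 (Subtype.ext h1)))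

theorem isUnit_nat {m j : ℕ} (h : m ∣ Q K ^ j) : IsUnit (m : R K) := by
  have h0 : m ≠ 0 := by rintro rfl; exact pow_ne_zero j (Q_ne K) (by simpa using h)
  refine isUnit_of_inv_mem ?_ (by simpa using inv_nat_mem_R h)
  intro h1
  have h2 : ((m : R K) : K) = 0 := by rw [h1]; rfl
  exact h0 (by simpa using h2)

theorem isUnit_Q : IsUnit (Q K : R K) := isUnit_nat (j := 1) (by simp)

theorem isUnit_of_dvd_216 {m : ℕ} (h : m ∣ 216) : IsUnit (m : R K) :=
  isUnit_nat (j := 1) (by simpa using h.trans (dvd_Q K))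

theorem isUnit_two' : IsUnit (2 : R K) := by exact_mod_cast isUnit_of_dvd_216 (K := K) (m := 2) (by norm_num)

theorem isUnit_three : IsUnit (3 : R K) := by
  exact_mod_cast isUnit_of_dvd_216 (K := K) (m := 3) (by norm_num)

theorem exists_oR (x : R K) : ∃ (j : ℕ) (a : 𝓞 K), oR a = (Q K : R K) ^ j * x := by
  obtain ⟨j, h⟩ := mem_R.1 x.2
  refine ⟨j, ⟨_, h⟩, Subtype.ext ?_⟩
  change (Q K : K) ^ j * x = _
  simp

omit [Dat K] in
theorem exists_nat_mul (x : K) : ∃ m : ℕ, m ≠ 0 ∧ IsIntegral ℤ ((m : K) * x) := by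
  have hx : IsAlgebraic ℤ x :=
    (IsFractionRing.isAlgebraic_iff ℤ ℚ K).2 (Algebra.IsAlgebraic.isAlgebraic x)
  obtain ⟨y, hy, h⟩ := hx.exists_integral_multiple
  refine ⟨y.natAbs, Int.natAbs_ne_zero.2 hy, ?_⟩
  rw [zsmul_eq_mul] at h
  rcases Int.natAbs_eq y with h1 | h1
  · have : ((y.natAbs : ℕ) : K) = (y : K) := by
      conv_rhs => rw [h1]
      simp
    rwa [this]
  · have : ((y.natAbs : ℕ) : K) * x = -((y : K) * x) := by
      conv_rhs => rw [h1]
      simp
    rw [this]; exact h.neg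

/-- `K = R + Lo` -/
theorem exists_split (x : K) : ∃ y ∈ Lo K, x - y ∈ R K := by
  obtain ⟨m, hm, h⟩ := exists_nat_mul x
  obtain ⟨j, m1, m2, e, h1, h2⟩ := nat_split (Q K) hm
  have hc : m1.Coprime m2 := Nat.Coprime.coprime_dvd_left h1 (h2.symm.pow_left j)
  obtain ⟨u, v, huv⟩ := Nat.isCoprime_iff_coprime.2 hc
  have h3 : (u : K) * m1 + v * m2 = 1 := by exact_mod_cast congrArg (Int.cast : ℤ → K) huv
  have hm1 : (m1 : K) ≠ 0 := by
    have : m1 ≠ 0 := by rintro rfl; exact hm (by simpa using e)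
    exact_mod_cast this
  refine ⟨u * (m1 * x), mem_Lo.2 ⟨m2, h2, ?_⟩, ?_⟩
  · have : (m2 : K) * (u * (m1 * x)) = u * (m * x) := by rw [e]; push_cast; ring
    rw [this]; exact (isIntegral_intCast u).mul h
  · have : x - u * (m1 * x) = (v * (m * x)) * (m1 : K)⁻¹ := by
      rw [e]; push_cast; field_simp; linear_combination (-x) * h3
    rw [this]
    exact (R K).mul_mem (mem_R_of_int ((isIntegral_intCast v).mul h)) (inv_nat_mem_R h1)

/-- `K = R + Q^j Lo` -/
theorem exists_split_pow (x : K) (j : ℕ) : ∃ y ∈ Lo K, x - (Q K : K) ^ j * y ∈ R K := by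
  obtain ⟨y, hy, h⟩ := exists_split (x / (Q K : K) ^ j)
  refine ⟨y, hy, ?_⟩
  have h0 := pow_ne_zero j (QK_ne K)
  have : x - (Q K : K) ^ j * y = (Q K : K) ^ j * (x / (Q K : K) ^ j - y) := by field_simp
  rw [this]
  exact (R K).mul_mem ((R K).pow_mem (natCast_mem _ _) j) h

/-- a power of `Q` makes any element `S`-integral -/
theorem exists_pow_mul_mem_Lo (x : K) : ∃ j : ℕ, (Q K : K) ^ j * x ∈ Lo K := by
  obtain ⟨y, hy, h⟩ := exists_split x
  obtain ⟨j, h1⟩ := mem_R.1 h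
  refine ⟨j, ?_⟩
  have : (Q K : K) ^ j * x = (Q K : K) ^ j * (x - y) + (Q K : K) ^ j * y := by ring
  rw [this]
  exact (Lo K).add_mem (mem_Lo_of_int h1) ((Lo K).mul_mem ((Lo K).pow_mem (natCast_mem _ _) j) hy)

/-! ### approximation and finiteness of the residue rings -/

theorem comap_ne_bot {I : Ideal (R K)} (hI : I ≠ ⊥) : I.comap (algebraMap (𝓞 K) (R K)) ≠ ⊥ := by
  obtain ⟨y, hy, h0⟩ := Submodule.exists_mem_ne_zero_of_ne_bot hI
  obtain ⟨j, a, ha⟩ := exists_oR y
  intro h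
  have h1 : a ∈ I.comap (algebraMap (𝓞 K) (R K)) := by
    rw [Ideal.mem_comap]; change oR a ∈ I; rw [ha]; exact I.mul_mem_left _ hy
  rw [h, Ideal.mem_bot] at h1
  rw [h1, oR, map_zero] at ha
  exact h0 ((mul_eq_zero.1 ha.symm).resolve_left (isUnit_Q.pow j).ne_zero)

theorem exists_inv_Q {I : Ideal (R K)} (hI : I ≠ ⊥) : ∃ b : 𝓞 K, oR b * Q K - 1 ∈ I := by
  set J := I.comap (algebraMap (𝓞 K) (R K)) with hJ
  have : Finite (𝓞 K ⧸ J) := Ideal.finiteQuotientOfFreeOfNeBot _ (comap_ne_bot hI)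
  have hinj : Function.Injective fun x : 𝓞 K ⧸ J => x * (Q K : 𝓞 K ⧸ J) := by
    intro x y hxy
    obtain ⟨x, rfl⟩ := Ideal.Quotient.mk_surjective x
    obtain ⟨y, rfl⟩ := Ideal.Quotient.mk_surjective y
    simp only [] at hxy
    rw [← map_natCast (Ideal.Quotient.mk J), ← map_mul, ← map_mul, Ideal.Quotient.eq, ← sub_mul,
      hJ, Ideal.mem_comap, map_mul, map_natCast, Ideal.mul_unit_mem_iff_mem _ isUnit_Q] at hxy
    exact Ideal.Quotient.eq.2 hxy
  obtain ⟨b, hb⟩ := Finite.surjective_of_injective hinj 1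
  obtain ⟨b, rfl⟩ := Ideal.Quotient.mk_surjective b
  simp only [] at hb
  rw [← map_natCast (Ideal.Quotient.mk J), ← map_mul, ← map_one (Ideal.Quotient.mk J),
    Ideal.Quotient.eq, hJ, Ideal.mem_comap, map_sub, map_mul, map_natCast, map_one] at hb
  exact ⟨b, hb⟩

/-- every class modulo a nonzero ideal of `R` contains an element of `Q^j O` -/
theorem exists_small {I : Ideal (R K)} (hI : I ≠ ⊥) (x : R K) (j : ℕ) :
    ∃ a : 𝓞 K, x - (Q K : R K) ^ j * oR a ∈ I := by
  obtain ⟨b, hb⟩ := exists_inv_Q hI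
  obtain ⟨i, a, ha⟩ := exists_oR x
  refine ⟨b ^ (i + j) * a, ?_⟩
  have h1 : (oR b * Q K) ^ (i + j) - 1 ∈ I := by
    have := Ideal.mul_mem_left I (∑ k ∈ Finset.range (i + j), (oR b * Q K) ^ k) hb
    rwa [geom_sum_mul] at this
  have h2 : x - (Q K : R K) ^ j * oR (b ^ (i + j) * a) = -x * ((oR b * Q K) ^ (i + j) - 1) := by
    rw [oR, map_mul, map_pow]
    change x - _ * (oR b ^ (i + j) * oR a) = _
    rw [ha]; ring
  rw [h2]; exact I.mul_mem_left _ h1

theorem exists_small' {c : R K} (hc : c ≠ 0) (x : R K) (j : ℕ) :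
    ∃ a : 𝓞 K, c ∣ x - (Q K : R K) ^ j * oR a := by
  obtain ⟨a, h⟩ := exists_small (I := Ideal.span {c}) (by simpa using hc) x j
  exact ⟨a, Ideal.mem_span_singleton.1 h⟩

theorem quot_surjective {I : Ideal (R K)} (hI : I ≠ ⊥) :
    Function.Surjective fun a : 𝓞 K => Ideal.Quotient.mk I (oR a) := by
  intro y
  obtain ⟨y, rfl⟩ := Ideal.Quotient.mk_surjective y
  obtain ⟨a, h⟩ := exists_small hI y 0
  rw [pow_zero, one_mul] at h
  exact ⟨a, (Ideal.Quotient.eq.2 h).symm⟩

/-- the residue rings of `R` are residue rings of `O` -/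
noncomputable def quotEquiv {I : Ideal (R K)} (hI : I ≠ ⊥) :
    (𝓞 K ⧸ I.comap (algebraMap (𝓞 K) (R K))) ≃+* (R K ⧸ I) :=
  RingEquiv.ofBijective (Ideal.quotientMap I (algebraMap (𝓞 K) (R K)) le_rfl)
    ⟨Ideal.quotientMap_injective, fun y => by
      obtain ⟨a, rfl⟩ := quot_surjective hI y
      exact ⟨Ideal.Quotient.mk _ a, rfl⟩⟩

theorem finite_quot {I : Ideal (R K)} (hI : I ≠ ⊥) : Finite (R K ⧸ I) := by
  have : Finite (𝓞 K ⧸ I.comap (algebraMap (𝓞 K) (R K))) :=
    Ideal.finiteQuotientOfFreeOfNeBot _ (comap_ne_bot hI)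
  exact Finite.of_equiv _ (quotEquiv hI).toEquiv

/-- the norm of an ideal of `R` -/
noncomputable def NI (I : Ideal (R K)) : ℕ := Nat.card (R K ⧸ I)

/-- the norm of an element of `R`: the number of classes modulo `c` -/
noncomputable def N (c : R K) : ℕ := NI (Ideal.span {c})

theorem NI_eq_absNorm {I : Ideal (R K)} (hI : I ≠ ⊥) :
    NI I = Ideal.absNorm (I.comap (algebraMap (𝓞 K) (R K))) :=
  (Nat.card_congr (quotEquiv hI).toEquiv).symm

theorem NI_pos {I : Ideal (R K)} (hI : I ≠ ⊥) : 0 < NI I := by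
  have := finite_quot hI
  exact Nat.card_pos

theorem NI_bot : NI (⊥ : Ideal (R K)) = 0 := by
  have : Infinite (R K) := Infinite.of_injective _ (oR_injective (K := K))
  have : Infinite (R K ⧸ (⊥ : Ideal (R K))) :=
    Infinite.of_injective _ (RingEquiv.quotientBot (R K)).symm.injective
  exact Nat.card_eq_zero_of_infinite

theorem NI_top : NI (⊤ : Ideal (R K)) = 1 := Nat.card_unique

theorem NI_eq_one {I : Ideal (R K)} : NI I = 1 ↔ I = ⊤ := by
  refine ⟨fun h => ?_, fun h => h ▸ NI_top⟩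
  have := (Nat.card_eq_one_iff_unique.1 h).1
  exact Ideal.Quotient.subsingleton_iff.1 this

theorem N_pos {c : R K} (hc : c ≠ 0) : 0 < N c := NI_pos (by simpa using hc)

@[simp] theorem N_zero : N (0 : R K) = 0 := by
  rw [N, Ideal.span_singleton_zero, NI_bot]

@[simp] theorem N_one : N (1 : R K) = 1 := by rw [N, Ideal.span_singleton_one, NI_top]

theorem N_eq_one {c : R K} : N c = 1 ↔ IsUnit c := by
  rw [N, NI_eq_one, Ideal.span_singleton_eq_top]

theorem N_of_associated {a b : R K} (h : Associated a b) : N a = N b := by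
  rw [N, N, Ideal.span_singleton_eq_span_singleton.2 h]

theorem N_mul (a b : R K) : N (a * b) = N a * N b := by
  by_cases ha : a = 0
  · simp [ha]
  have h1 : ∀ c : R K, N c = (Ideal.span {c}).toAddSubgroup.index := fun c => rfl
  let f : R K →+ R K := AddMonoidHom.mulLeft a
  have hf : Function.Injective f := mul_right_injective₀ ha
  have e1 : (Ideal.span {a * b}).toAddSubgroup = (Ideal.span {b}).toAddSubgroup.map f := by
    ext x
    simp only [Submodule.mem_toAddSubgroup, Ideal.mem_span_singleton, AddSubgroup.mem_map]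
    constructor
    · rintro ⟨k, rfl⟩
      exact ⟨b * k, dvd_mul_right _ _, by simp [f, mul_assoc]⟩
    · rintro ⟨y, ⟨k, rfl⟩, rfl⟩
      exact ⟨k, by simp [f, mul_assoc]⟩
  have e2 : (Ideal.span {a}).toAddSubgroup = f.range := by
    ext x
    simp only [Submodule.mem_toAddSubgroup, Ideal.mem_span_singleton, AddMonoidHom.mem_range]
    constructor
    · rintro ⟨k, rfl⟩; exact ⟨k, rfl⟩
    · rintro ⟨k, rfl⟩; exact ⟨k, rfl⟩
  rw [h1, h1, h1, e1, e2, AddSubgroup.index_map_of_injective _ hf, mul_comm]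

theorem N_pow (a : R K) (n : ℕ) : N (a ^ n) = N a ^ n := by
  induction n with
  | zero => simp
  | succ n ih => rw [pow_succ, N_mul, ih, pow_succ]

theorem N_neg (a : R K) : N (-a) = N a := N_of_associated (Associated.refl a).neg_left

theorem NI_mul (I J : Ideal (R K)) : NI (I * J) = NI I * NI J := by
  obtain ⟨a, rfl⟩ := (IsPrincipalIdealRing.principal I).principal
  obtain ⟨b, rfl⟩ := (IsPrincipalIdealRing.principal J).principal
  change NI (Ideal.span {a} * Ideal.span {b}) = N a * N b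
  rw [Ideal.span_singleton_mul_span_singleton, ← N_mul, N]

theorem NI_mem (I : Ideal (R K)) : (NI I : R K) ∈ I := by
  rw [← Ideal.Quotient.eq_zero_iff_mem, map_natCast, ← nsmul_one, NI, card_nsmul_eq_zero']

theorem dvd_N (c : R K) : c ∣ (N c : R K) := Ideal.mem_span_singleton.1 (NI_mem _)

end Vale.Agent.P016Z.Sym
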