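import Vale.Agent.P016Z.Base.Psi
import Mathlib.NumberTheory.MulChar.Basic
import Mathlib.NumberTheory.LegendreSymbol.QuadraticChar.Basic
import Mathlib.FieldTheory.Finite.Basic
import Mathlib.RingTheory.RootsOfUnity.Lemmas

/-!
P016, block SYM: the sextic residue symbol on `R`.
-/

namespace Vale.Agent.P016Z.Sym

open NumberField Finset UniqueFactorizationMonoid
open scoped ComplexConjugate

/-- the sixth root of unity `exp(2 π i / 6)` -/
noncomputable def zC : ℂ := Complex.exp (2 * Real.pi * Complex.I / (6 : ℕ))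

theorem zC_prim : IsPrimitiveRoot zC 6 := Complex.isPrimitiveRoot_exp 6 (by norm_num)

theorem zC_pow_six : zC ^ 6 = 1 := zC_prim.pow_eq_one

theorem norm_zC : ‖zC‖ = 1 := zC_prim.norm'_eq_one (by norm_num)

theorem zC_cube : zC ^ 3 = -1 :=
  (zC_prim.pow (by norm_num) (show 6 = 3 * 2 by norm_num)).eq_neg_one_of_two_right

theorem zC_sq_prim : IsPrimitiveRoot (zC ^ 2) 3 := zC_prim.pow (by norm_num) (by norm_num)

section field

open Classical in
/-- the sextic character of a finite field attached to the root of unity `ζ` -/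
noncomputable def pf {F : Type} [CommRing F] (ζ x : F) : ℂ :=
  ∑ i ∈ range 6, if x ^ ((Nat.card F - 1) / 6) = ζ ^ i then zC ^ i else 0

variable {F : Type} [Field F] [Finite F] {ζ : F} (hζ : IsPrimitiveRoot ζ 6)

include hζ

omit [Finite F] in
theorem pf_of_eq {x : F} {i : ℕ} (h : x ^ ((Nat.card F - 1) / 6) = ζ ^ i) : pf ζ x = zC ^ i := by
  have h1 : ζ ^ i = ζ ^ (i % 6) := by
    conv_lhs => rw [← Nat.div_add_mod i 6, pow_add, pow_mul, hζ.pow_eq_one, one_pow, one_mul]
  have h2 : zC ^ i = zC ^ (i % 6) := by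
    conv_lhs => rw [← Nat.div_add_mod i 6, pow_add, pow_mul, zC_pow_six, one_pow, one_mul]
  have h3 : i % 6 < 6 := Nat.mod_lt _ (by norm_num)
  rw [pf, h, h1, h2, sum_eq_single (i % 6), if_pos rfl]
  · intro j hj hne
    rw [if_neg]
    intro h4
    exact hne (hζ.pow_inj h3 (mem_range.1 hj) h4).symm
  · intro h4; exact absurd (mem_range.2 h3) h4

omit hζ in
theorem pow_card_sub_one {x : F} (hx : x ≠ 0) : x ^ (Nat.card F - 1) = 1 := by
  have := Fintype.ofFinite F
  rw [Nat.card_eq_fintype_card]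
  exact FiniteField.pow_card_sub_one_eq_one x hx

theorem six_dvd : 6 ∣ Nat.card F - 1 :=
  hζ.dvd_of_pow_eq_one _ (pow_card_sub_one (hζ.ne_zero (by norm_num)))

theorem six_mul : 6 * ((Nat.card F - 1) / 6) = Nat.card F - 1 := Nat.mul_div_cancel' (six_dvd hζ)

theorem expo_pos : 0 < (Nat.card F - 1) / 6 := by
  have h1 := six_mul hζ
  have h2 : 1 < Nat.card F := Finite.one_lt_card
  omega

theorem exists_expo {x : F} (hx : x ≠ 0) : ∃ i < 6, x ^ ((Nat.card F - 1) / 6) = ζ ^ i := by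
  have h : (x ^ ((Nat.card F - 1) / 6)) ^ 6 = 1 := by
    rw [← pow_mul, mul_comm, six_mul hζ, pow_card_sub_one hx]
  obtain ⟨i, hi, e⟩ := hζ.eq_pow_of_pow_eq_one h
  exact ⟨i, hi, e.symm⟩

theorem pf_zero : pf ζ (0 : F) = 0 := by
  refine sum_eq_zero fun i _ => if_neg ?_
  rw [zero_pow (expo_pos hζ).ne']
  exact (pow_ne_zero i (hζ.ne_zero (by norm_num))).symm

omit [Finite F] in
theorem pf_one : pf ζ (1 : F) = 1 := by
  rw [pf_of_eq hζ (i := 0) (by simp), pow_zero]

theorem pf_mul (x y : F) : pf ζ (x * y) = pf ζ x * pf ζ y := by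
  by_cases hx : x = 0
  · rw [hx, zero_mul, pf_zero hζ, zero_mul]
  by_cases hy : y = 0
  · rw [hy, mul_zero, pf_zero hζ, mul_zero]
  obtain ⟨i, -, hi⟩ := exists_expo hζ hx
  obtain ⟨j, -, hj⟩ := exists_expo hζ hy
  rw [pf_of_eq hζ hi, pf_of_eq hζ hj, pf_of_eq hζ (i := i + j) (by rw [mul_pow, hi, hj, pow_add]),
    pow_add]

theorem pf_pow_six {x : F} (hx : x ≠ 0) : pf ζ x ^ 6 = 1 := by
  obtain ⟨i, -, hi⟩ := exists_expo hζ hx
  rw [pf_of_eq hζ hi, ← pow_mul, mul_comm, pow_mul, zC_pow_six, one_pow]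

/-- the sextic character as a multiplicative character -/
noncomputable def pch : MulChar F ℂ where
  toFun := pf ζ
  map_one' := pf_one hζ
  map_mul' := pf_mul hζ
  map_nonunit' x hx := by
    have : x = 0 := by simpa using hx
    rw [this, pf_zero hζ]

theorem pch_apply (x : F) : pch hζ x = pf ζ x := rfl

omit [Finite F] in
theorem zC_pow_eq_iff {a b : ℕ} : zC ^ a = zC ^ b ↔ ζ ^ a = ζ ^ b := by
  rw [(zC_prim.isOfFinOrder (by norm_num)).pow_eq_pow_iff_modEq,
    (hζ.isOfFinOrder (by norm_num)).pow_eq_pow_iff_modEq, ← zC_prim.eq_orderOf, ← hζ.eq_orderOf]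

theorem pf_pow_eq {x : F} (hx : x ≠ 0) {j i : ℕ} :
    pf ζ x ^ j = zC ^ i ↔ x ^ ((Nat.card F - 1) / 6 * j) = ζ ^ i := by
  obtain ⟨k, -, hk⟩ := exists_expo hζ hx
  rw [pf_of_eq hζ hk, pow_mul, hk, ← pow_mul, ← pow_mul, zC_pow_eq_iff hζ]

theorem exists_pf_pow_ne_one {j : ℕ} (h0 : 0 < j) (h6 : j < 6) :
    ∃ x : F, x ≠ 0 ∧ pf ζ x ^ j ≠ 1 := by
  obtain ⟨g, hg⟩ := IsCyclic.exists_ofOrder_eq_natCard (α := Fˣ)
  refine ⟨g, g.ne_zero, fun h => ?_⟩
  rw [← pow_zero zC, pf_pow_eq hζ g.ne_zero, pow_zero] at h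
  have h1 : g ^ ((Nat.card F - 1) / 6 * j) = 1 := Units.ext (by simpa using h)
  have h2 := orderOf_dvd_of_pow_eq_one h1
  rw [hg, Nat.card_units] at h2
  have h3 := expo_pos hζ
  have h4 := six_mul hζ
  have h5 := Nat.le_of_dvd (Nat.mul_pos h3 h0) h2
  nlinarith

theorem pch_pow_ne_one {j : ℕ} (h0 : 0 < j) (h6 : j < 6) : pch hζ ^ j ≠ 1 := by
  obtain ⟨x, hx, h⟩ := exists_pf_pow_ne_one hζ h0 h6
  intro h1
  apply h
  have := MulChar.pow_apply' (pch hζ) h0.ne' x
  rw [h1, MulChar.one_apply (isUnit_iff_ne_zero.2 hx)] at this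
  exact this.symm

theorem pch_pow_six : pch hζ ^ 6 = 1 := by
  ext x
  rw [MulChar.pow_apply_coe, MulChar.one_apply_coe]
  exact pf_pow_six hζ x.ne_zero

omit [Finite F] in
theorem root_cube : ζ ^ 3 = -1 :=
  (hζ.pow (by norm_num) (show 6 = 3 * 2 by norm_num)).eq_neg_one_of_two_right

omit [Finite F] in
theorem ringChar_ne_two : ringChar F ≠ 2 := by
  intro h
  have h1 : (2 : F) = 0 := by
    have := ringChar.Nat.cast_ringChar (R := F)
    rw [h] at this
    exact_mod_cast this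
  have h2 : ζ ^ 3 = 1 := by rw [root_cube hζ]; linear_combination -h1
  exact absurd (hζ.dvd_of_pow_eq_one 3 h2) (by norm_num)

theorem pf_cube [Fintype F] [DecidableEq F] (x : F) : pf ζ x ^ 3 = (quadraticChar F x : ℂ) := by
  by_cases hx : x = 0
  · rw [hx, pf_zero hζ]; simp
  have h1 : (Nat.card F - 1) / 6 * 3 = Fintype.card F / 2 := by
    have := six_mul hζ
    rw [← Nat.card_eq_fintype_card]
    have h2 : 1 < Nat.card F := Finite.one_lt_card
    omega
  rw [quadraticChar_eq_pow_of_char_ne_two (ringChar_ne_two hζ) hx]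
  split_ifs with h
  · rw [Int.cast_one, ← pow_zero zC, pf_pow_eq hζ hx, h1, h, pow_zero]
  · rw [Int.cast_neg, Int.cast_one, ← zC_cube, pf_pow_eq hζ hx, h1, root_cube hζ]
    exact (FiniteField.pow_dichotomy (ringChar_ne_two hζ) hx).resolve_left h

end field

variable {K : Type} [Field K] [NumberField K] [Dat K]

variable (K) in
/-- the twelfth root of unity in `R` -/
def zR : R K := ⟨z12 K, mem_R_of_isIntegral (Dat.hz.isIntegral (by norm_num))⟩

@[simp] theorem coe_zR : ((zR K : R K) : K) = z12 K := rfl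

theorem zR_prim : IsPrimitiveRoot (zR K) 12 :=
  IsPrimitiveRoot.of_map_of_injective (f := (R K).val) Dat.hz Subtype.val_injective

theorem zR_pow_six : zR K ^ 6 = -1 :=
  (zR_prim.pow (by norm_num) (show 12 = 6 * 2 by norm_num)).eq_neg_one_of_two_right

theorem isUnit_zR : IsUnit (zR K) := zR_prim.isUnit (by norm_num)

theorem isUnit_one_sub {k : ℕ} (h0 : 0 < k) (h : k < 12) : IsUnit (1 - zR K ^ k) := by
  have h1 := IsPrimitiveRoot.prod_one_sub_pow_eq_order (n := 11) (zR_prim (K := K))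
  have h2 : IsUnit (((11 : ℕ) : R K) + 1) := by
    exact_mod_cast isUnit_of_dvd_Q_pow (K := K) (m := 12) (k := 1)
      (by rw [pow_one]; exact Dvd.dvd.trans (by norm_num) (Q_dvd36 K))
  rw [← h1] at h2
  obtain ⟨k, rfl⟩ : ∃ j, k = j + 1 := ⟨k - 1, by omega⟩
  exact isUnit_of_dvd_unit 
    (Finset.dvd_prod_of_mem (fun k => 1 - zR K ^ (k + 1)) (mem_range.2 (by omega : k < 11))) h2

theorem prim_quot {I : Ideal (R K)} (hI : I ≠ ⊤) :
    IsPrimitiveRoot (Ideal.Quotient.mk I (zR K)) 12 := by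
  have := Ideal.Quotient.nontrivial_iff.2 hI
  refine IsPrimitiveRoot.mk_of_lt _ (by norm_num) ?_ fun k h0 h h1 => ?_
  · rw [← map_pow, zR_prim.pow_eq_one, map_one]
  · have h2 := (isUnit_one_sub (K := K) h0 h).map (Ideal.Quotient.mk I)
    rw [map_sub, map_one, map_pow, h1, sub_self] at h2
    exact not_isUnit_zero h2

theorem prim_quot_six {I : Ideal (R K)} (hI : I ≠ ⊤) :
    IsPrimitiveRoot (Ideal.Quotient.mk I (zR K ^ 2)) 6 := by
  rw [map_pow]; exact (prim_quot hI).pow (by norm_num) (by norm_num)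

instance {π : R K} [h : Fact (Prime π)] : (Ideal.span {π}).IsMaximal :=
  PrincipalIdealRing.isMaximal_of_irreducible h.1.irreducible

noncomputable instance {π : R K} [Fact (Prime π)] : Field (Rs π) := Ideal.Quotient.field _

instance {π : R K} [h : Fact (Prime π)] : Finite (Rs π) := finite_Rs h.1.ne_zero

theorem prim_rs (π : R K) [h : Fact (Prime π)] : IsPrimitiveRoot (rs π (zR K ^ 2)) 6 :=
  prim_quot_six (by simpa using h.1.not_isUnit)

theorem twelve_dvd {π : R K} (hπ : Prime π) : 12 ∣ Nr π - 1 := by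
  have : Fact (Prime π) := ⟨hπ⟩
  have h := prim_quot (K := K) (I := Ideal.span {π}) (by simpa using hπ.not_isUnit)
  exact h.dvd_of_pow_eq_one _ (pow_card_sub_one (h.ne_zero (by norm_num)))

theorem thirteen_le {π : R K} (hπ : Prime π) : 13 ≤ Nr π := by
  have : Fact (Prime π) := ⟨hπ⟩
  have h1 := twelve_dvd hπ
  have h2 : 1 < Nr π := Finite.one_lt_card (α := Rs π)
  omega

/-- the symbol at a prime ideal -/
noncomputable def chP (p : Ideal (R K)) (a : R K) : ℂ :=
  pf (Ideal.Quotient.mk p (zR K ^ 2)) (Ideal.Quotient.mk p a)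

open Classical in
/-- the sextic symbol `(a / I)_6` -/
noncomputable def sI (I : Ideal (R K)) (a : R K) : ℂ :=
  if I = ⊥ then 0 else ((normalizedFactors I).map fun p => chP p a).prod

/-- the sextic symbol `(a / c)_6` -/
noncomputable def x6 (c a : R K) : ℂ := sI (Ideal.span {c}) a

/-- the sextic symbol `(x / n)_6`, numerator first -/
noncomputable abbrev sym6 (x n : R K) : ℂ := x6 n x

theorem sI_bot (a : R K) : sI ⊥ a = 0 := if_pos rfl

theorem sI_top (a : R K) : sI ⊤ a = 1 := by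
  rw [sI, if_neg top_ne_bot, ← Ideal.one_eq_top, normalizedFactors_one]; simp

theorem sI_mul_left (I J : Ideal (R K)) (a : R K) : sI (I * J) a = sI I a * sI J a := by
  by_cases hI : I = ⊥
  · rw [hI, Ideal.bot_mul, sI_bot, zero_mul]
  by_cases hJ : J = ⊥
  · rw [hJ, Ideal.mul_bot, sI_bot, mul_zero]
  rw [sI, sI, sI, if_neg hI, if_neg hJ, if_neg (show I * J ≠ ⊥ from mul_ne_zero hI hJ),
    normalizedFactors_mul hI hJ,
    Multiset.map_add, Multiset.prod_add]

theorem sI_prime {p : Ideal (R K)} (hp : Prime p) (a : R K) : sI p a = chP p a := by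
  rw [sI, if_neg (show p ≠ ⊥ from hp.ne_zero), normalizedFactors_irreducible hp.irreducible,
    normalize_eq]; simp

@[simp] theorem x6_zero_left (a : R K) : x6 0 a = 0 := by
  rw [x6, Ideal.span_singleton_zero, sI_bot]

theorem x6_unit {u : R K} (hu : IsUnit u) (a : R K) : x6 u a = 1 := by
  rw [x6, Ideal.span_singleton_eq_top.2 hu, sI_top]

@[simp] theorem x6_one_left (a : R K) : x6 1 a = 1 := x6_unit isUnit_one a

theorem x6_mul_left (c d a : R K) : x6 (c * d) a = x6 c a * x6 d a := by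
  rw [x6, ← Ideal.span_singleton_mul_span_singleton, sI_mul_left, x6, x6]

theorem x6_pow_left (c a : R K) (n : ℕ) : x6 (c ^ n) a = x6 c a ^ n := by
  induction n with
  | zero => simp
  | succ n ih => rw [pow_succ, x6_mul_left, ih, pow_succ]

theorem x6_of_associated {c d : R K} (h : Associated c d) (a : R K) : x6 c a = x6 d a := by
  rw [x6, x6, Ideal.span_singleton_eq_span_singleton.2 h]

theorem x6_neg_left (c a : R K) : x6 (-c) a = x6 c a :=
  x6_of_associated (Associated.refl c).neg_left a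

theorem x6_prime {π : R K} (hπ : Prime π) (a : R K) : x6 π a = pf (rs π (zR K ^ 2)) (rs π a) :=
  sI_prime ((Ideal.prime_span_singleton_iff).2 hπ) a

/-- the sextic character of the residue field of a prime -/
noncomputable def X6 (π : R K) [Fact (Prime π)] : MulChar (Rs π) ℂ := pch (prim_rs π)

theorem X6_rs (π : R K) [h : Fact (Prime π)] (a : R K) : X6 π (rs π a) = x6 π a :=
  (x6_prime h.1 a).symm

theorem x6_mul (c a b : R K) : x6 c (a * b) = x6 c a * x6 c b := by
  induction c using induction_on_prime with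
  | h₁ => simp
  | h₂ u hu => simp [x6_unit hu]
  | h₃ c π _ hπ ih =>
    have : Fact (Prime π) := ⟨hπ⟩
    rw [x6_mul_left, x6_mul_left, x6_mul_left, ih, ← X6_rs π, ← X6_rs π, ← X6_rs π, map_mul,
      map_mul]
    ring

theorem x6_one_right {c : R K} (hc : c ≠ 0) : x6 c 1 = 1 := by
  induction c using induction_on_prime with
  | h₁ => exact absurd rfl hc
  | h₂ u hu => exact x6_unit hu 1
  | h₃ c π h0 hπ ih =>
    have : Fact (Prime π) := ⟨hπ⟩
    rw [x6_mul_left, ih h0, ← X6_rs π, map_one, map_one, one_mul]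

theorem x6_pow {c : R K} (hc : c ≠ 0) (a : R K) (n : ℕ) : x6 c (a ^ n) = x6 c a ^ n := by
  induction n with
  | zero => rw [pow_zero, pow_zero, x6_one_right hc]
  | succ n ih => rw [pow_succ, x6_mul, ih, pow_succ]

theorem x6_congr {c a b : R K} (h : c ∣ a - b) : x6 c a = x6 c b := by
  induction c using induction_on_prime with
  | h₁ => simp
  | h₂ u hu => simp [x6_unit hu]
  | h₃ c π _ hπ ih =>
    have : Fact (Prime π) := ⟨hπ⟩
    rw [x6_mul_left, x6_mul_left, ih (Dvd.dvd.trans (dvd_mul_left _ _) h), ← X6_rs π, ← X6_rs π,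
      rs_eq.2 (Dvd.dvd.trans (dvd_mul_right _ _) h)]

theorem x6_pow_six {c a : R K} (hc : c ≠ 0) (h : IsCoprime a c) : x6 c a ^ 6 = 1 := by
  induction c using induction_on_prime with
  | h₁ => exact absurd rfl hc
  | h₂ u hu => simp [x6_unit hu]
  | h₃ c π h0 hπ ih =>
    have : Fact (Prime π) := ⟨hπ⟩
    rw [x6_mul_left, mul_pow, ih h0 h.of_mul_right_right, mul_one, x6_prime hπ]
    refine pf_pow_six (prim_rs π) fun h1 => ?_
    exact hπ.coprime_iff_not_dvd.1 h.of_mul_right_left.symm (rs_eq_zero.1 h1)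

theorem x6_of_not_coprime {c a : R K} (h : ¬ IsCoprime a c) : x6 c a = 0 := by
  induction c using induction_on_prime with
  | h₁ => simp
  | h₂ u hu => exact absurd (by simpa using (isCoprime_mul_unit_left_right hu a 1).2 isCoprime_one_right) h
  | h₃ c π h0 hπ ih =>
    have : Fact (Prime π) := ⟨hπ⟩
    rw [x6_mul_left]
    by_cases h1 : IsCoprime a c
    · have h2 : π ∣ a := by
        by_contra h2
        exact h (IsCoprime.mul_right (hπ.coprime_iff_not_dvd.2 h2).symm h1)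
      rw [← X6_rs π, rs_eq_zero.2 h2, MulChar.map_zero, zero_mul]
    · rw [ih h1, mul_zero]

theorem norm_x6 {c a : R K} (hc : c ≠ 0) (h : IsCoprime a c) : ‖x6 c a‖ = 1 := by
  have h1 := congrArg norm (x6_pow_six hc h)
  rw [norm_pow, norm_one] at h1
  exact (pow_eq_one_iff_of_nonneg (norm_nonneg _) (by norm_num)).1 h1

theorem x6_ne_zero {c a : R K} (hc : c ≠ 0) (h : IsCoprime a c) : x6 c a ≠ 0 := by
  rw [← norm_ne_zero_iff, norm_x6 hc h]; exact one_ne_zero

theorem x6_eq_zero {c a : R K} (hc : c ≠ 0) : x6 c a = 0 ↔ ¬ IsCoprime a c :=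
  ⟨fun h h1 => x6_ne_zero hc h1 h, x6_of_not_coprime⟩

theorem norm_x6_le (c a : R K) : ‖x6 c a‖ ≤ 1 := by
  by_cases hc : c = 0
  · simp [hc]
  by_cases h : IsCoprime a c
  · exact (norm_x6 hc h).le
  · simp [x6_of_not_coprime h]

open Classical in
/-- indicator of coprimality -/
noncomputable def cop (m x : R K) : ℂ := if IsCoprime x m then 1 else 0

theorem cop_of_coprime {m x : R K} (h : IsCoprime x m) : cop m x = 1 := if_pos h

theorem cop_of_not {m x : R K} (h : ¬ IsCoprime x m) : cop m x = 0 := if_neg h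

theorem conj_x6_mul {c : R K} (hc : c ≠ 0) (a : R K) : conj (x6 c a) * x6 c a = cop c a := by
  by_cases h : IsCoprime a c
  · rw [cop_of_coprime h, Complex.conj_mul', norm_x6 hc h]; simp
  · rw [cop_of_not h, x6_of_not_coprime h, mul_zero]

theorem x6_six {c : R K} (hc : c ≠ 0) (a : R K) : x6 c a ^ 6 = cop c a := by
  by_cases h : IsCoprime a c
  · rw [cop_of_coprime h, x6_pow_six hc h]
  · rw [cop_of_not h, x6_of_not_coprime h]; simp

theorem conj_x6 (c a : R K) : conj (x6 c a) = x6 c a ^ 5 := by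
  by_cases hc : c = 0
  · simp [hc]
  by_cases h : IsCoprime a c
  · have h1 := conj_x6_mul hc a
    rw [cop_of_coprime h] at h1
    have h2 := x6_pow_six hc h
    linear_combination (x6 c a ^ 5) * h1 - conj (x6 c a) * h2
  · simp [x6_of_not_coprime h]

theorem x6_sixth {c t : R K} (hc : c ≠ 0) (h : IsCoprime t c) : x6 c (t ^ 6) = 1 := by
  rw [x6_pow hc, x6_pow_six hc h]

theorem coprime_of_isUnit {u : R K} (hu : IsUnit u) (c : R K) : IsCoprime u c := by
  simpa using (isCoprime_mul_unit_left_left hu 1 c).2 isCoprime_one_left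

theorem x6_neg_one {c : R K} (hc : c ≠ 0) : x6 c (-1) = 1 := by
  rw [← zR_pow_six, x6_sixth hc (coprime_of_isUnit isUnit_zR c)]

theorem x6_neg (c a : R K) : x6 c (-a) = x6 c a := by
  by_cases hc : c = 0
  · simp [hc]
  rw [← neg_one_mul, x6_mul, x6_neg_one hc, one_mul]

theorem exists_x6_pow_ne_one {π : R K} (hπ : Prime π) {j : ℕ} (h0 : 0 < j) (h6 : j < 6) :
    ∃ a : R K, ¬ π ∣ a ∧ x6 π a ^ j ≠ 1 := by
  have : Fact (Prime π) := ⟨hπ⟩
  obtain ⟨x, hx, h⟩ := exists_pf_pow_ne_one (prim_rs π) h0 h6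
  obtain ⟨a, rfl⟩ := Ideal.Quotient.mk_surjective x
  exact ⟨a, fun h1 => hx (rs_eq_zero.2 h1), by rwa [x6_prime hπ]⟩

/-- the defining congruence at a prime -/
theorem x6_prime_pow_eq {π a : R K} (hπ : Prime π) (ha : ¬ π ∣ a) {j i : ℕ} :
    x6 π a ^ j = zC ^ i ↔ π ∣ a ^ ((Nr π - 1) / 6 * j) - (zR K ^ 2) ^ i := by
  have : Fact (Prime π) := ⟨hπ⟩
  rw [x6_prime hπ, pf_pow_eq (prim_rs π) (fun h => ha (rs_eq_zero.1 h)), ← rs_eq, map_pow, map_pow]
  rfl

theorem x6_per (c : R K) : PerM c (x6 c) := fun _ _ h => x6_congr h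

theorem x6_sq_cube {c a : R K} (hc : c ≠ 0) (h : IsCoprime a c) : (x6 c a ^ 2) ^ 3 = 1 := by
  rw [← pow_mul]; exact x6_pow_six hc h

theorem x6_cube_sq {c a : R K} (hc : c ≠ 0) (h : IsCoprime a c) : (x6 c a ^ 3) ^ 2 = 1 := by
  rw [← pow_mul]; exact x6_pow_six hc h

theorem x6_prime_cube {π : R K} [Fact (Prime π)] [Fintype (Rs π)] [DecidableEq (Rs π)] (a : R K) :
    x6 π a ^ 3 = (quadraticChar (Rs π) (rs π a) : ℂ) := by
  rw [x6_prime Fact.out, pf_cube (prim_rs π)]

theorem X6_pow_ne_one (π : R K) [Fact (Prime π)] {j : ℕ} (h0 : 0 < j) (h6 : j < 6) :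
    X6 π ^ j ≠ 1 := pch_pow_ne_one _ h0 h6

theorem X6_pow_six (π : R K) [Fact (Prime π)] : X6 π ^ 6 = 1 := pch_pow_six _

end Vale.Agent.P016Z.Sym
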